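import Vale.Agent.P184.Lipschitz

/-!
Trace vanishing reduces to countable subgroups: the support of a matrix over `l^1(G)` is countable,
and so is a subgroup containing the support and conjugators for the class at hand.
-/

namespace Vale.Agent.P184

open Function

variable {G : Type*} [Group G] {ι : Type*} [Fintype ι] [DecidableEq ι]

omit [Fintype ι] [DecidableEq ι] in
lemma countable_closure_subgroup {s : Set G} (hs : s.Countable) :
    Countable (Subgroup.closure s) := by
  have : Countable s := hs.to_subtype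
  rw [FreeGroup.closure_eq_range]
  exact (FreeGroup.lift ((↑) : s → G)).rangeRestrict_surjective.countable

/-- Trace vanishing passes from countable subgroups to the group. -/
theorem trace_eq_zero_of_countable (e : G → Matrix ι ι ℂ)
    (he : ∀ i j, Summable fun x => ‖e x i j‖)
    (hi : ∀ x i j, ∑' y, ∑ k, e y i k * e (y⁻¹ * x) k j = e x i j) (g : G)
    (hvan : ∀ (Γ : Subgroup G) [Countable Γ] (hg : g ∈ Γ) (R : Γ → Matrix ι ι ℂ),
      (∀ i j, Summable fun x => ‖R x i j‖) →
      (∀ x i j, ∑' y, ∑ k, R y i k * R (y⁻¹ * x) k j = R x i j) →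
      ∑' x, {x | IsConj (⟨g, hg⟩ : Γ) x}.indicator (fun y => ∑ i, R y i i) x = 0) :
    ∑' x : G, {x | IsConj g x}.indicator (fun y => ∑ i, e y i i) x = 0 := by
  classical
  let S : Set G := ⋃ i, ⋃ j, support fun x => ‖e x i j‖
  have hS : S.Countable :=
    Set.countable_iUnion fun i => Set.countable_iUnion fun j => (he i j).countable_support
  have hoff : ∀ x ∉ S, ∀ i j, e x i j = 0 := fun x hx i j => by
    simpa [S] using fun h => hx (Set.mem_iUnion₂.mpr ⟨i, j, h⟩)
  have hk : ∀ x, ∃ k : G, IsConj g x → k * g * k⁻¹ = x := fun x => by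
    by_cases h : IsConj g x
    · obtain ⟨k, hk⟩ := isConj_iff.mp h
      exact ⟨k, fun _ => hk⟩
    · exact ⟨1, fun h' => absurd h' h⟩
  choose k hk using hk
  let Γ : Subgroup G := Subgroup.closure (insert g (S ∪ k '' S))
  have hcl : ∀ x ∈ insert g (S ∪ k '' S), x ∈ Γ := fun x hx => Subgroup.subset_closure hx
  have : Countable Γ := countable_closure_subgroup ((hS.union (hS.image k)).insert g)
  have hg : g ∈ Γ := hcl g (Set.mem_insert _ _)
  have hSΓ : ∀ x ∈ S, x ∈ Γ := fun x hx => hcl x (Or.inr (Or.inl hx))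
  have hinj : Injective ((↑) : Γ → G) := Subtype.val_injective
  have hR := hvan Γ hg (fun x => e x)
    (fun i j => (he i j).comp_injective hinj)
    (fun x i j => by
      refine Eq.trans ?_ (hi x i j)
      refine (hinj.tsum_eq (f := fun y => ∑ k, e y i k * e (y⁻¹ * x) k j) ?_)
      intro y hy
      by_cases hyS : y ∈ S
      · exact ⟨⟨y, hSΓ y hyS⟩, rfl⟩
      · exact absurd (by simp [hoff y hyS]) hy)
  refine Eq.trans ?_ hR
  rw [← hinj.tsum_eq (f := {x | IsConj g x}.indicator (fun y => ∑ i, e y i i))]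
  · refine tsum_congr fun x => ?_
    by_cases h : IsConj (⟨g, hg⟩ : Γ) x
    · have hG : IsConj g (x : G) := Γ.subtype.map_isConj h
      rw [Set.indicator_of_mem (show (x : G) ∈ {x | IsConj g x} from hG),
        Set.indicator_of_mem (show x ∈ {x | IsConj (⟨g, hg⟩ : Γ) x} from h)]
    · rw [Set.indicator_of_notMem (show x ∉ {x | IsConj (⟨g, hg⟩ : Γ) x} from h)]
      by_cases hG : IsConj g (x : G)
      · have hxS : (x : G) ∉ S := fun hxS => h (isConj_iff.mpr
          ⟨⟨k x, hcl _ (Or.inr (Or.inr ⟨_, hxS, rfl⟩))⟩, Subtype.ext (hk x hG)⟩)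
        rw [Set.indicator_of_mem (show (x : G) ∈ {x | IsConj g x} from hG)]
        simp [hoff _ hxS]
      · rw [Set.indicator_of_notMem (show (x : G) ∉ {x | IsConj g x} from hG)]
  · intro x hx
    by_cases hxS : x ∈ S
    · exact ⟨⟨x, hSΓ x hxS⟩, rfl⟩
    · exact absurd (by simp [hoff x hxS]) hx

end Vale.Agent.P184
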