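import Mathlib

/-!
Real deformations of a real point moving a transcendental coordinate and preserving all
rational polynomial relations.
-/

namespace Vale.Agent.P184

open Filter Topology Polynomial IntermediateField

/-- the filter of small nonzero parameters -/
noncomputable abbrev punct : Filter ℝ := 𝓝[≠] (0 : ℝ)

/-- nearest zero selection -/
lemma exists_root_selection (G : ℝ → ℝ → ℝ) (hGc : ∀ t, Continuous (G t)) (F : ℝ → ℝ) (θ d : ℝ)
    (hlim : ∀ s, Tendsto (fun t => G t s) punct (𝓝 (F s))) (hF : F θ = 0)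
    (hd : HasDerivAt F d θ) (hd0 : d ≠ 0) :
    ∃ θt : ℝ → ℝ, Tendsto θt punct (𝓝 θ) ∧ ∀ᶠ t in punct, G t (θt t) = 0 := by
  classical
  have hsl : ∀ᶠ s in 𝓝[≠] θ, 0 < slope F θ s * d :=
    ((hasDerivAt_iff_tendsto_slope.mp hd).mul_const d).eventually
      (lt_mem_nhds (mul_self_pos.mpr hd0))
  obtain ⟨ε0, hε0, hε0'⟩ := Metric.mem_nhdsWithin_iff.mp hsl
  have sign : ∀ ε, 0 < ε → ε < ε0 → 0 < F (θ + ε) * d ∧ F (θ - ε) * d < 0 := by
    intro ε h0 h1
    have hp : 0 < slope F θ (θ + ε) * d :=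
      hε0' ⟨by simp [abs_of_pos h0, h1], by simp [h0.ne']⟩
    have hm : 0 < slope F θ (θ - ε) * d :=
      hε0' ⟨by simp [abs_of_pos h0, h1], by simp [h0.ne']⟩
    rw [slope_def_field, hF, sub_zero, add_sub_cancel_left, div_mul_eq_mul_div] at hp
    rw [slope_def_field, hF, sub_zero, sub_sub_cancel_left, div_mul_eq_mul_div, div_neg,
      neg_pos] at hm
    exact ⟨(div_pos_iff_of_pos_right h0).mp hp, (div_neg_iff.mp hm).resolve_left (by rintro ⟨_, h⟩; linarith) |>.1⟩
  have hnear : ∀ ε, 0 < ε → ε < ε0 → ∀ᶠ t in punct, ∃ s, G t s = 0 ∧ |s - θ| ≤ ε := by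
    intro ε h0 h1
    obtain ⟨hp, hm⟩ := sign ε h0 h1
    filter_upwards [((hlim (θ + ε)).mul_const d).eventually (lt_mem_nhds hp),
      ((hlim (θ - ε)).mul_const d).eventually (gt_mem_nhds hm)] with t h2 h3
    obtain ⟨s, hs, hs'⟩ := intermediate_value_Icc (show θ - ε ≤ θ + ε by linarith)
      ((hGc t).mul continuous_const).continuousOn ⟨h3.le, h2.le⟩
    exact ⟨s, (mul_eq_zero.mp hs').resolve_right hd0,
      abs_le.mpr ⟨by linarith [hs.1], by linarith [hs.2]⟩⟩
  have hclosed : ∀ t, IsClosed {s | G t s = 0} := fun t => isClosed_eq (hGc t) continuous_const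
  have sel : ∀ t, ∃ u : ℝ, ∀ s, G t s = 0 → G t u = 0 ∧ |u - θ| ≤ |s - θ| := by
    intro t
    by_cases h : {s | G t s = 0}.Nonempty
    · obtain ⟨u, hu, hu'⟩ := (hclosed t).exists_infDist_eq_dist h θ
      refine ⟨u, fun s hs => ⟨hu, ?_⟩⟩
      have := Metric.infDist_le_dist_of_mem (x := θ) (s := {s | G t s = 0}) hs
      rw [hu', Real.dist_eq, Real.dist_eq] at this
      rwa [abs_sub_comm u, abs_sub_comm s]
    · exact ⟨θ, fun s hs => absurd ⟨s, hs⟩ h⟩
  choose θt hθt using sel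
  refine ⟨θt, ?_, ?_⟩
  · rw [Metric.tendsto_nhds]
    intro ε hε
    filter_upwards [hnear (min ε ε0 / 2) (by positivity)
      (by linarith [min_le_right ε ε0])] with t ⟨s, hs, hs'⟩
    rw [Real.dist_eq]
    linarith [(hθt t s hs).2, min_le_left ε ε0]
  · filter_upwards [hnear (ε0 / 2) (by positivity) (by linarith)] with t ⟨s, hs, _⟩
    exact (hθt t s hs).1

lemma exists_path_germ {M : ℕ} (x : Fin M → ℝ) (i₀ : Fin M) (ha : Transcendental ℚ (x i₀)) :
    ∃ f : ℝ → Fin M → ℝ, Tendsto f punct (𝓝 x) ∧ (∀ᶠ t in punct, f t i₀ = x i₀ + t) ∧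
      ∀ P : MvPolynomial (Fin M) ℚ, MvPolynomial.aeval x P = 0 →
        ∀ᶠ t in punct, MvPolynomial.aeval (f t) P = 0 := by
  classical
  set a := x i₀
  -- a transcendence basis through `a`
  have hsing : AlgebraicIndepOn ℚ id ({a} : Set ℝ) :=
    algebraicIndependent_unique_type_iff.mpr ha
  obtain ⟨B, haB', hB⟩ := exists_isTranscendenceBasis_superset hsing
  have haB : a ∈ B := haB' rfl
  let K0 : IntermediateField ℚ ℝ := IntermediateField.adjoin ℚ (B \ {a})
  have htr : Transcendental K0 a := by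
    rw [IntermediateField.transcendental_adjoin_iff]
    have h := hB.1.transcendental_adjoin (s := {b : B | (b : ℝ) ≠ a}) (i := ⟨a, haB⟩) (by simp)
    have hs : ((↑) '' {b : B | (b : ℝ) ≠ a} : Set ℝ) = B \ {a} := by
      ext z; simp [and_comm]
    rwa [hs] at h
  have hBalg : Algebra.IsAlgebraic (IntermediateField.adjoin ℚ B) ℝ := by
    have := hB.isAlgebraic_field
    rwa [Subtype.range_coe] at this
  have hLB : (IntermediateField.adjoin K0 {a}).restrictScalars ℚ = IntermediateField.adjoin ℚ B := by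
    show (IntermediateField.adjoin (IntermediateField.adjoin ℚ (B \ {a})) {a}).restrictScalars ℚ = _
    erw [IntermediateField.adjoin_adjoin_left ℚ (B \ {a}) {a}]
    congr 1
    ext z; by_cases hz : z = a <;> simp [hz, haB]
  have hLalg : Algebra.IsAlgebraic K0⟮a⟯ ℝ := by
    refine ⟨fun z => ?_⟩
    obtain ⟨p, hp0, hp⟩ := hBalg.isAlgebraic z
    let e : IntermediateField.adjoin ℚ B →+* K0⟮a⟯ :=
      { toFun := fun u => ⟨(u : ℝ), by
          show (u : ℝ) ∈ (IntermediateField.adjoin K0 {a}).restrictScalars ℚ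
          rw [hLB]; exact u.2⟩
        map_one' := rfl
        map_mul' := fun _ _ => rfl
        map_zero' := rfl
        map_add' := fun _ _ => rfl }
    refine ⟨p.map e, (Polynomial.map_ne_zero_iff e.injective).mpr hp0, ?_⟩
    rw [aeval_def, eval₂_map]
    exact hp
  -- the germ valued hom
  let c : K0 →+* (ℝ → ℝ) := RingHom.comp (algebraMap ℝ (ℝ → ℝ)) (algebraMap K0 ℝ)
  let j : (ℝ → ℝ) →+* Germ punct ℝ := Germ.coeRingHom punct
  let ev : K0[X] →+* (ℝ → ℝ) := eval₂RingHom c (fun t => a + t)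
  have hev : ∀ (q : K0[X]) t, ev q t = aeval (a + t) q := fun q t => by
    show Pi.evalRingHom (fun _ : ℝ => ℝ) t (eval₂ c (fun t => a + t) q) = _
    rw [hom_eval₂]
    rfl
  have hevlim : ∀ q : K0[X], Tendsto (ev q) punct (𝓝 (aeval a q)) := fun q => by
    have : Continuous fun t : ℝ => aeval (a + t) q := q.continuous_aeval.comp (by fun_prop)
    simpa [funext (hev q)] using (this.tendsto 0).mono_left nhdsWithin_le_nhds
  have hne : ∀ q : K0[X], q ≠ 0 → aeval a q ≠ 0 := fun q hq h => htr ⟨q, hq, h⟩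
  have hunit : ∀ q : nonZeroDivisors K0[X], IsUnit ((j.comp ev) q) := fun q => by
    refine IsUnit.of_mul_eq_one (j fun t => (ev q t)⁻¹) ?_
    rw [RingHom.comp_apply, ← map_mul]
    apply Germ.coe_eq.mpr
    filter_upwards [(hevlim q).eventually (isOpen_ne.mem_nhds (hne q (nonZeroDivisors.coe_ne_zero q)))]
      with t ht
    exact mul_inv_cancel₀ ht
  let ψ0 : RatFunc K0 →+* Germ punct ℝ := IsLocalization.lift hunit
  have hψ0 : ∀ q, ψ0 (algebraMap K0[X] (RatFunc K0) q) = j (ev q) :=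
    fun q => IsLocalization.lift_eq hunit q
  let eL := RatFunc.algEquivOfTranscendental a htr
  let ψ : K0⟮a⟯ →+* Germ punct ℝ := ψ0.comp (eL.symm : K0⟮a⟯ →+* RatFunc K0)
  have hrep : ∀ l : K0⟮a⟯, ∃ r : ℝ → ℝ, ψ l = j r ∧ Tendsto r punct (𝓝 (l : ℝ)) := by
    intro l
    obtain ⟨u, rfl⟩ := eL.surjective l
    refine ⟨fun t => ev u.num t / ev u.denom t, ?_, ?_⟩
    · show ψ0 (eL.symm (eL u)) = _
      rw [AlgEquiv.symm_apply_apply]
      have h1 : ψ0 u * j (ev u.denom) = j (ev u.num) := by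
        rw [← hψ0, ← hψ0, ← map_mul]
        congr 1
        conv_lhs => arg 1; rw [← RatFunc.num_div_denom u]
        exact div_mul_cancel₀ _ (RatFunc.algebraMap_ne_zero u.denom_ne_zero)
      have h2 : IsUnit (j (ev u.denom)) :=
        hunit ⟨u.denom, mem_nonZeroDivisors_of_ne_zero u.denom_ne_zero⟩
      apply h2.mul_right_cancel
      rw [h1, ← map_mul]
      apply Germ.coe_eq.mpr
      filter_upwards [(hevlim u.denom).eventually
        (isOpen_ne.mem_nhds (hne _ u.denom_ne_zero))] with t ht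
      exact (div_mul_cancel₀ _ ht).symm
    · rw [RatFunc.algEquivOfTranscendental_apply]
      exact (hevlim _).div (hevlim _) (hne _ u.denom_ne_zero)
  choose r hrψ hrlim using hrep
  -- primitive element
  let E : IntermediateField K0⟮a⟯ ℝ := IntermediateField.adjoin K0⟮a⟯ (Set.range x)
  have : FiniteDimensional K0⟮a⟯ E :=
    IntermediateField.finiteDimensional_adjoin fun z _ => (hLalg.isAlgebraic z).isIntegral
  obtain ⟨α, hα⟩ := Field.exists_primitive_element K0⟮a⟯ E
  have hαi : IsIntegral K0⟮a⟯ α := Algebra.IsIntegral.isIntegral α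
  have hpoly : ∀ i, ∃ p : (K0⟮a⟯)[X], aeval (α : ℝ) p = x i := by
    intro i
    have h1 : (⟨x i, IntermediateField.subset_adjoin _ _ ⟨i, rfl⟩⟩ : E) ∈
        Algebra.adjoin K0⟮a⟯ {α} := by
      rw [← IntermediateField.adjoin_simple_toSubalgebra_of_isAlgebraic hαi.isAlgebraic, hα]
      trivial
    rw [Algebra.adjoin_singleton_eq_range_aeval] at h1
    obtain ⟨p, hp⟩ := h1
    exact ⟨p, by
      rw [show (α : ℝ) = E.val α from rfl, aeval_algHom_apply]
      exact congrArg Subtype.val hp⟩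
  choose p hp using hpoly
  set θ : ℝ := (α : ℝ)
  set m := minpoly K0⟮a⟯ θ
  have hθi : IsIntegral K0⟮a⟯ θ := (hLalg.isAlgebraic θ).isIntegral
  let G : (K0⟮a⟯)[X] → ℝ → ℝ → ℝ :=
    fun q t s => ∑ k ∈ Finset.range (q.natDegree + 1), r (q.coeff k) t * s ^ k
  have hGlim : ∀ q s, Tendsto (fun t => G q t s) punct (𝓝 (aeval s q)) := fun q s => by
    rw [aeval_eq_sum_range]
    refine tendsto_finsetSum _ fun k _ => ?_
    rw [Algebra.smul_def]
    exact (hrlim _).mul_const _
  have hsep : (aeval θ (derivative m)) ≠ 0 :=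
    (minpoly.irreducible hθi).separable.aeval_derivative_ne_zero (minpoly.aeval _ _)
  obtain ⟨θt, hθt, hroot⟩ := exists_root_selection (G m) (fun t => by fun_prop)
    (fun s => aeval s m) θ _ (hGlim m) (minpoly.aeval _ _) (m.hasDerivAt_aeval θ) hsep
  let Φ : (K0⟮a⟯)[X] →+* Germ punct ℝ := eval₂RingHom ψ (j θt)
  have hΦ : ∀ q, Φ q = j (fun t => G q t (θt t)) := fun q => by
    show eval₂ ψ (j θt) q = _
    rw [eval₂_eq_sum_range]
    simp only [hrψ, ← map_pow, ← map_mul, ← map_sum]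
    congr 1
    ext t
    simp [G, Finset.sum_apply]
  have hm : Φ m = 0 := by
    rw [hΦ, ← map_zero j]
    exact Germ.coe_eq.mpr hroot
  have hker : ∀ q, aeval θ q = 0 → Φ q = 0 := fun q hq => by
    obtain ⟨s, rfl⟩ := minpoly.dvd K0⟮a⟯ θ hq
    rw [map_mul, hm, zero_mul]
  let f : ℝ → Fin M → ℝ := fun t i => G (p i) t (θt t)
  refine ⟨f, ?_, ?_, ?_⟩
  · refine tendsto_pi_nhds.mpr fun i => ?_
    rw [← hp i, aeval_eq_sum_range]
    refine tendsto_finsetSum _ fun k _ => ?_
    rw [Algebra.smul_def]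
    exact (hrlim _).mul (hθt.pow k)
  · have h1 : Φ (p i₀) = Φ (Polynomial.C (AdjoinSimple.gen K0 a)) := by
      rw [← sub_eq_zero, ← map_sub]
      apply hker
      rw [map_sub, hp, aeval_C]
      exact sub_self a
    have h2 : Φ (Polynomial.C (AdjoinSimple.gen K0 a)) = j (fun t => a + t) := by
      show eval₂ ψ (j θt) (Polynomial.C (AdjoinSimple.gen K0 a)) = _
      rw [eval₂_C]
      show ψ0 (eL.symm (AdjoinSimple.gen K0 a)) = _
      rw [RatFunc.algEquivOfTranscendental_symm_gen, ← RatFunc.algebraMap_X, hψ0]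
      simp [ev]
    rw [h2, hΦ] at h1
    exact Germ.coe_eq.mp h1
  · intro P hP
    have e1 : (Φ.comp (MvPolynomial.aeval p : MvPolynomial (Fin M) ℚ →ₐ[ℚ] _).toRingHom) =
        j.comp (MvPolynomial.aeval (fun i t => f t i) :
          MvPolynomial (Fin M) ℚ →ₐ[ℚ] (ℝ → ℝ)).toRingHom := by
      refine MvPolynomial.ringHom_ext (fun q => ?_) (fun i => ?_)
      · exact RingHom.congr_fun (Subsingleton.elim
          (((Φ.comp (MvPolynomial.aeval p : MvPolynomial (Fin M) ℚ →ₐ[ℚ] _).toRingHom)).comp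
            MvPolynomial.C)
          ((j.comp (MvPolynomial.aeval (fun i t => f t i) :
          MvPolynomial (Fin M) ℚ →ₐ[ℚ] (ℝ → ℝ)).toRingHom).comp MvPolynomial.C)) q
      · simp only [RingHom.comp_apply, AlgHom.toRingHom_eq_coe, RingHom.coe_coe,
          MvPolynomial.aeval_X, hΦ]
        rfl
    have e2 : Φ (MvPolynomial.aeval p P) = 0 := hker _ (by
      rw [← AlgHom.restrictScalars_apply ℚ (aeval (R := K0⟮a⟯) θ), ← AlgHom.comp_apply,
        MvPolynomial.comp_aeval]
      simpa [hp] using hP)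
    have e3 := RingHom.congr_fun e1 P
    simp only [RingHom.comp_apply, AlgHom.toRingHom_eq_coe, RingHom.coe_coe, e2] at e3
    rw [← map_zero j] at e3
    filter_upwards [Germ.coe_eq.mp e3.symm] with t ht
    have h5 := DFunLike.congr_fun (MvPolynomial.comp_aeval (fun i t => f t i)
      (Pi.evalAlgHom ℚ (fun _ : ℝ => ℝ) t)) P
    exact h5.symm.trans ht

/-- A transcendental coordinate can be moved preserving all rational relations. -/
theorem exists_path {M : ℕ} (x : Fin M → ℝ) (i₀ : Fin M) (ha : Transcendental ℚ (x i₀)) :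
    ∃ f : ℝ → Fin M → ℝ, Tendsto f punct (𝓝 x) ∧ ∀ᶠ t in punct, f t i₀ = x i₀ + t ∧
      ∀ P : MvPolynomial (Fin M) ℚ, MvPolynomial.aeval x P = 0 →
        MvPolynomial.aeval (f t) P = 0 := by
  obtain ⟨f, h1, h2, h3⟩ := exists_path_germ x i₀ ha
  refine ⟨f, h1, ?_⟩
  set I : Ideal (MvPolynomial (Fin M) ℚ) := RingHom.ker (MvPolynomial.aeval x)
  obtain ⟨S, hS⟩ := IsNoetherian.noetherian I
  have h4 : ∀ᶠ t in punct, ∀ P ∈ S, MvPolynomial.aeval (f t) P = 0 :=
    (Finset.eventually_all S).mpr fun P hP => h3 P (by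
      have : P ∈ I := hS ▸ Submodule.subset_span hP
      exact this)
  filter_upwards [h2, h4] with t ht2 ht4
  refine ⟨ht2, fun P hP => ?_⟩
  have hle : I ≤ RingHom.ker (MvPolynomial.aeval (f t) : MvPolynomial (Fin M) ℚ →ₐ[ℚ] ℝ) := by
    rw [← hS]
    exact Submodule.span_le.mpr fun Q hQ => ht4 Q hQ
  exact hle hP

end Vale.Agent.P184
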