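import Vale.Agent.P184.Restrict
import Vale.Agent.P184.Path

/-!
Trace vanishing for idempotents over `l^1(G)` at elements with a transcendental character value
of a finite dimensional unitary representation.
-/

namespace Vale.Agent.P184

open Filter Topology Matrix Kronecker

attribute [local instance] Matrix.linftyOpNormedRing Matrix.linftyOpNormedAlgebra

section newton

variable {G : Type*} [Group G] {A : Type*} [NormedRing A] [CompleteSpace A]

/-- the `l^1` norm -/
noncomputable def nrm (f : l1Sub G A) : ℝ := ∑' x, ‖f.1 x‖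

omit [Group G] [CompleteSpace A] in
lemma nrm_nonneg (f : l1Sub G A) : 0 ≤ nrm f := tsum_nonneg fun _ => norm_nonneg _

omit [Group G] [CompleteSpace A] in
lemma nrm_add_le (f g : l1Sub G A) : nrm (f + g) ≤ nrm f + nrm g := by
  refine le_trans ?_ (f.2.tsum_add g.2).le
  exact Summable.tsum_le_tsum (fun x => norm_add_le _ _) (f + g).2 (f.2.add g.2)

omit [Group G] [CompleteSpace A] in
lemma nrm_neg (f : l1Sub G A) : nrm (-f) = nrm f := tsum_congr fun x => norm_neg (f.1 x)

omit [Group G] [CompleteSpace A] in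
lemma nrm_sub_le (f g : l1Sub G A) : nrm (f - g) ≤ nrm f + nrm g := by
  rw [sub_eq_add_neg]; exact (nrm_add_le _ _).trans (by rw [nrm_neg])

lemma nrm_mul_le (f g : l1Sub G A) : nrm (f * g) ≤ nrm f * nrm g := (conv_norm f.2 g.2).2

omit [Group G] [CompleteSpace A] in
lemma le_nrm (f : l1Sub G A) (x : G) : ‖f.1 x‖ ≤ nrm f :=
  f.2.le_tsum x fun _ _ => norm_nonneg _

/-- defect of idempotency -/
noncomputable def defect (a : l1Sub G A) : l1Sub G A := a * a - a

/-- Newton step -/
noncomputable def newtonStep (a : l1Sub G A) : l1Sub G A :=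
  a + (defect a - (a * defect a + a * defect a))

lemma defect_newtonStep (a : l1Sub G A) : defect (newtonStep a) =
    (defect a * defect a * defect a + defect a * defect a * defect a + defect a * defect a * defect a
      + defect a * defect a * defect a)
      - (defect a * defect a + defect a * defect a + defect a * defect a) := by
  simp only [defect, newtonStep, sub_mul, mul_sub, add_mul, mul_add, mul_assoc]
  abel

lemma nrm_defect_le {η : ℝ} (a : l1Sub G A) (h : nrm (defect a) ≤ η) (hη : η ≤ 1 / 14) :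
    nrm (defect (newtonStep a)) ≤ η * (1 / 2) := by
  rw [defect_newtonStep]
  set D := defect a
  have hD : nrm D ≤ 1 / 14 := h.trans hη
  have hD0 := nrm_nonneg D
  have q1 : nrm (D * D) ≤ nrm D * (1 / 14) :=
    (nrm_mul_le D D).trans (mul_le_mul_of_nonneg_left hD hD0)
  have q2 : nrm (D * D * D) ≤ nrm D * (1 / 14) * (1 / 14) :=
    (nrm_mul_le _ D).trans (mul_le_mul q1 hD hD0 (mul_nonneg hD0 (by norm_num)))
  have q3 := nrm_sub_le (D * D * D + D * D * D + D * D * D + D * D * D) (D * D + D * D + D * D)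
  have q4 := nrm_add_le (D * D * D + D * D * D + D * D * D) (D * D * D)
  have q5 := nrm_add_le (D * D * D + D * D * D) (D * D * D)
  have q6 := nrm_add_le (D * D * D) (D * D * D)
  have q7 := nrm_add_le (D * D + D * D) (D * D)
  have q8 := nrm_add_le (D * D) (D * D)
  linarith

lemma nrm_newtonStep_sub_le {K η : ℝ} (a : l1Sub G A) (hK : nrm a ≤ K)
    (h : nrm (defect a) ≤ η) : nrm (newtonStep a - a) ≤ (1 + 2 * K) * η := by
  simp only [newtonStep, add_sub_cancel_left]
  have h3 := nrm_mul_le a (defect a)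
  have h4 := nrm_sub_le (defect a) (a * defect a + a * defect a)
  have h5 := nrm_add_le (a * defect a) (a * defect a)
  have h6 : nrm a * nrm (defect a) ≤ K * η :=
    mul_le_mul hK h (nrm_nonneg _) ((nrm_nonneg a).trans hK)
  linarith

lemma nrm_defect_near {e : l1Sub G A} (he : e * e = e) (a : l1Sub G A) {δ : ℝ}
    (h : nrm (a - e) ≤ δ) (hδ : δ ≤ 1) : nrm (defect a) ≤ (2 * nrm e + 2) * δ := by
  set u := a - e with hu
  have hd : defect a = (e * u + u * e) + (u * u - u) := by
    simp only [defect, hu, mul_sub, sub_mul, he]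
    abel
  have h2 := nrm_add_le (e * u + u * e) (u * u - u)
  rw [← hd] at h2
  have h3 := nrm_add_le (e * u) (u * e)
  have h4 := nrm_sub_le (u * u) u
  have h5 := (nrm_mul_le e u).trans (mul_le_mul_of_nonneg_left h (nrm_nonneg e))
  have h6 := (nrm_mul_le u e).trans (mul_le_mul_of_nonneg_right h (nrm_nonneg e))
  have h7 : nrm (u * u) ≤ δ * 1 :=
    (nrm_mul_le u u).trans (mul_le_mul h (h.trans hδ) (nrm_nonneg u) ((nrm_nonneg u).trans h))
  linarith

lemma defect_limit_bound (P a : l1Sub G A) {r η c : ℝ} (hu : nrm (P - a) ≤ r) (hr : r ≤ c)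
    (hd : nrm (defect a) ≤ η) : nrm (P * P - P) ≤ (nrm P + nrm P + c + 1) * r + η := by
  set u := P - a with hu'
  have e1 : P * P - P = (P * u + u * P) + ((defect a - u * u) - u) := by
    simp only [hu', defect, mul_sub, sub_mul]; abel
  have h2 := nrm_add_le (P * u + u * P) ((defect a - u * u) - u)
  rw [← e1] at h2
  have h3 := nrm_add_le (P * u) (u * P)
  have h4 := nrm_sub_le (defect a - u * u) u
  have h5 := nrm_sub_le (defect a) (u * u)
  have h6 := (nrm_mul_le P u).trans (mul_le_mul_of_nonneg_left hu (nrm_nonneg _))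
  have h7 := (nrm_mul_le u P).trans (mul_le_mul_of_nonneg_right hu (nrm_nonneg _))
  have h8 : nrm (u * u) ≤ r * c :=
    (nrm_mul_le u u).trans (mul_le_mul hu (hu.trans hr) (nrm_nonneg _) ((nrm_nonneg _).trans hu))
  linarith

omit [Group G] in
lemma exists_limit (seq : ℕ → l1Sub G A) {C : ℝ} (hC : 0 ≤ C)
    (h : ∀ n, nrm (seq (n + 1) - seq n) ≤ C * (1 / 2) ^ n) :
    ∃ P : l1Sub G A, (∀ n, nrm (P - seq n) ≤ 2 * C * (1 / 2) ^ n) ∧
      ∀ x, Tendsto (fun n => (seq n).1 x) atTop (𝓝 (P.1 x)) := by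
  have hcau : ∀ x, CauchySeq fun n => (seq n).1 x := fun x =>
    cauchySeq_of_le_geometric (1 / 2) C (by norm_num) fun n => by
      rw [dist_comm, dist_eq_norm]
      exact (le_nrm (seq (n + 1) - seq n) x).trans (h n)
  choose p hp using fun x => cauchySeq_tendsto_of_complete (hcau x)
  have htail : ∀ n k, nrm (seq (n + k) - seq n) ≤ 2 * C * ((1 / 2) ^ n - (1 / 2) ^ (n + k)) := by
    intro n k
    induction k with
    | zero => simp [nrm]
    | succ k ih =>
      have := nrm_add_le (seq (n + k + 1) - seq (n + k)) (seq (n + k) - seq n)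
      rw [sub_add_sub_cancel] at this
      have := h (n + k)
      rw [← add_assoc, pow_succ]
      linarith
  have hfin : ∀ n (F : Finset G), ∑ x ∈ F, ‖p x - (seq n).1 x‖ ≤ 2 * C * (1 / 2) ^ n := by
    intro n F
    refine le_of_tendsto (tendsto_finsetSum F fun x _ => ((hp x).sub_const _).norm)
      (eventually_atTop.mpr ⟨n, fun k hk => ?_⟩)
    obtain ⟨l, rfl⟩ := Nat.exists_eq_add_of_le hk
    refine ((seq (n + l) - seq n).2.sum_le_tsum F fun _ _ => norm_nonneg _).trans
      ((htail n l).trans ?_)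
    have : (0 : ℝ) ≤ C * (1 / 2) ^ (n + l) := by positivity
    linarith
  exact ⟨⟨p, Summable.of_nonneg_of_le (fun _ => norm_nonneg _)
    (fun x => norm_le_norm_sub_add _ _)
    ((summable_of_sum_le (fun _ => norm_nonneg _) (hfin 0)).add (seq 0).2)⟩,
    fun n => Real.tsum_le_of_sum_le (fun _ => norm_nonneg _) (hfin n), hp⟩

lemma mul_supported (Γ : Subgroup G) {f g : l1Sub G A} (hf : ∀ x ∉ Γ, f.1 x = 0)
    (hg : ∀ x ∉ Γ, g.1 x = 0) : ∀ x ∉ Γ, (f * g).1 x = 0 := by
  intro x hx
  rw [mul_val, conv, tsum_congr (fun y => ?_), tsum_zero]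
  by_cases hy : y ∈ Γ
  · rw [hg _ (fun h => hx (by simpa using Γ.mul_mem hy h)), mul_zero]
  · rw [hf y hy, zero_mul]

lemma newtonStep_supported (Γ : Subgroup G) {f : l1Sub G A} (hf : ∀ x ∉ Γ, f.1 x = 0) :
    ∀ x ∉ Γ, (newtonStep f).1 x = 0 := by
  intro x hx
  have hd : ∀ x ∉ Γ, (defect f).1 x = 0 := fun x hx => by
    simp [defect, mul_supported Γ hf hf x hx, hf x hx]
  simp [newtonStep, hf x hx, hd x hx, mul_supported Γ hf hd x hx]

lemma newton_bounds {e : l1Sub G A} (he : e * e = e) (a0 : l1Sub G A) {δ : ℝ}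
    (h0 : nrm (a0 - e) ≤ δ) (hsmall : δ + 2 * ((1 + 2 * (nrm e + 1)) * (2 * (nrm e + 1) * δ)) < 1)
    (hη : 2 * (nrm e + 1) * δ ≤ 1 / 14) (n : ℕ) :
    nrm (newtonStep^[n] a0 - e) ≤
        δ + 2 * ((1 + 2 * (nrm e + 1)) * (2 * (nrm e + 1) * δ)) * (1 - (1 / 2) ^ n) ∧
      nrm (defect (newtonStep^[n] a0)) ≤ 2 * (nrm e + 1) * δ * (1 / 2) ^ n ∧
      nrm (newtonStep^[n + 1] a0 - newtonStep^[n] a0) ≤
        (1 + 2 * (nrm e + 1)) * (2 * (nrm e + 1) * δ) * (1 / 2) ^ n := by
  set K := nrm e + 1 with hK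
  set C := (1 + 2 * K) * (2 * K * δ)
  have hδ0 : 0 ≤ δ := (nrm_nonneg _).trans h0
  have hK0 : 0 ≤ nrm e := nrm_nonneg e
  have hC0 : 0 ≤ C := mul_nonneg (by linarith) (mul_nonneg (by linarith) hδ0)
  have hstep : ∀ n, nrm (newtonStep^[n] a0 - e) ≤ δ + 2 * C * (1 - (1 / 2) ^ n) →
      nrm (defect (newtonStep^[n] a0)) ≤ 2 * K * δ * (1 / 2) ^ n →
      nrm (newtonStep^[n + 1] a0 - newtonStep^[n] a0) ≤ C * (1 / 2) ^ n := by
    intro n h1 h2
    rw [Function.iterate_succ_apply']
    have hh : 0 ≤ C * (1 / 2) ^ n := by positivity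
    have hb : nrm (newtonStep^[n] a0) ≤ K := by
      have := nrm_add_le (newtonStep^[n] a0 - e) e
      rw [sub_add_cancel] at this
      linarith
    exact (nrm_newtonStep_sub_le _ hb h2).trans (le_of_eq (by ring))
  induction n with
  | zero =>
    have h1 : nrm (newtonStep^[0] a0 - e) ≤ δ + 2 * C * (1 - (1 / 2) ^ 0) := by simpa using h0
    have h2 : nrm (defect (newtonStep^[0] a0)) ≤ 2 * K * δ * (1 / 2) ^ 0 :=
      (nrm_defect_near he a0 h0 (by linarith)).trans (le_of_eq (by rw [hK]; ring))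
    exact ⟨h1, h2, hstep 0 h1 h2⟩
  | succ n ih =>
    obtain ⟨h1, h2, h3⟩ := ih
    have h1' : nrm (newtonStep^[n + 1] a0 - e) ≤ δ + 2 * C * (1 - (1 / 2) ^ (n + 1)) := by
      have := nrm_add_le (newtonStep^[n + 1] a0 - newtonStep^[n] a0) (newtonStep^[n] a0 - e)
      rw [sub_add_sub_cancel] at this
      rw [pow_succ]
      linarith
    have h2' : nrm (defect (newtonStep^[n + 1] a0)) ≤ 2 * K * δ * (1 / 2) ^ (n + 1) := by
      rw [Function.iterate_succ_apply']
      refine (nrm_defect_le _ h2 (le_trans ?_ hη)).trans (le_of_eq (by ring))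
      exact mul_le_of_le_one_right (mul_nonneg (by linarith) hδ0)
        (pow_le_one₀ (by norm_num) (by norm_num))
    exact ⟨h1', h2', hstep _ h1' h2'⟩

/-- Idempotents are close to idempotents supported in subgroups containing a finite set. -/
theorem exists_idem_supported (e : l1Sub G A) (he : e * e = e) :
    ∃ S : Finset G, ∀ Γ : Subgroup G, (↑S : Set G) ⊆ Γ →
      ∃ p : l1Sub G A, p * p = p ∧ (∀ x ∉ Γ, p.1 x = 0) ∧ nrm (p - e) < 1 := by
  classical
  set K : ℝ := nrm e + 1 with hK
  have hK1 : 1 ≤ K := le_add_of_nonneg_left (nrm_nonneg e)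
  set δ : ℝ := 1 / (16 * (K + 1) ^ 2) with hδ
  have hδ0 : 0 < δ := by rw [hδ]; positivity
  have hδK : δ * (16 * (K + 1) ^ 2) = 1 := by rw [hδ]; field_simp
  obtain ⟨S, hS⟩ := ((tendsto_order.mp (tendsto_tsum_compl_atTop_zero fun x => ‖e.1 x‖)).2 δ
    hδ0).exists
  refine ⟨S, fun Γ hΓ => ?_⟩
  let a0 : l1Sub G A := ⟨fun x => if x ∈ S then e.1 x else 0,
    Summable.of_nonneg_of_le (fun _ => norm_nonneg _)
      (fun x => by dsimp only; split_ifs <;> simp) e.2⟩
  have ha0 : nrm (a0 - e) < δ := by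
    refine lt_of_eq_of_lt ?_ hS
    refine Eq.trans ?_ (tsum_subtype {x | x ∉ S} fun x => ‖e.1 x‖).symm
    refine tsum_congr fun x => ?_
    by_cases hx : x ∈ S <;> simp [a0, hx]
  set C : ℝ := (1 + 2 * K) * (2 * K * δ) with hC
  have hC0 : 0 ≤ C := by rw [hC]; positivity
  have hsmall : δ + 2 * C < 1 := by rw [hC]; nlinarith
  have hη : 2 * K * δ ≤ 1 / 14 := by nlinarith
  have main := newton_bounds he a0 ha0.le hsmall hη
  obtain ⟨P, hP, hp⟩ := exists_limit (fun n => newtonStep^[n] a0) hC0 fun n => (main n).2.2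
  have hsupp : ∀ n, ∀ x ∉ Γ, (newtonStep^[n] a0).1 x = 0 := by
    intro n
    induction n with
    | zero => exact fun x hx => if_neg fun h : x ∈ S => hx (hΓ h)
    | succ n ih => rw [Function.iterate_succ_apply']; exact newtonStep_supported Γ ih
  refine ⟨P, ?_, fun x hx => ?_, ?_⟩
  · have key : ∀ n, nrm (P * P - P) ≤
        (nrm P + nrm P + 2 * C + 1) * (2 * C * (1 / 2) ^ n) + 2 * K * δ * (1 / 2) ^ n :=
      fun n => defect_limit_bound P _ (hP n)
        (mul_le_of_le_one_right (by linarith) (pow_le_one₀ (by norm_num) (by norm_num)))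
        (main n).2.1
    have hpow : Tendsto (fun n : ℕ => (1 / 2 : ℝ) ^ n) atTop (𝓝 0) :=
      tendsto_pow_atTop_nhds_zero_of_lt_one (by norm_num) (by norm_num)
    have hz := (((hpow.const_mul (2 * C)).const_mul (nrm P + nrm P + 2 * C + 1)).add
      (hpow.const_mul (2 * K * δ)))
    have h0 : nrm (P * P - P) ≤ 0 := ge_of_tendsto' (by simpa using hz) key
    apply Subtype.ext
    funext x
    exact sub_eq_zero.mp (norm_le_zero_iff.mp ((le_nrm (P * P - P) x).trans h0))
  · exact tendsto_nhds_unique (hp x) (by simp [hsupp _ x hx])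
  · have h1 := nrm_add_le (P - a0) (a0 - e)
    rw [sub_add_sub_cancel] at h1
    have h2 := hP 0
    simp only [Function.iterate_zero, id_eq, pow_zero, mul_one] at h2
    linarith [ha0]

end newton

section trace

variable {G : Type*} [Group G] {A : Type*} [NormedRing A] [CompleteSpace A] [NormedAlgebra ℂ A]

/-- nearby idempotents have the same trace on a class -/
lemma classTrace_eq_of_close (T : A →L[ℂ] ℂ) (hT : ∀ a b, T (a * b) = T (b * a)) (g : G)
    {p q : l1Sub G A} (hp : p * p = p) (hq : q * q = q) (hd : nrm (p - q) < 1) :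
    ∑' x, {x | IsConj g x}.indicator (fun y => T (p.1 y)) x =
      ∑' x, {x | IsConj g x}.indicator (fun y => T (q.1 y)) x := by
  set C : Set G := {x | IsConj g x}
  have hC : ∀ a b : G, a * b ∈ C ↔ b * a ∈ C := by
    intro a b
    have h : IsConj (a * b) (b * a) := isConj_iff.mpr ⟨b, by group⟩
    exact ⟨fun hx => IsConj.trans hx h, fun hx => IsConj.trans hx h.symm⟩
  have hsum : ∀ f : l1Sub G A, Summable fun x => C.indicator (fun y => T (f.1 y)) x := fun f => by
    apply Summable.of_norm_bounded (f.2.mul_left ‖T‖)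
    exact fun x => (norm_indicator_le_norm_self _ _).trans (T.le_opNorm _)
  let τ : l1Sub G A →+ ℂ := AddMonoidHom.mk' (fun f => ∑' x, C.indicator (fun y => T (f.1 y)) x)
    fun a b => by
      rw [← (hsum a).tsum_add (hsum b)]
      refine tsum_congr fun x => ?_
      by_cases hx : x ∈ C <;> simp [hx]
  exact trace_eq_of_close τ (fun a b => conv_trace_comm T hT C hC a.2 b.2) nrm nrm_nonneg
    nrm_mul_le ‖T‖ (norm_nonneg _)
    (fun f => tsum_of_norm_bounded (f.2.hasSum.mul_left ‖T‖) fun x =>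
      (norm_indicator_le_norm_self _ _).trans (T.le_opNorm _)) hp hq hd

end trace

section matrices

variable {n : Type*} [Fintype n] [DecidableEq n]

lemma norm_le_entries (M : Matrix n n ℂ) : ‖M‖ ≤ ∑ i, ∑ j, ‖M i j‖ := by
  rw [Matrix.linfty_opNorm_def]
  refine le_trans (NNReal.coe_le_coe.mpr (Finset.sup_le (a := ∑ i, ∑ j, ‖M i j‖₊)
    fun i _ => Finset.single_le_sum (f := fun i => ∑ j, ‖M i j‖₊) (fun _ _ => zero_le)
      (Finset.mem_univ i))) (le_of_eq ?_)
  push_cast
  rfl

lemma entry_le_norm (M : Matrix n n ℂ) (i j : n) : ‖M i j‖ ≤ ‖M‖ := by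
  rw [Matrix.linfty_opNorm_def, ← coe_nnnorm]
  exact NNReal.coe_le_coe.mpr (le_trans
    (Finset.single_le_sum (f := fun j => ‖M i j‖₊) (fun _ _ => zero_le) (Finset.mem_univ j))
    (Finset.le_sup (f := fun i => ∑ j, ‖M i j‖₊) (Finset.mem_univ i)))

end matrices

/-- The trace of an idempotent vanishes at classes with a transcendental character value. -/
theorem trace_eq_zero_of_transcendental {G : Type*} [Group G] {ι : Type*} [Fintype ι]
    [DecidableEq ι] (e : G → Matrix ι ι ℂ) (he : ∀ i j, Summable fun x => ‖e x i j‖)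
    (hi : ∀ x i j, ∑' y, ∑ k, e y i k * e (y⁻¹ * x) k j = e x i j) (g : G) {N : ℕ}
    (π : G →* Matrix.unitaryGroup (Fin N) ℂ)
    (hg : Transcendental ℚ (π g : Matrix (Fin N) (Fin N) ℂ).trace) :
    ∑' x : G, {x | IsConj g x}.indicator (fun y => ∑ i, e y i i) x = 0 := by
  classical
  have : CompleteSpace (Matrix ι ι ℂ) := FiniteDimensional.complete ℂ _
  have : CompleteSpace (Matrix (ι × Fin N) (ι × Fin N) ℂ) := FiniteDimensional.complete ℂ _
  have hn : Summable fun x => ‖e x‖ :=
    Summable.of_nonneg_of_le (fun _ => norm_nonneg _) (fun x => norm_le_entries _)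
      (summable_sum fun (i : ι) (_ : i ∈ Finset.univ) =>
        summable_sum fun (j : ι) (_ : j ∈ Finset.univ) => he i j)
  let e' : l1Sub G (Matrix ι ι ℂ) := ⟨e, hn⟩
  have he' : e' * e' = e' := by
    apply Subtype.ext
    funext x
    ext i j
    have hsum := conv_term_summable hn hn x
    show (∑' y, e y * e (y⁻¹ * x)) i j = _
    erw [tsum_apply hsum, tsum_apply (Pi.summable.mp hsum i)]
    simpa [Matrix.mul_apply, e'] using hi x i j
  obtain ⟨S, hS⟩ := exists_idem_supported e' he'
  -- coordinates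
  set V : G → Matrix (Fin N) (Fin N) ℂ := fun x => (π x : Matrix (Fin N) (Fin N) ℂ) with hV
  have hVmul : ∀ x y, V (x * y) = V x * V y := fun x y => by simp [hV]
  have hV1 : V 1 = 1 := by simp [hV]
  have hVinv : ∀ x, V x⁻¹ = (V x)ᴴ := fun x => by
    simp only [hV, map_inv]; rfl
  set c : ℂ := (V g).trace with hc
  obtain ⟨b0, hb0⟩ : ∃ b : Bool, Transcendental ℚ (cond b c.re c.im) := by
    by_contra h
    push Not at h
    have h1 : IsAlgebraic ℚ c.re := not_not.mp (h true)
    have h2 : IsAlgebraic ℚ c.im := not_not.mp (h false)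
    have hI : IsAlgebraic ℚ Complex.I :=
      (IsIntegral.of_pow (n := 2) two_pos
        (by rw [Complex.I_sq]; exact isIntegral_one.neg)).isAlgebraic
    refine hg ?_
    rw [← Complex.re_add_im c]
    exact (h1.algebraMap (A := ℂ)).add ((h2.algebraMap (A := ℂ)).mul hI)
  let J := (S × Fin N × Fin N × Bool) ⊕ Bool
  let xJ : J → ℝ := Sum.elim
    (fun q => cond q.2.2.2 (V q.1 q.2.1 q.2.2.1).re (V q.1 q.2.1 q.2.2.1).im)
    (fun b => cond b c.re c.im)
  let eJ := Fintype.equivFin J
  let xs : Fin (Fintype.card J) → ℝ := fun i => xJ (eJ.symm i)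
  obtain ⟨f, hf, hfe⟩ := exists_path xs (eJ (Sum.inr b0)) (by simpa [xs, xJ] using hb0)
  let A : Subalgebra ℚ ℝ :=
    (MvPolynomial.aeval xs : MvPolynomial (Fin (Fintype.card J)) ℚ →ₐ[ℚ] ℝ).range
  have hxA : ∀ q : J, xJ q ∈ A := fun q => ⟨MvPolynomial.X (eJ q), by simp [xs]⟩
  have hpre : ∀ u : ℝ, ∃ P : MvPolynomial (Fin (Fintype.card J)) ℚ,
      u ∈ A → MvPolynomial.aeval xs P = u := fun u => by
    by_cases hu : u ∈ A
    · obtain ⟨P, hP⟩ := hu; exact ⟨P, fun _ => hP⟩
    · exact ⟨0, fun h => absurd h hu⟩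
  choose pre hpre using hpre
  let φ : (Fin (Fintype.card J) → ℝ) → ℝ → ℝ := fun y u => MvPolynomial.aeval y (pre u)
  let Φ : (Fin (Fintype.card J) → ℝ) → ℂ → ℂ :=
    fun y z => (φ y z.re : ℂ) + (φ y z.im : ℂ) * Complex.I
  let AC : Subring ℂ :=
    { carrier := {z | z.re ∈ A ∧ z.im ∈ A}
      one_mem' := by simp [A.one_mem, A.zero_mem]
      zero_mem' := by simp [A.zero_mem]
      mul_mem' := fun {u v} hu hv => ⟨by
          rw [Complex.mul_re]; exact sub_mem (mul_mem hu.1 hv.1) (mul_mem hu.2 hv.2), by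
          rw [Complex.mul_im]; exact add_mem (mul_mem hu.1 hv.2) (mul_mem hu.2 hv.1)⟩
      add_mem' := fun {u v} hu hv => ⟨add_mem hu.1 hv.1, add_mem hu.2 hv.2⟩
      neg_mem' := fun {u} hu => ⟨neg_mem hu.1, neg_mem hu.2⟩ }
  let Γ : Subgroup G :=
    { carrier := {x | ∀ a b, V x a b ∈ AC}
      one_mem' := fun a b => by
        rw [hV1, Matrix.one_apply]; split_ifs <;> [exact AC.one_mem; exact AC.zero_mem]
      mul_mem' := fun {x y} hx hy a b => by
        rw [hVmul, Matrix.mul_apply]; exact sum_mem fun k _ => mul_mem (hx a k) (hy k b)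
      inv_mem' := fun {x} hx a b => by
        rw [hVinv, Matrix.conjTranspose_apply]
        exact ⟨by simpa using (hx b a).1, by simpa using neg_mem (hx b a).2⟩ }
  have hSΓ : (↑S : Set G) ⊆ Γ := fun s hs a b =>
    ⟨hxA (Sum.inl (⟨s, hs⟩, a, b, true)), hxA (Sum.inl (⟨s, hs⟩, a, b, false))⟩
  obtain ⟨p, hp, hpsupp, hpe⟩ := hS Γ hSΓ
  have hcA : c ∈ AC := ⟨hxA (Sum.inr true), hxA (Sum.inr false)⟩
  -- the deformed representations
  let U : (Fin (Fintype.card J) → ℝ) → G → Matrix (Fin N) (Fin N) ℂ :=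
    fun y x => (V x).map (Φ y)
  let Good : (Fin (Fintype.card J) → ℝ) → Prop := fun y =>
    ∀ P : MvPolynomial (Fin (Fintype.card J)) ℚ,
      MvPolynomial.aeval xs P = 0 → MvPolynomial.aeval y P = 0
  let E : (Fin (Fintype.card J) → ℝ) → G → Matrix (ι × Fin N) (ι × Fin N) ℂ :=
    fun y x => if x ∈ Γ then p.1 x ⊗ₖ U y x else 0
  set B : ℝ := (Fintype.card (ι × Fin N) : ℝ) ^ 2 with hB
  let Tι : Matrix ι ι ℂ →L[ℂ] ℂ := LinearMap.toContinuousLinearMap (Matrix.traceLinearMap ι ℂ ℂ)
  let TN : Matrix (ι × Fin N) (ι × Fin N) ℂ →L[ℂ] ℂ :=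
    LinearMap.toContinuousLinearMap (Matrix.traceLinearMap (ι × Fin N) ℂ ℂ)
  set τp : ℂ := ∑' x, {x | IsConj g x}.indicator (fun y => Tι (p.1 y)) x with hτp
  -- everything we need at a good point
  have good : ∀ y, Good y →
      (∀ x, ‖E y x‖ ≤ B * ‖p.1 x‖) ∧ conv (E y) (E y) = E y ∧
      ∑' x, {x | IsConj g x}.indicator (fun z => TN (E y z)) x = Φ y c * τp := by
    intro y hy
    have φeq : ∀ u ∈ A, ∀ P, MvPolynomial.aeval xs P = u → φ y u = MvPolynomial.aeval y P :=
      fun u hu P hP => by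
        have := hy (pre u - P) (by simp [hpre u hu, hP])
        simpa [φ, sub_eq_zero] using this
    let φA : A →+* ℝ :=
      { toFun := fun u => φ y u
        map_one' := by
          simp only [OneMemClass.coe_one]; rw [φeq 1 A.one_mem 1 (map_one _)]; simp
        map_zero' := by
          simp only [ZeroMemClass.coe_zero]; rw [φeq 0 A.zero_mem 0 (map_zero _)]; simp
        map_add' := fun u v => by
          rw [φeq _ (u + v).2 (pre u + pre v) (by simp [hpre u u.2, hpre v v.2])]
          simp [φ]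
        map_mul' := fun u v => by
          rw [φeq _ (u * v).2 (pre u * pre v) (by simp [hpre u u.2, hpre v v.2])]
          simp [φ] }
    have hφA : ∀ (u : ℝ) (hu : u ∈ A), φ y u = φA ⟨u, hu⟩ := fun _ _ => rfl
    let ΦA : AC →+* ℂ :=
      { toFun := fun z => Φ y z
        map_one' := by
          simp [Φ, hφA 1 A.one_mem, hφA 0 A.zero_mem]
          erw [map_one φA, map_zero φA]; simp
        map_zero' := by
          simp [Φ, hφA 0 A.zero_mem]
          erw [map_zero φA]; simp
        map_add' := fun u v => by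
          apply Complex.ext
          · have h := map_add φA ⟨_, u.2.1⟩ ⟨_, v.2.1⟩
            simp [Φ]; exact h
          · have h := map_add φA ⟨_, u.2.2⟩ ⟨_, v.2.2⟩
            simp [Φ]; exact h
        map_mul' := fun u v => by
          apply Complex.ext
          · simp only [Φ, Subring.coe_mul, Complex.add_re, Complex.ofReal_re, Complex.mul_re,
              Complex.ofReal_im, Complex.I_re, Complex.I_im, mul_zero, sub_zero,
              add_zero, Complex.add_im, Complex.mul_im, mul_one, zero_add]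
            rw [hφA _ (sub_mem (mul_mem u.2.1 v.2.1) (mul_mem u.2.2 v.2.2)), hφA _ u.2.1,
              hφA _ v.2.1, hφA _ u.2.2, hφA _ v.2.2, ← map_mul, ← map_mul, ← map_sub]
            rfl
          · simp only [Φ, Subring.coe_mul, Complex.add_re, Complex.ofReal_re, Complex.mul_re,
              Complex.ofReal_im, Complex.I_re, Complex.I_im, mul_zero, sub_zero,
              add_zero, Complex.add_im, Complex.mul_im, mul_one, zero_add]
            rw [hφA _ (add_mem (mul_mem u.2.1 v.2.2) (mul_mem u.2.2 v.2.1)), hφA _ u.2.1,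
              hφA _ v.2.1, hφA _ u.2.2, hφA _ v.2.2, ← map_mul, ← map_mul, ← map_add]
            rfl }
    have hΦA : ∀ (z : ℂ) (hz : z ∈ AC), Φ y z = ΦA ⟨z, hz⟩ := fun _ _ => rfl
    let UA : ∀ x ∈ Γ, Matrix (Fin N) (Fin N) AC := fun x hx a b => ⟨V x a b, hx a b⟩
    have hUA : ∀ x (hx : x ∈ Γ), U y x = (UA x hx).map ΦA := fun _ _ => rfl
    have hmul : ∀ x z, x ∈ Γ → z ∈ Γ → U y (x * z) = U y x * U y z := fun x z hx hz => by
      rw [hUA _ (Γ.mul_mem hx hz), hUA _ hx, hUA _ hz, ← Matrix.map_mul]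
      congr 1
      ext a b
      show V (x * z) a b = ((∑ k, UA x hx a k * UA z hz k b : AC) : ℂ)
      rw [hVmul, Matrix.mul_apply]
      push_cast
      rfl
    have hUinv : ∀ x ∈ Γ, U y x⁻¹ = (U y x)ᴴ := fun x hx => by
      ext a b
      have := map_neg φA ⟨_, (hx b a).2⟩
      apply Complex.ext
      · simp [U, hVinv, Φ]
      · simp only [U, Matrix.map_apply, hVinv, Matrix.conjTranspose_apply]
        simp [Φ]
        exact this
    have hU1 : U y 1 = 1 := by
      rw [hUA 1 Γ.one_mem]
      have : UA 1 Γ.one_mem = 1 := by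
        ext a b
        show V 1 a b = _
        rw [hV1]
        by_cases hab : a = b <;> simp [Matrix.one_apply, hab]
      rw [this, Matrix.map_one _ (map_zero _) (map_one _)]
    have hunit : ∀ x ∈ Γ, U y x ∈ Matrix.unitaryGroup (Fin N) ℂ := fun x hx => by
      rw [Matrix.mem_unitaryGroup_iff', Matrix.star_eq_conjTranspose, ← hUinv x hx,
        ← hmul _ _ (Γ.inv_mem hx) hx, inv_mul_cancel, hU1]
    have hbound : ∀ x, ‖E y x‖ ≤ B * ‖p.1 x‖ := fun x => by
      by_cases hx : x ∈ Γ
      · simp only [E, if_pos hx]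
        refine (norm_le_entries _).trans (le_trans (Finset.sum_le_sum fun i _ =>
          Finset.sum_le_sum fun j _ => ?_) (le_of_eq (?_ : ∑ _i, ∑ _j, ‖p.1 x‖ = _)))
        · rw [Matrix.kronecker_apply, norm_mul]
          exact (mul_le_of_le_one_right (norm_nonneg _)
            (entry_norm_bound_of_unitary (hunit x hx) _ _)).trans (entry_le_norm _ _ _)
        · simp [hB, Finset.sum_const, nsmul_eq_mul]; ring
      · simp [E, hx]; positivity
    refine ⟨hbound, ?_, ?_⟩
    · funext x
      by_cases hx : x ∈ Γ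
      · let L : Matrix ι ι ℂ →L[ℂ] Matrix (ι × Fin N) (ι × Fin N) ℂ :=
          LinearMap.toContinuousLinearMap
            { toFun := fun P => P ⊗ₖ U y x
              map_add' := fun P Q => Matrix.add_kronecker P Q _
              map_smul' := fun r P => Matrix.smul_kronecker r P _ }
        have hterm : ∀ z, E y z * E y (z⁻¹ * x) = L (p.1 z * p.1 (z⁻¹ * x)) := fun z => by
          by_cases hz : z ∈ Γ
          · have hzx : z⁻¹ * x ∈ Γ := Γ.mul_mem (Γ.inv_mem hz) hx
            simp only [E, if_pos hz, if_pos hzx]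
            rw [← Matrix.mul_kronecker_mul, ← hmul _ _ hz hzx, mul_inv_cancel_left]
            rfl
          · simp [E, hz, hpsupp z hz]
        refine (tsum_congr hterm).trans ?_
        rw [← L.map_tsum (conv_term_summable p.2 p.2 x),
          show ∑' z, p.1 z * p.1 (z⁻¹ * x) = p.1 x from congrFun (congrArg Subtype.val hp) x]
        simp only [E, if_pos hx]
        rfl
      · rw [conv, show E y x = 0 from if_neg hx, tsum_congr (fun z => ?_), tsum_zero]
        by_cases hz : z ∈ Γ
        · have : z⁻¹ * x ∉ Γ := fun h => hx (by simpa using Γ.mul_mem hz h)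
          simp [E, this]
        · simp [E, hz]
    · rw [hτp, ← tsum_mul_left]
      refine tsum_congr fun x => ?_
      by_cases hxC : x ∈ {x | IsConj g x}
      · simp only [Set.indicator_of_mem hxC]
        by_cases hx : x ∈ Γ
        · have htr : (V x).trace = c := by
            obtain ⟨k, rfl⟩ := isConj_iff.mp hxC
            rw [hVmul, hVmul, Matrix.trace_mul_cycle, ← hVmul, inv_mul_cancel, hV1, one_mul]
          have htrU : (U y x).trace = Φ y c := by
            rw [hΦA c hcA, hUA x hx]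
            have : (UA x hx).trace = ⟨c, hcA⟩ :=
              Subtype.ext (by
                show ((∑ i, UA x hx i i : AC) : ℂ) = c
                rw [← htr]; push_cast; rfl)
            rw [← this]
            exact (AddMonoidHom.map_trace ΦA.toAddMonoidHom (UA x hx)).symm
          show Matrix.trace (E y x) = _ * Matrix.trace (p.1 x)
          simp only [E, if_pos hx]
          rw [Matrix.trace_kronecker, htrU, mul_comm]
        · simp [E, hx, hpsupp x hx]
      · rw [Set.indicator_of_notMem hxC, Set.indicator_of_notMem hxC, mul_zero]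
  -- compare with the undeformed point
  have goodx : Good xs := fun _ h => h
  obtain ⟨hb, hidem, htrace⟩ := good xs goodx
  have hΦx : Φ xs c = c := by
    simp [Φ, φ, hpre _ hcA.1, hpre _ hcA.2, Complex.re_add_im]
  have hEs : ∀ y, Good y → Summable fun x => ‖E y x‖ := fun y hy =>
    Summable.of_nonneg_of_le (fun _ => norm_nonneg _) (good y hy).1 (p.2.mul_left B)
  have hlim : Tendsto (fun t => ∑' x, ‖E (f t) x - E xs x‖) punct (𝓝 0) := by
    have := tendsto_tsum_of_dominated_convergence (f := fun t x => ‖E (f t) x - E xs x‖)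
      (g := fun _ : G => (0 : ℝ)) (𝓕 := punct) (bound := fun x => 2 * B * ‖p.1 x‖)
      (p.2.mul_left (2 * B)) (fun x => ?_) ?_
    · simpa using this
    · have hcont : Continuous fun y => ‖E y x - E xs x‖ := by
        refine (Continuous.sub ?_ continuous_const).norm
        by_cases hx : x ∈ Γ
        · simp only [E, if_pos hx]
          refine continuous_matrix fun i j => ?_
          show Continuous fun y => p.1 x i.1 j.1 * Φ y (V x i.2 j.2)
          simp only [Φ, φ]
          have hP : ∀ P : MvPolynomial (Fin (Fintype.card J)) ℚ,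
              Continuous fun y : Fin (Fintype.card J) → ℝ => MvPolynomial.aeval y P := fun P =>
            by
            induction P using MvPolynomial.induction_on with
            | C r => simpa using continuous_const
            | add u v hu hv => simp only [map_add]; exact hu.add hv
            | mul_X u i hu => simp only [map_mul, MvPolynomial.aeval_X]; exact hu.mul (continuous_apply i)
          fun_prop
        · simp only [E, if_neg hx]; exact continuous_const
      simpa [Function.comp_def] using (hcont.tendsto xs).comp hf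
    · filter_upwards [hfe] with t ht x
      rw [Real.norm_of_nonneg (norm_nonneg _)]
      refine (norm_sub_le _ _).trans ?_
      linarith [(good (f t) ht.2).1 x, hb x]
  obtain ⟨t, ⟨ht, ht1⟩, ht0⟩ :=
    ((hfe.and (hlim.eventually (gt_mem_nhds one_pos))).and eventually_mem_nhdsWithin).exists
  obtain ⟨-, htidem, httrace⟩ := good (f t) ht.2
  have hclose := classTrace_eq_of_close TN (fun a b => Matrix.trace_mul_comm a b) g
    (p := ⟨E (f t), hEs _ ht.2⟩) (q := ⟨E xs, hEs _ goodx⟩)
    (Subtype.ext htidem) (Subtype.ext hidem) ht1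
  have hmulzero : (Φ (f t) c - c) * τp = 0 := by
    rw [sub_mul, ← httrace, ← hΦx, ← htrace, sub_eq_zero]
    exact hclose
  have hne : Φ (f t) c - c ≠ 0 := by
    intro h
    have hX : φ (f t) (cond b0 c.re c.im) = cond b0 c.re c.im + t := by
      have h1 := ht.2 (pre (cond b0 c.re c.im) - MvPolynomial.X (eJ (Sum.inr b0))) (by
        have hmem : cond b0 c.re c.im ∈ A := hxA (Sum.inr b0)
        rw [map_sub, hpre _ hmem, MvPolynomial.aeval_X]
        simp [xs, xJ])
      rw [map_sub, MvPolynomial.aeval_X, ht.1, sub_eq_zero] at h1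
      simpa [φ, xs, xJ] using h1
    have h2 := congrArg Complex.re h
    have h3 := congrArg Complex.im h
    simp [Φ] at h2 h3
    refine ht0 (?_ : t = 0)
    cases b0 <;> simp at hX <;> linarith
  have hτp0 : τp = 0 := (mul_eq_zero.mp hmulzero).resolve_left hne
  have hfinal := classTrace_eq_of_close Tι (fun a b => Matrix.trace_mul_comm a b) g hp he' hpe
  exact hfinal.symm.trans (hτp.symm.trans hτp0)

/-- The same, for unitary representations of a subgroup of finite index. -/
theorem trace_eq_zero_of_transcendental_subgroup {G : Type*} [Group G] {ι : Type*} [Fintype ι]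
    [DecidableEq ι] (e : G → Matrix ι ι ℂ) (he : ∀ i j, Summable fun x => ‖e x i j‖)
    (hi : ∀ x i j, ∑' y, ∑ k, e y i k * e (y⁻¹ * x) k j = e x i j) (g : G)
    (H : Subgroup G) (hH : H.FiniteIndex) (hg : g ∈ H) {N : ℕ}
    (π : H →* Matrix.unitaryGroup (Fin N) ℂ)
    (htr : Transcendental ℚ (π ⟨g, hg⟩ : Matrix (Fin N) (Fin N) ℂ).trace) :
    ∑' x : G, {x | IsConj g x}.indicator (fun y => ∑ i, e y i i) x = 0 := by
  classical
  exact trace_eq_zero_of_subgroup e he hi g H hH hg
    fun R hR hRi => trace_eq_zero_of_transcendental R hR hRi _ π htr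

end Vale.Agent.P184
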