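import Mathlib

/-!
Elements of countable fields that are not roots of unity have absolute value different from `1`
in some embedding into a normed field.
-/

namespace Vale.Agent.P184

open Cardinal Polynomial
open scoped NNReal LaurentSeries WithZero

/-- A countable extension embeds into every uncountable algebraically closed extension. -/
lemma nonempty_algHom_of_countable (k : Type) [Field k] [Countable k] (E : Type) [Field E]
    [Algebra k E] [Countable E] (Ω : Type) [Field Ω] [Algebra k Ω] [IsAlgClosed Ω]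
    (hΩ : ℵ₀ < #Ω) : Nonempty (E →ₐ[k] Ω) := by
  obtain ⟨t, ht⟩ := exists_isTranscendenceBasis k E
  obtain ⟨s, hs⟩ := exists_isTranscendenceBasis k Ω
  have hcard : #Ω = #s :=
    IsAlgClosed.cardinal_eq_cardinal_transcendence_basis_of_aleph0_lt' _ hs mk_le_aleph0 hΩ
  obtain ⟨j⟩ : Nonempty (t ↪ s) :=
    (Cardinal.le_def _ _).mp (mk_le_aleph0.trans (hcard ▸ hΩ).le)
  have hind : AlgebraicIndependent k fun i => (j i : Ω) := hs.1.comp j j.injective
  letI : Algebra (MvPolynomial t k) E := (MvPolynomial.aeval fun i : t => (i : E)).toRingHom.toAlgebra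
  letI : Algebra (MvPolynomial t k) Ω :=
    (MvPolynomial.aeval fun i : t => (j i : Ω)).toRingHom.toAlgebra
  have : FaithfulSMul (MvPolynomial t k) E :=
    (faithfulSMul_iff_algebraMap_injective _ _).mpr ht.1
  have : FaithfulSMul (MvPolynomial t k) Ω :=
    (faithfulSMul_iff_algebraMap_injective _ _).mpr hind
  have : IsScalarTower k (MvPolynomial t k) E :=
    IsScalarTower.of_algebraMap_eq fun x => ((MvPolynomial.aeval _).commutes x).symm
  have : IsScalarTower k (MvPolynomial t k) Ω :=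
    IsScalarTower.of_algebraMap_eq fun x => ((MvPolynomial.aeval _).commutes x).symm
  have : Algebra.IsAlgebraic (MvPolynomial t k) E := by
    have h := ht.isAlgebraic
    refine ⟨fun x => ?_⟩
    exact IsAlgebraic.of_ringHom_of_comp_eq
      (ht.1.aevalEquiv : MvPolynomial t k →+* Algebra.adjoin k (Set.range ((↑) : t → E)))
      (RingHom.id E) (h.isAlgebraic x) ht.1.aevalEquiv.surjective (RingHom.id E).injective
      (RingHom.ext fun p => rfl)
  exact ⟨(IsAlgClosed.lift (R := MvPolynomial t k) (M := Ω) (S := E)).restrictScalars k⟩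

lemma exists_transcendental_one_lt (k Ω : Type) [Field k] [Countable k] [NontriviallyNormedField Ω]
    [Algebra k Ω] (hΩ : ℵ₀ < #{x : Ω | 1 < ‖x‖}) : ∃ z : Ω, 1 < ‖z‖ ∧ Transcendental k z := by
  by_contra h
  push_neg at h
  have hsub : {x : Ω | 1 < ‖x‖} ⊆ {x : Ω | IsAlgebraic k x} := fun x hx => not_not.mp (h x hx)
  exact absurd ((mk_le_mk_of_subset hsub).trans (Algebraic.countable k Ω).le_aleph0) (not_le.mpr hΩ)

/-- A transcendental element can be sent to any transcendental element. -/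
lemma exists_hom_of_transcendental (k E Ω : Type) [Field k] [Countable k] [Field E] [Countable E]
    [Field Ω] [Algebra k E] [Algebra k Ω] [IsAlgClosed Ω] (hΩ : ℵ₀ < #Ω) {x : E} {z : Ω}
    (hx : Transcendental k x) (hz : Transcendental k z) : ∃ f : E →+* Ω, f x = z := by
  letI : Algebra (FractionRing k[X]) E :=
    (IsFractionRing.lift (g := (aeval x).toRingHom) (fun a b h => transcendental_iff_injective.mp hx h)).toAlgebra
  letI : Algebra (FractionRing k[X]) Ω :=
    (IsFractionRing.lift (g := (aeval z).toRingHom) (fun a b h => transcendental_iff_injective.mp hz h)).toAlgebra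
  have : Countable (FractionRing k[X]) :=
    (algebraMap (FractionRing k[X]) E).injective.countable
  obtain ⟨f⟩ := nonempty_algHom_of_countable (FractionRing k[X]) E Ω hΩ
  refine ⟨f.toRingHom, ?_⟩
  have h1 : algebraMap (FractionRing k[X]) E (algebraMap k[X] _ X) = x := by
    simp [RingHom.algebraMap_toAlgebra]
  have h2 : algebraMap (FractionRing k[X]) Ω (algebraMap k[X] _ X) = z := by
    simp [RingHom.algebraMap_toAlgebra]
  rw [← h2, ← f.commutes, h1]
  rfl

/-- An algebraic element can be sent to any root of its minimal polynomial. -/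
lemma exists_hom_of_root (E Ω : Type) [Field E] [Countable E] [Field Ω] [CharZero E] [CharZero Ω]
    [IsAlgClosed Ω] (hΩ : ℵ₀ < #Ω) {x : E} (hx : IsIntegral ℚ x) {z : Ω}
    (hz : aeval z (minpoly ℚ x) = 0) : ∃ f : E →+* Ω, f x = z := by
  have : Fact (Irreducible (minpoly ℚ x)) := ⟨minpoly.irreducible hx⟩
  letI : Algebra (AdjoinRoot (minpoly ℚ x)) E :=
    (AdjoinRoot.liftAlgHom (minpoly ℚ x) (Algebra.ofId ℚ E) x (minpoly.aeval ℚ x)).toRingHom.toAlgebra
  letI : Algebra (AdjoinRoot (minpoly ℚ x)) Ω :=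
    (AdjoinRoot.liftAlgHom (minpoly ℚ x) (Algebra.ofId ℚ Ω) z hz).toRingHom.toAlgebra
  have : Countable (AdjoinRoot (minpoly ℚ x)) :=
    (algebraMap (AdjoinRoot (minpoly ℚ x)) E).injective.countable
  obtain ⟨f⟩ := nonempty_algHom_of_countable (AdjoinRoot (minpoly ℚ x)) E Ω hΩ
  refine ⟨f.toRingHom, ?_⟩
  have h1 : algebraMap _ E (AdjoinRoot.root (minpoly ℚ x)) = x := by
    simp only [RingHom.algebraMap_toAlgebra]
    exact AdjoinRoot.liftAlgHom_root _ _ _ _
  have h2 : algebraMap _ Ω (AdjoinRoot.root (minpoly ℚ x)) = z := by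
    simp only [RingHom.algebraMap_toAlgebra]
    exact AdjoinRoot.liftAlgHom_root _ _ _ _
  rw [← h2, ← f.commutes, h1]
  rfl

lemma aleph0_lt_one_lt_norm (Ω : Type) [NontriviallyNormedField Ω] (hΩ : ℵ₀ < #Ω) :
    ℵ₀ < #{x : Ω | 1 < ‖x‖} := by
  by_contra h
  rw [not_lt] at h
  obtain ⟨c, hc⟩ := NormedField.exists_one_lt_norm Ω
  refine absurd ?_ (not_le.mpr hΩ)
  have hcov : (Set.univ : Set Ω) ⊆
      {0} ∪ ⋃ n : ℕ, (fun y => (c ^ n)⁻¹ * y) '' {x | 1 < ‖x‖} := by
    intro x _
    rcases eq_or_ne x 0 with rfl | hx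
    · exact Or.inl rfl
    · obtain ⟨n, hn⟩ := pow_unbounded_of_one_lt ‖x‖⁻¹ hc
      refine Or.inr (Set.mem_iUnion.mpr ⟨n, c ^ n * x, ?_, inv_mul_cancel_left₀ ?_ x⟩)
      · show 1 < ‖c ^ n * x‖
        rw [norm_mul, norm_pow]
        exact (inv_lt_iff_one_lt_mul₀ (norm_pos_iff.mpr hx)).mp hn
      · exact pow_ne_zero _ fun h0 => by simp [h0] at hc; linarith
  have hct : ({x : Ω | 1 < ‖x‖}).Countable := le_aleph0_iff_set_countable.mp h
  exact mk_univ (α := Ω) ▸
    (((Set.countable_singleton 0).union (Set.countable_iUnion fun n => hct.image _)).mono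
      hcov).le_aleph0

lemma norm_coeff_le_one_of_roots {Ω : Type} [NormedField Ω] [IsUltrametricDist Ω] :
    ∀ m : Multiset Ω, (∀ a ∈ m, ‖a‖ ≤ 1) →
      ∀ i, ‖((m.map fun a => X - C a).prod).coeff i‖ ≤ 1 := by
  intro m
  induction m using Multiset.induction with
  | empty => intro _ i; simp [coeff_one]; split_ifs <;> simp
  | cons a m ih =>
    intro h i
    have ha := h a (Multiset.mem_cons_self _ _)
    have ih' := ih fun b hb => h b (Multiset.mem_cons_of_mem hb)
    have hmul : ∀ j, ‖a * ((m.map fun a => X - C a).prod).coeff j‖ ≤ 1 := fun j => by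
      rw [norm_mul]; exact mul_le_one₀ ha (norm_nonneg _) (ih' j)
    rw [Multiset.map_cons, Multiset.prod_cons, sub_mul]
    rcases i with _ | i
    · simpa using hmul 0
    · rw [coeff_sub, coeff_X_mul, coeff_C_mul, sub_eq_add_neg]
      exact (IsUltrametricDist.norm_add_le_max _ _).trans (max_le (ih' i) (by simpa using hmul (i + 1)))

/-- A rational number that is not an integer has large `p`-adic norm for some `p`. -/
lemma exists_padic_norm_gt (q : ℚ) (hq : q.den ≠ 1) :
    ∃ (p : ℕ) (_ : Fact p.Prime), 1 < ‖(q : ℚ_[p])‖ := by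
  obtain ⟨p, hp, hd⟩ := Nat.exists_prime_and_dvd hq
  have hpf : Fact p.Prime := ⟨hp⟩
  refine ⟨p, hpf, ?_⟩
  have hnum : ¬ (p : ℤ) ∣ q.num := fun h =>
    hp.ne_one (Nat.eq_one_of_dvd_coprimes q.reduced (Int.natCast_dvd.mp h) hd)
  have h1 : ‖((q.num : ℤ) : ℚ_[p])‖ = 1 := le_antisymm (Padic.norm_int_le_one _)
    (not_lt.mp fun h => hnum (Padic.norm_intCast_lt_one_iff.mp h))
  have h2 : ‖((q.den : ℤ) : ℚ_[p])‖ < 1 :=
    Padic.norm_intCast_lt_one_iff.mpr (by exact_mod_cast hd)
  rw [Rat.cast_def, norm_div, h1, lt_div_iff₀ (norm_pos_iff.mpr (Nat.cast_ne_zero.mpr q.den_nz)),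
    one_mul]
  simpa using h2

/-- Some root of a non-integral rational monic polynomial has large `p`-adic norm. -/
lemma exists_root_norm_gt {f : ℚ[X]} (hf : f.Monic) {i : ℕ} (hi : (f.coeff i).den ≠ 1) :
    ∃ (p : ℕ) (_ : Fact p.Prime) (z : PadicAlgCl p), aeval z f = 0 ∧ 1 < ‖z‖ := by
  obtain ⟨p, hp, hn⟩ := exists_padic_norm_gt _ hi
  refine ⟨p, hp, ?_⟩
  by_contra h
  push Not at h
  have hs := IsAlgClosed.splits (f.map (algebraMap ℚ (PadicAlgCl p)))
  have hle := norm_coeff_le_one_of_roots (f.map (algebraMap ℚ (PadicAlgCl p))).roots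
    (fun a ha => h a (by
      rw [mem_roots (hf.map _).ne_zero, IsRoot, eval_map] at ha
      exact ha)) i
  rw [← hs.eq_prod_roots_of_monic (hf.map _), coeff_map] at hle
  have h3 : algebraMap ℚ (PadicAlgCl p) (f.coeff i) = ((f.coeff i : ℚ_[p]) : PadicAlgCl p) := by
    rw [eq_ratCast]; exact (map_ratCast (algebraMap ℚ_[p] (PadicAlgCl p)) _).symm
  rw [h3, PadicAlgCl.norm_extends] at hle
  linarith

lemma isIntegral_int_of_coeff {E : Type} [Field E] [CharZero E] {x : E} (hx : IsIntegral ℚ x)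
    (h : ∀ i, ((minpoly ℚ x).coeff i).den = 1) : IsIntegral ℤ x := by
  have hl : minpoly ℚ x ∈ lifts (algebraMap ℤ ℚ) := (lifts_iff_coeff_lifts _).mpr fun i =>
    ⟨((minpoly ℚ x).coeff i).num, by simpa using (Rat.den_eq_one_iff _).mp (h i)⟩
  obtain ⟨P, hP, -, hPm⟩ := lifts_and_degree_eq_and_monic hl (minpoly.monic hx)
  refine ⟨P, hPm, ?_⟩
  rw [← aeval_def, ← aeval_map_algebraMap ℚ, hP, minpoly.aeval]

/-- The complex places detect algebraic integers that are not roots of unity. -/
lemma exists_complex_norm_ne_one {E : Type} [Field E] [CharZero E] [Countable E] {x : E}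
    (hx : IsIntegral ℤ x) (hne : ∀ m : ℕ, 0 < m → x ^ m ≠ 1) :
    ∃ f : E →+* ℂ, ‖f x‖ ≠ 1 := by
  have hxq : IsIntegral ℚ x := hx.tower_top
  have : FiniteDimensional ℚ (IntermediateField.adjoin ℚ {x}) :=
    IntermediateField.adjoin.finiteDimensional hxq
  have : NumberField (IntermediateField.adjoin ℚ {x}) := NumberField.mk
  let y : IntermediateField.adjoin ℚ {x} := ⟨x, IntermediateField.mem_adjoin_simple_self ℚ x⟩
  by_contra h
  push Not at h
  have hy : IsIntegral ℤ y :=
    (isIntegral_algebraMap_iff (A := IntermediateField.adjoin ℚ {x})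
      (algebraMap (IntermediateField.adjoin ℚ {x}) E).injective).mp hx
  obtain ⟨m, hm, hpow⟩ := NumberField.Embeddings.pow_eq_one_of_norm_eq_one _ ℂ hy fun φ => by
    obtain ⟨f, hf⟩ := exists_hom_of_root E ℂ (Cardinal.mk_complex.symm ▸ Cardinal.aleph0_lt_continuum)
      hxq (z := φ y) (by
        rw [show minpoly ℚ x = minpoly ℚ y from
          minpoly.algebraMap_eq (algebraMap (IntermediateField.adjoin ℚ {x}) E).injective y]
        rw [← RingHom.toRatAlgHom_apply φ, aeval_algHom_apply, minpoly.aeval, map_zero])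
    rw [← hf]; exact h f
  exact hne m hm (congrArg Subtype.val hpow)

lemma exists_laurent_field (p : ℕ) [Fact p.Prime] :
    ∃ (Ω : Type) (_ : NontriviallyNormedField Ω) (_ : Algebra (ZMod p) Ω),
      IsAlgClosed Ω ∧ ℵ₀ < #Ω := by
  let v : Valuation (ZMod p)⸨X⸩ ℤᵐ⁰ := Valued.v
  have hr : Nonempty v.RankOne := by
    have : v.IsNontrivial := by
      obtain ⟨f, hf⟩ := LaurentSeries.valuation_surjective (ZMod p) (WithZero.exp (-1))
      exact ⟨⟨f, by rw [show v f = _ from hf]; exact WithZero.exp_ne_zero, by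
        rw [show v f = _ from hf]; decide⟩⟩
    exact Valuation.nonempty_rankOne_iff_mulArchimedean.mpr inferInstance
  obtain ⟨hr⟩ := hr
  letI : (Valued.v : Valuation (ZMod p)⸨X⸩ ℤᵐ⁰).RankOne := hr
  letI : NontriviallyNormedField (ZMod p)⸨X⸩ := Valued.toNontriviallyNormedField (ZMod p)⸨X⸩ ℤᵐ⁰
  have : IsUltrametricDist (ZMod p)⸨X⸩ := inferInstance
  have : CompleteSpace (ZMod p)⸨X⸩ := LaurentSeries.instLaurentSeriesComplete
  have hK : ℵ₀ < #(ZMod p)⸨X⸩ :=
    Cardinal.aleph0_lt_continuum.trans_le (continuum_le_cardinal_of_nontriviallyNormedField _)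
  refine ⟨AlgebraicClosure (ZMod p)⸨X⸩, spectralNorm.nontriviallyNormedField (ZMod p)⸨X⸩ _,
    inferInstance, inferInstance, hK.trans_le ?_⟩
  exact mk_le_of_injective (algebraMap (ZMod p)⸨X⸩ (AlgebraicClosure (ZMod p)⸨X⸩)).injective

lemma pow_eq_one_of_algebraic_zmod {p : ℕ} [Fact p.Prime] {E : Type} [Field E] [Algebra (ZMod p) E]
    {x : E} (hx : IsIntegral (ZMod p) x) (hx0 : x ≠ 0) : ∃ m, 0 < m ∧ x ^ m = 1 := by
  have : FiniteDimensional (ZMod p) (IntermediateField.adjoin (ZMod p) {x}) :=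
    IntermediateField.adjoin.finiteDimensional hx
  have : Finite (IntermediateField.adjoin (ZMod p) {x}) := Module.finite_of_finite (ZMod p)
  let y : IntermediateField.adjoin (ZMod p) {x} :=
    ⟨x, IntermediateField.mem_adjoin_simple_self (ZMod p) x⟩
  have hy : IsOfFinOrder (Units.mk0 y fun h => hx0 (congrArg Subtype.val h)) :=
    isOfFinOrder_of_finite _
  obtain ⟨m, hm, h⟩ := isOfFinOrder_iff_pow_eq_one.mp hy
  exact ⟨m, hm, congrArg (fun z => ((z : (IntermediateField.adjoin (ZMod p) {x})ˣ) :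
    IntermediateField.adjoin (ZMod p) {x}).1) h⟩

/-- An element of a countable field that is not a root of unity has norm different from `1` in
some normed field containing it. -/
theorem exists_norm_ne_one {E : Type} [Field E] [Countable E] {x : E} (hx0 : x ≠ 0)
    (hne : ∀ m : ℕ, 0 < m → x ^ m ≠ 1) :
    ∃ (Ω : Type) (_ : NormedField Ω) (f : E →+* Ω), ‖f x‖ ≠ 1 := by
  obtain ⟨p, hp⟩ := CharP.exists E
  rcases Nat.eq_zero_or_pos p with rfl | hp0
  · have : CharZero E := CharP.charP_to_charZero E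
    by_cases hxi : IsIntegral ℚ x
    · by_cases hz : ∀ i, ((minpoly ℚ x).coeff i).den = 1
      · obtain ⟨f, hf⟩ := exists_complex_norm_ne_one (isIntegral_int_of_coeff hxi hz) hne
        exact ⟨ℂ, inferInstance, f, hf⟩
      · push Not at hz
        obtain ⟨i, hi⟩ := hz
        obtain ⟨p, hp, z, hz, hzn⟩ := exists_root_norm_gt (minpoly.monic hxi) hi
        have hcard : ℵ₀ < #(PadicAlgCl p) :=
          (Cardinal.aleph0_lt_continuum.trans_le
            (continuum_le_cardinal_of_nontriviallyNormedField ℚ_[p])).trans_le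
          (mk_le_of_injective (algebraMap ℚ_[p] (PadicAlgCl p)).injective)
        obtain ⟨f, hf⟩ := exists_hom_of_root E (PadicAlgCl p) hcard hxi hz
        exact ⟨_, inferInstance, f, by rw [hf]; exact hzn.ne'⟩
    · have hC : ℵ₀ < #ℂ := Cardinal.mk_complex.symm ▸ Cardinal.aleph0_lt_continuum
      obtain ⟨z, hz1, hzt⟩ := exists_transcendental_one_lt ℚ ℂ (aleph0_lt_one_lt_norm ℂ hC)
      obtain ⟨f, hf⟩ := exists_hom_of_transcendental ℚ E ℂ hC
        (fun h => hxi h.isIntegral) hzt
      exact ⟨ℂ, inferInstance, f, by rw [hf]; exact hz1.ne'⟩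
  · have : Fact p.Prime := ⟨(CharP.char_is_prime_or_zero E p).resolve_right hp0.ne'⟩
    letI := ZMod.algebra E p
    obtain ⟨Ω, hΩ, hA, hcl, hcard⟩ := exists_laurent_field p
    obtain ⟨z, hz1, hzt⟩ := exists_transcendental_one_lt (ZMod p) Ω (aleph0_lt_one_lt_norm Ω hcard)
    obtain ⟨f, hf⟩ := exists_hom_of_transcendental (ZMod p) E Ω hcard
      (fun h => by
        obtain ⟨m, hm, h1⟩ := pow_eq_one_of_algebraic_zmod h.isIntegral hx0
        exact hne m hm h1) hzt
    exact ⟨Ω, inferInstance, f, by rw [hf]; exact hz1.ne'⟩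

end Vale.Agent.P184
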