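import Vale.Agent.P184.Lipschitz

/-!
Trace vanishing at elements having an eigenvalue of absolute value different from `1` in some
representation over a normed field: the determinant on the eigenspace gives a character of the
centraliser dominated by the logarithm of the operator norm.
-/

namespace Vale.Agent.P184

open Matrix

section eigen

variable {Ω : Type*} [Field Ω] {n : ℕ}

/-- An eigenspace, presented by an inclusion matrix and a left inverse. -/
lemma exists_eigen_data (A : Matrix (Fin n) (Fin n) Ω) (μ : Ω)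
    (hμ : (μ • (1 : Matrix (Fin n) (Fin n) Ω) - A).det = 0) :
    ∃ (d : ℕ) (P : Matrix (Fin d) (Fin n) Ω) (Q : Matrix (Fin n) (Fin d) Ω),
      0 < d ∧ P * Q = 1 ∧ A * Q = μ • Q ∧
      ∀ B : Matrix (Fin n) (Fin n) Ω, A * B = B * A → Q * (P * (B * Q)) = B * Q := by
  classical
  let W : Submodule Ω (Fin n → Ω) := LinearMap.ker (toLin' (μ • 1 - A))
  have hW : ∀ v, v ∈ W ↔ A *ᵥ v = μ • v := fun v => by
    rw [LinearMap.mem_ker, toLin'_apply, sub_mulVec, smul_mulVec, one_mulVec, sub_eq_zero,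
      eq_comm]
  obtain ⟨v, hv0, hv⟩ := exists_mulVec_eq_zero_iff.mpr hμ
  have hvW : v ∈ W := by rw [LinearMap.mem_ker, toLin'_apply]; exact hv
  let d := Module.finrank Ω W
  have hd : 0 < d := Module.finrank_pos_iff_exists_ne_zero.mpr
    ⟨⟨v, hvW⟩, fun h => hv0 (congrArg Subtype.val h)⟩
  let b : Module.Basis (Fin d) Ω W := Module.finBasis Ω W
  obtain ⟨f, hf⟩ := LinearMap.exists_leftInverse_of_injective W.subtype W.ker_subtype
  let q : (Fin d → Ω) →ₗ[Ω] (Fin n → Ω) := W.subtype ∘ₗ b.equivFun.symm.toLinearMap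
  let r : (Fin n → Ω) →ₗ[Ω] (Fin d → Ω) := b.equivFun.toLinearMap ∘ₗ f
  have hrq : ∀ x, r (q x) = x := fun x => by
    have := LinearMap.congr_fun hf (b.equivFun.symm x)
    simp only [LinearMap.comp_apply, LinearMap.id_apply] at this
    show b.equivFun (f (W.subtype (b.equivFun.symm x))) = x
    rw [this, LinearEquiv.apply_symm_apply]
  have hqr : ∀ x ∈ W, q (r x) = x := fun x hx => by
    have := LinearMap.congr_fun hf ⟨x, hx⟩
    simp only [LinearMap.comp_apply, LinearMap.id_apply, Submodule.subtype_apply] at this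
    simp [r, q, this]
  have hqW : ∀ x, q x ∈ W := fun x => (b.equivFun.symm x).2
  refine ⟨d, LinearMap.toMatrix' r, LinearMap.toMatrix' q, hd, ?_, ?_, ?_⟩
  · apply Matrix.toLin'.injective
    refine LinearMap.ext fun x => ?_
    simp [hrq]
  · apply Matrix.toLin'.injective
    refine LinearMap.ext fun x => ?_
    simp [(hW _).mp (hqW x)]
  · intro B hB
    apply Matrix.toLin'.injective
    refine LinearMap.ext fun x => ?_
    have hBx : B *ᵥ q x ∈ W := (hW _).mpr (by
      rw [mulVec_mulVec, hB, ← mulVec_mulVec, (hW _).mp (hqW x), mulVec_smul])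
    simp [hqr _ hBx]

end eigen

section normed

attribute [local instance] Matrix.linftyOpSeminormedAddCommGroup Matrix.linftyOpNormedSpace

variable {G : Type*} [Group G] {ι : Type*} [Fintype ι] [DecidableEq ι]
  {Ω : Type*} [NormedField Ω] {n : ℕ}

lemma norm_entry_le {d : ℕ} (M : Matrix (Fin d) (Fin d) Ω) (i j : Fin d) : ‖M i j‖ ≤ ‖M‖ := by
  rw [linfty_opNorm_def]
  have h1 : ‖M i j‖₊ ≤ ∑ k, ‖M i k‖₊ :=
    Finset.single_le_sum (f := fun k => ‖M i k‖₊) (fun _ _ => zero_le) (Finset.mem_univ j)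
  exact NNReal.coe_le_coe.mpr (h1.trans (Finset.le_sup (f := fun i => ∑ k, ‖M i k‖₊)
    (Finset.mem_univ i)))

lemma norm_det_le {d : ℕ} (M : Matrix (Fin d) (Fin d) Ω) :
    ‖M.det‖ ≤ Fintype.card (Equiv.Perm (Fin d)) * ‖M‖ ^ d := by
  rw [det_apply']
  refine (norm_sum_le _ _).trans ((Finset.sum_le_card_nsmul _ _ (‖M‖ ^ d) fun σ _ => ?_).trans_eq
    (nsmul_eq_mul _ _))
  rw [norm_mul, norm_prod]
  have h1 : ‖((Equiv.Perm.sign σ : ℤ) : Ω)‖ = 1 := by
    rcases Int.units_eq_one_or (Equiv.Perm.sign σ) with h | h <;> simp [h]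
  rw [h1, one_mul]
  refine (Finset.prod_le_prod (fun i _ => norm_nonneg _) fun i _ => norm_entry_le M _ _).trans ?_
  simp

lemma norm_compress_le {d : ℕ} (P : Matrix (Fin d) (Fin n) Ω) (Q : Matrix (Fin n) (Fin d) Ω)
    (A : Matrix (Fin n) (Fin n) Ω) :
    ‖P * (A * Q)‖ ≤ ‖P‖ * ‖Q‖ * ‖A‖ := by
  refine (linfty_opNorm_mul _ _).trans ?_
  refine (mul_le_mul_of_nonneg_left (linfty_opNorm_mul _ _) (norm_nonneg _)).trans_eq ?_
  ring

lemma log_norm_det_le {d : ℕ} (P : Matrix (Fin d) (Fin n) Ω) (Q : Matrix (Fin n) (Fin d) Ω)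
    (A : Matrix (Fin n) (Fin n) Ω) (hA : (P * (A * Q)).det ≠ 0) (m : ℝ) (hm1 : 1 ≤ m)
    (hm : ‖A‖ ≤ m) :
    Real.log ‖(P * (A * Q)).det‖ ≤
      Real.log (max 1 (Fintype.card (Equiv.Perm (Fin d)) * (‖P‖ * ‖Q‖) ^ d)) +
        d * Real.log m := by
  have h1 : ‖(P * (A * Q)).det‖ ≤
      max 1 (Fintype.card (Equiv.Perm (Fin d)) * (‖P‖ * ‖Q‖) ^ d) * m ^ d := by
    refine (norm_det_le _).trans ?_
    refine le_trans ?_ (mul_le_mul_of_nonneg_right (le_max_right _ _) (by positivity))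
    rw [mul_assoc (Fintype.card (Equiv.Perm (Fin d)) : ℝ), ← mul_pow]
    refine mul_le_mul_of_nonneg_left (pow_le_pow_left₀ (norm_nonneg _) ?_ _) (Nat.cast_nonneg _)
    exact (norm_compress_le P Q A).trans (mul_le_mul_of_nonneg_left hm (by positivity))
  have h2 := Real.log_le_log (norm_pos_iff.mpr hA) h1
  rwa [Real.log_mul (by positivity) (by positivity), Real.log_pow] at h2

/-- An eigenvalue off the unit circle of a normed field kills the trace. -/
theorem trace_eq_zero_of_eigen_norm (e : G → Matrix ι ι ℂ)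
    (he : ∀ i j, Summable fun x => ‖e x i j‖)
    (hi : ∀ x i j, ∑' y, ∑ k, e y i k * e (y⁻¹ * x) k j = e x i j) (g : G)
    (π : G →* Matrix (Fin n) (Fin n) Ω) (μ : Ω)
    (hμ : (μ • (1 : Matrix (Fin n) (Fin n) Ω) - π g).det = 0) (hμ0 : μ ≠ 0) (hμ1 : ‖μ‖ ≠ 1) :
    ∑' x : G, {x | IsConj g x}.indicator (fun y => ∑ i, e y i i) x = 0 := by
  classical
  obtain ⟨d, P, Q, hd, hPQ, hgQ, hinv⟩ := exists_eigen_data (π g) μ hμ
  let L := Subgroup.centralizer ({g} : Set G)
  let D : L → Ω := fun c => (P * (π c * Q)).det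
  have hDmul : ∀ a b : L, D (a * b) = D a * D b := fun a b => by
    have hb : Commute g (b : G) := (Subgroup.mem_centralizer_singleton_iff.mp b.2).symm
    have := hinv (π b) (by rw [← map_mul, ← map_mul, hb.eq])
    simp only [D, ← det_mul, Subgroup.coe_mul, map_mul]
    congr 1
    rw [Matrix.mul_assoc P (π a * Q), Matrix.mul_assoc (π a : Matrix (Fin n) (Fin n) Ω) Q, this,
      Matrix.mul_assoc]
  have hD1 : D 1 = 1 := by simp [D, hPQ]
  have hD0 : ∀ c, D c ≠ 0 := fun c h => by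
    have := hDmul c c⁻¹
    rw [mul_inv_cancel, hD1, h, zero_mul] at this
    exact one_ne_zero this
  let ψ : L → ℝ := fun c => Real.log ‖D c‖
  let M : G → ℝ := fun x => max 1 (max ‖π x‖ ‖π x⁻¹‖)
  have hM1 : ∀ x, 1 ≤ M x := fun x => le_max_left _ _
  have hMmul : ∀ x y, M (x * y) ≤ M x * M y := fun x y => by
    have h1 : ‖π x‖ ≤ M x := (le_max_left _ _).trans (le_max_right _ _)
    have h2 : ‖π y‖ ≤ M y := (le_max_left _ _).trans (le_max_right _ _)
    have h3 : ‖π x⁻¹‖ ≤ M x := (le_max_right _ _).trans (le_max_right _ _)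
    have h4 : ‖π y⁻¹‖ ≤ M y := (le_max_right _ _).trans (le_max_right _ _)
    refine max_le (one_le_mul_of_one_le_of_one_le (hM1 x) (hM1 y)) (max_le ?_ ?_)
    · rw [map_mul]
      exact (linfty_opNorm_mul _ _).trans
        (mul_le_mul h1 h2 (norm_nonneg _) ((norm_nonneg _).trans h1))
    · rw [_root_.mul_inv_rev, map_mul]
      refine (linfty_opNorm_mul _ _).trans
        ((mul_le_mul h4 h3 (norm_nonneg _) ((norm_nonneg _).trans h4)).trans_eq (mul_comm _ _))
  let K : ℝ := Real.log (max 1 (Fintype.card (Equiv.Perm (Fin d)) * (‖P‖ * ‖Q‖) ^ d))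
  have hK : 0 ≤ K := Real.log_nonneg (le_max_left _ _)
  have hlog : ∀ x, 0 ≤ Real.log (M x) := fun x => Real.log_nonneg (hM1 x)
  have hψ : ∀ a b, ψ (a * b) = ψ a + ψ b := fun a b => by
    simp only [ψ, hDmul, norm_mul]
    exact Real.log_mul (norm_ne_zero_iff.mpr (hD0 a)) (norm_ne_zero_iff.mpr (hD0 b))
  refine trace_eq_zero_of_lipschitz e he hi g (fun x => K + d * Real.log (M x)) ?_ ψ hψ ?_ ?_
  · intro x y
    have hM0 : ∀ z, 0 < M z := fun z => lt_of_lt_of_le one_pos (hM1 z)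
    have h := Real.log_le_log (hM0 _) (hMmul x y)
    rw [Real.log_mul (hM0 x).ne' (hM0 y).ne'] at h
    have := mul_le_mul_of_nonneg_left h (Nat.cast_nonneg d)
    linarith
  · intro c
    have hup : ψ c ≤ K + d * Real.log (M c) := log_norm_det_le P Q _ (hD0 c) _ (hM1 c)
      ((le_max_left _ _).trans (le_max_right _ _))
    have hdown : ψ c⁻¹ ≤ K + d * Real.log (M c) := log_norm_det_le P Q _ (hD0 c⁻¹) _ (hM1 c)
      ((le_max_right _ _).trans (le_max_right _ _))
    have h1 := hψ c c⁻¹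
    rw [mul_inv_cancel, show ψ 1 = 0 by simp [ψ, hD1]] at h1
    rw [abs_le]
    constructor <;> linarith
  · have : D ⟨g, Subgroup.mem_centralizer_singleton_iff.mpr rfl⟩ = μ ^ d := by
      simp [D, hgQ, hPQ]
    simp only [ψ, this, norm_pow, Real.log_pow]
    refine mul_ne_zero (Nat.cast_ne_zero.mpr hd.ne') (Real.log_ne_zero_of_pos_of_ne_one ?_ hμ1)
    exact norm_pos_iff.mpr hμ0

end normed

end Vale.Agent.P184
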