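import Vale.Agent.P184.Countable
import Vale.Agent.P184.LinearNormed
import Vale.Agent.P184.FieldNorm

/-!
Trace vanishing for linear representations: an element whose image has no unipotent positive
power, in particular every infinite order element of a linear group in positive characteristic.
-/

namespace Vale.Agent.P184

open Matrix Polynomial

lemma exists_root_not_root_of_unity {L : Type} [Field L] [IsAlgClosed L] {n : ℕ}
    (A : Matrix (Fin n) (Fin n) L) (h : ∀ m : ℕ, 0 < m → ¬ IsNilpotent (A ^ m - 1)) :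
    ∃ a : L, A.charpoly.IsRoot a ∧ ∀ m : ℕ, 0 < m → a ^ m ≠ 1 := by
  classical
  by_contra hc
  push Not at hc
  choose o ho0 ho using hc
  let ord : L → ℕ := fun a => if ha : A.charpoly.IsRoot a then o a ha else 1
  let m := ∏ a ∈ A.charpoly.roots.toFinset, ord a
  have hm : 0 < m := Finset.prod_pos fun a _ => by
    by_cases ha : A.charpoly.IsRoot a
    · simp only [ord]; rw [dif_pos ha]; exact ho0 a ha
    · simp only [ord]; rw [dif_neg ha]; exact one_pos
  have hroot : ∀ a ∈ A.charpoly.roots, (X - C a) ∣ (X ^ m - 1 : L[X]) := fun a ha => by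
    rw [dvd_iff_isRoot]
    have ha' := (mem_roots A.charpoly_monic.ne_zero).mp ha
    have h1 : a ^ ord a = 1 := by simp only [ord]; rw [dif_pos ha']; exact ho a ha'
    obtain ⟨c, hc⟩ := Finset.dvd_prod_of_mem ord (Multiset.mem_toFinset.mpr ha)
    simp [m, hc, pow_mul, h1]
  have hdvd := Multiset.prod_dvd_prod_of_dvd (S := A.charpoly.roots) (fun a => X - C a)
    (fun _ => (X ^ m - 1 : L[X])) hroot
  rw [← (IsAlgClosed.splits A.charpoly).eq_prod_roots_of_monic A.charpoly_monic,
    Multiset.map_const', Multiset.prod_replicate] at hdvd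
  obtain ⟨q, hq⟩ := hdvd
  refine h m hm ⟨Multiset.card A.charpoly.roots, ?_⟩
  have := congrArg (aeval A) hq
  simpa [Matrix.aeval_self_charpoly] using this

variable {G : Type*} [Group G] {ι : Type*} [Fintype ι] [DecidableEq ι]

/-- **Linear criterion.** -/
theorem trace_eq_zero_of_linear (e : G → Matrix ι ι ℂ)
    (he : ∀ i j, Summable fun x => ‖e x i j‖)
    (hi : ∀ x i j, ∑' y, ∑ k, e y i k * e (y⁻¹ * x) k j = e x i j) (g : G)
    {K : Type} [Field K] {n : ℕ} (π : G →* GL (Fin n) K)
    (hg : ∀ m : ℕ, 0 < m → ¬ IsNilpotent ((π g : Matrix (Fin n) (Fin n) K) ^ m - 1)) :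
    ∑' x : G, {x | IsConj g x}.indicator (fun y => ∑ i, e y i i) x = 0 := by
  classical
  let f : K →+* AlgebraicClosure K := algebraMap K (AlgebraicClosure K)
  let πL : G →* Matrix (Fin n) (Fin n) (AlgebraicClosure K) :=
    (f.mapMatrix.toMonoidHom.comp (Units.coeHom _)).comp π
  have hgL : ∀ m : ℕ, 0 < m → ¬ IsNilpotent (πL g ^ m - 1) := fun m hm h => by
    have hfinj : Function.Injective (f.mapMatrix (m := Fin n)) := fun A B hAB => Matrix.map_injective f.injective hAB
    refine hg m hm ((IsNilpotent.map_iff hfinj).mp ?_)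
    simpa [πL, map_sub, map_pow] using h
  obtain ⟨a, ha, hane⟩ := exists_root_not_root_of_unity (πL g) hgL
  refine trace_eq_zero_of_countable e he hi g fun Γ _ hgΓ R hR hRi => ?_
  let S : Set (AlgebraicClosure K) :=
    insert a (Set.range fun z : Γ × Fin n × Fin n => πL z.1 z.2.1 z.2.2)
  let E : Subfield (AlgebraicClosure K) := Subfield.closure S
  have : Countable E := Cardinal.mk_le_aleph0_iff.mp
    ((Subfield.cardinalMk_closure_le_max S).trans
      (max_le ((Set.countable_range _).insert a).le_aleph0 le_rfl))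
  let aE : E := ⟨a, Subfield.subset_closure (Set.mem_insert _ _)⟩
  let πE : Γ →* Matrix (Fin n) (Fin n) E :=
    { toFun := fun x => Matrix.of fun i j => ⟨πL x i j, Subfield.subset_closure (Or.inr ⟨(x, i, j), rfl⟩)⟩
      map_one' := by ext i j; simp [Matrix.one_apply, apply_ite]
      map_mul' := fun x y => by
        ext i j
        simp [Matrix.mul_apply] }
  have ha0 : a ≠ 0 := fun h0 => by
    have h1 := ha
    rw [IsRoot, eval_charpoly, h0, map_zero, zero_sub, det_neg] at h1
    have hu : IsUnit (πL g).det := (Matrix.isUnit_iff_isUnit_det _).mp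
      (((π g).isUnit).map f.mapMatrix)
    exact (mul_ne_zero (pow_ne_zero _ (neg_ne_zero.mpr one_ne_zero)) hu.ne_zero) h1
  obtain ⟨Ω, hΩ, φ, hφ⟩ := exists_norm_ne_one (x := aE) (fun h => ha0 (congrArg Subtype.val h))
    fun m hm h => hane m hm (congrArg Subtype.val h)
  have hdet : (aE • (1 : Matrix (Fin n) (Fin n) E) - πE ⟨g, hgΓ⟩).det = 0 := by
    refine E.subtype.injective ?_
    rw [map_zero, RingHom.map_det]
    refine Eq.trans (congrArg det ?_) ((eval_charpoly _ a).symm.trans ha)
    ext i j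
    by_cases h : i = j <;> simp [πE, aE, h]
  refine trace_eq_zero_of_eigen_norm R hR hRi ⟨g, hgΓ⟩ (φ.mapMatrix.toMonoidHom.comp πE) (φ aE)
    ?_ ((map_ne_zero φ).mpr fun h => ha0 (congrArg Subtype.val h)) hφ
  have h1 := congrArg φ hdet
  rw [map_zero, RingHom.map_det] at h1
  refine Eq.trans (congrArg det ?_) h1
  ext i j
  by_cases h : i = j <;> simp [h]

omit [Fintype ι] [DecidableEq ι] in
/-- A faithful representation in positive characteristic sends elements of infinite order to
matrices without unipotent positive powers. -/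
lemma no_unipotent_power_charP {g : G} {K : Type} [Field K] (p : ℕ) [Fact p.Prime] [CharP K p]
    {n : ℕ} (π : G →* GL (Fin n) K) (hπ : Function.Injective π) (hg : ¬ IsOfFinOrder g)
    (m : ℕ) (hm : 0 < m) : ¬ IsNilpotent ((π g : Matrix (Fin n) (Fin n) K) ^ m - 1) := by
  intro h
  rcases Nat.eq_zero_or_pos n with rfl | hn
  · exact hg (isOfFinOrder_iff_pow_eq_one.mpr ⟨1, one_pos, hπ (Subsingleton.elim _ _)⟩)
  · haveI : Nonempty (Fin n) := ⟨⟨0, hn⟩⟩
    obtain ⟨N, hN⟩ := h
    have h0 := pow_eq_zero_of_le (Nat.lt_pow_self (n := N) (Fact.out : p.Prime).one_lt).le hN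
    rw [sub_pow_char_pow_of_commute _ _ (Commute.one_right _), one_pow, sub_eq_zero,
      ← pow_mul] at h0
    refine hg (isOfFinOrder_iff_pow_eq_one.mpr ⟨m * p ^ N,
      Nat.mul_pos hm (pow_pos (Fact.out : p.Prime).pos _), hπ (Units.ext ?_)⟩)
    simpa using h0

end Vale.Agent.P184
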