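import Vale.Agent.P184.Weighted

/-!
A general criterion: the trace of an idempotent over `l^1(G)` vanishes at `g` when the centraliser
of `g` has a real homomorphism, nonzero at `g` and dominated by a subadditive length on `G`.

The proof uses only an additive function `F` on pairs `(a, b)` with `a * b` conjugate to `g`:
`T = ∑ F(a,b) tr (e a * e b)` satisfies `2 T = ψ g * τ` and, by idempotency on triples, `T = 2 T`.
-/

namespace Vale.Agent.P184

open Filter Topology

attribute [local instance] Matrix.linftyOpNormedRing Matrix.linftyOpNormedAlgebra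

section core

variable {G : Type*} [Group G] {ι : Type*} [Fintype ι] [DecidableEq ι]

lemma pair_summable (f g : G → ℝ) (hf : Summable f) (hg : Summable g) (hf0 : ∀ x, 0 ≤ f x)
    (hg0 : ∀ x, 0 ≤ g x) : Summable fun q : G × G => f q.1 * g q.2 :=
  hf.mul_of_nonneg hg hf0 hg0

lemma trace_norm_le (M : Matrix ι ι ℂ) : ‖M.trace‖ ≤ Fintype.card ι * ‖M‖ := by
  refine (norm_sum_le _ _).trans ?_
  refine (Finset.sum_le_card_nsmul _ _ _ fun i _ => entry_le_norm M i i).trans (le_of_eq ?_)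
  rw [Finset.card_univ, nsmul_eq_mul]

/-- fibres of the product map on pairs -/
def pairEquiv (G : Type*) [Group G] : G × G ≃ G × G where
  toFun q := (q.1 * q.2, q.1)
  invFun q := (q.2, q.2⁻¹ * q.1)
  left_inv q := by simp
  right_inv q := by simp

open Classical in
/-- weighted pair terms -/
noncomputable def pairTerm (p : l1Sub G (Matrix ι ι ℂ)) (C : Set G) (F : G → G → ℝ) (q : G × G) :
    ℂ :=
  if q.1 * q.2 ∈ C then (F q.1 q.2 : ℂ) * (p.1 q.1 * p.1 q.2).trace else 0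

open Classical in
/-- weighted triple terms -/
noncomputable def tripTerm (p : l1Sub G (Matrix ι ι ℂ)) (C : Set G) (F : G → G → G → ℝ)
    (q : G × G × G) : ℂ :=
  if q.1 * q.2.1 * q.2.2 ∈ C then
    (F q.1 q.2.1 q.2.2 : ℂ) * (p.1 q.1 * p.1 q.2.1 * p.1 q.2.2).trace else 0

lemma pairTerm_summable (p : l1Sub G (Matrix ι ι ℂ)) (C : Set G) (F : G → G → ℝ) (w : G → ℝ)
    (hw0 : ∀ x, 0 ≤ w x) (hwp : Summable fun x => w x * ‖p.1 x‖)
    (hF : ∀ a b, a * b ∈ C → |F a b| ≤ w a) : Summable (pairTerm p C F) := by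
  have hn : ∀ x, 0 ≤ w x * ‖p.1 x‖ := fun x => mul_nonneg (hw0 x) (norm_nonneg _)
  refine Summable.of_norm_bounded
    ((pair_summable _ _ hwp p.2 hn fun x => norm_nonneg _).mul_left (Fintype.card ι : ℝ))
    fun q => ?_
  unfold pairTerm
  split_ifs with hq
  · rw [norm_mul, Complex.norm_real, Real.norm_eq_abs]
    have h1 := (trace_norm_le (p.1 q.1 * p.1 q.2)).trans
      (mul_le_mul_of_nonneg_left (norm_mul_le _ _) (Nat.cast_nonneg _))
    refine (mul_le_mul (hF _ _ hq) h1 (norm_nonneg _) (hw0 _)).trans (le_of_eq ?_)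
    ring
  · rw [norm_zero]
    exact mul_nonneg (Nat.cast_nonneg _) (mul_nonneg (hn _) (norm_nonneg _))

lemma tripTerm_summable (p : l1Sub G (Matrix ι ι ℂ)) (C : Set G) (F : G → G → G → ℝ) (w : G → ℝ)
    (hw0 : ∀ x, 0 ≤ w x) (hwp : Summable fun x => w x * ‖p.1 x‖)
    (hF : ∀ a b c, a * b * c ∈ C → |F a b c| ≤ w a + w b) : Summable (tripTerm p C F) := by
  have hn : ∀ x, 0 ≤ w x * ‖p.1 x‖ := fun x => mul_nonneg (hw0 x) (norm_nonneg _)
  have hpp2 := pair_summable _ _ p.2 p.2 (fun _ => norm_nonneg _) fun _ => norm_nonneg _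
  have hnn : ∀ q : G × G, 0 ≤ ‖p.1 q.1‖ * ‖p.1 q.2‖ := fun q =>
    mul_nonneg (norm_nonneg _) (norm_nonneg _)
  have h3 : Summable fun q : G × G × G =>
      (Fintype.card ι : ℝ) * ((w q.1 * ‖p.1 q.1‖) * (‖p.1 q.2.1‖ * ‖p.1 q.2.2‖)) :=
    (hwp.mul_of_nonneg hpp2 hn hnn).mul_left _
  have h3' : Summable fun q : G × G × G =>
      (Fintype.card ι : ℝ) * (‖p.1 q.1‖ * ((w q.2.1 * ‖p.1 q.2.1‖) * ‖p.1 q.2.2‖)) :=
    (p.2.mul_of_nonneg (pair_summable _ _ hwp p.2 hn fun _ => norm_nonneg _)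
      (fun _ => norm_nonneg _) fun q => mul_nonneg (hn _) (norm_nonneg _)).mul_left _
  refine Summable.of_norm_bounded (h3.add h3') fun q => ?_
  unfold tripTerm
  split_ifs with hq
  · rw [norm_mul, Complex.norm_real, Real.norm_eq_abs]
    have h1 : ‖(p.1 q.1 * p.1 q.2.1 * p.1 q.2.2).trace‖ ≤
        (Fintype.card ι : ℝ) * (‖p.1 q.1‖ * ‖p.1 q.2.1‖ * ‖p.1 q.2.2‖) :=
      (trace_norm_le _).trans (mul_le_mul_of_nonneg_left norm_mul₃_le (Nat.cast_nonneg _))
    refine (mul_le_mul (hF _ _ _ hq) h1 (norm_nonneg _)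
      (add_nonneg (hw0 _) (hw0 _))).trans (le_of_eq ?_)
    ring
  · rw [norm_zero]
    exact add_nonneg (mul_nonneg (Nat.cast_nonneg _) (mul_nonneg (hn _) (hnn _)))
      (mul_nonneg (Nat.cast_nonneg _) (mul_nonneg (norm_nonneg _)
        (mul_nonneg (hn _) (norm_nonneg _))))

lemma conv_trace [CompleteSpace (Matrix ι ι ℂ)] (p : l1Sub G (Matrix ι ι ℂ)) (hp : p * p = p)
    (M : Matrix ι ι ℂ) (x : G) :
    ∑' y, (M * (p.1 y * p.1 (y⁻¹ * x))).trace = (M * p.1 x).trace := by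
  let Tr : Matrix ι ι ℂ →L[ℂ] ℂ := LinearMap.toContinuousLinearMap (Matrix.traceLinearMap ι ℂ ℂ)
  refine (Tr.map_tsum ((conv_term_summable p.2 p.2 x).mul_left M)).symm.trans ?_
  refine congrArg Matrix.trace (((conv_term_summable p.2 p.2 x).tsum_mul_left M).trans ?_)
  exact congrArg (M * ·) (congrFun (congrArg Subtype.val hp) x)

lemma pairs_trace [CompleteSpace (Matrix ι ι ℂ)] (p : l1Sub G (Matrix ι ι ℂ)) (hp : p * p = p)
    (C : Set G) :
    ∑' q, pairTerm p C (fun _ _ => 1) q = ∑' x, C.indicator (fun y => (p.1 y).trace) x := by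
  have hs := pairTerm_summable p C (fun _ _ => 1) (fun _ => 1) (fun _ => zero_le_one)
    (by simp only [one_mul]; exact p.2) (fun _ _ _ => by simp)
  rw [← (pairEquiv G).symm.tsum_eq (pairTerm p C fun _ _ => 1),
    (show Summable fun q => pairTerm p C (fun _ _ => 1) ((pairEquiv G).symm q) from
      (pairEquiv G).symm.summable_iff.mpr hs).tsum_prod]
  refine tsum_congr fun x => ?_
  by_cases hx : x ∈ C
  · rw [Set.indicator_of_mem hx]
    refine Eq.trans (tsum_congr fun y => ?_) ((conv_trace p hp 1 x).trans (by rw [one_mul]))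
    simp [pairTerm, pairEquiv, hx]
  · rw [Set.indicator_of_notMem hx, tsum_congr (fun y => ?_), tsum_zero]
    simp [pairTerm, pairEquiv, hx]

lemma collapse_right [CompleteSpace (Matrix ι ι ℂ)] (p : l1Sub G (Matrix ι ι ℂ)) (hp : p * p = p)
    (C : Set G) (F : G → G → ℝ)
    (hs : Summable (tripTerm p C fun a b c => F a (b * c))) :
    ∑' q, tripTerm p C (fun a b c => F a (b * c)) q = ∑' q, pairTerm p C F q := by
  let e : G × G × G ≃ (G × G) × G :=
    { toFun := fun q => ((q.1, q.2.1 * q.2.2), q.2.1)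
      invFun := fun q => (q.1.1, q.2, q.2⁻¹ * q.1.2)
      left_inv := fun q => by simp
      right_inv := fun q => by simp }
  rw [← e.symm.tsum_eq (tripTerm p C _),
    (show Summable fun q => tripTerm p C (fun a b c => F a (b * c)) (e.symm q) from
      e.symm.summable_iff.mpr hs).tsum_prod]
  refine tsum_congr fun q => ?_
  unfold pairTerm
  split_ifs with hq
  · rw [← conv_trace p hp (p.1 q.1) q.2, ← tsum_mul_left]
    exact tsum_congr fun y => by simp [tripTerm, e, mul_assoc, hq]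
  · rw [tsum_congr (fun y => ?_), tsum_zero]
    simp [tripTerm, e, mul_assoc, hq]

lemma collapse_left [CompleteSpace (Matrix ι ι ℂ)] (p : l1Sub G (Matrix ι ι ℂ)) (hp : p * p = p)
    (C : Set G) (F : G → G → ℝ)
    (hs : Summable (tripTerm p C fun a b c => F (a * b) c)) :
    ∑' q, tripTerm p C (fun a b c => F (a * b) c) q = ∑' q, pairTerm p C F q := by
  let e : G × G × G ≃ (G × G) × G :=
    { toFun := fun q => ((q.1 * q.2.1, q.2.2), q.1)
      invFun := fun q => (q.2, q.2⁻¹ * q.1.1, q.1.2)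
      left_inv := fun q => by simp
      right_inv := fun q => by simp }
  rw [← e.symm.tsum_eq (tripTerm p C _),
    (show Summable fun q => tripTerm p C (fun a b c => F (a * b) c) (e.symm q) from
      e.symm.summable_iff.mpr hs).tsum_prod]
  refine tsum_congr fun q => ?_
  unfold pairTerm
  split_ifs with hq
  · rw [Matrix.trace_mul_comm (p.1 q.1), ← conv_trace p hp (p.1 q.2) q.1, ← tsum_mul_left]
    refine tsum_congr fun y => ?_
    simp only [tripTerm, e, Equiv.coe_fn_symm_mk, mul_inv_cancel_left, if_pos hq]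
    rw [Matrix.trace_mul_comm _ (p.1 q.2)]
    simp [hq]
  · rw [tsum_congr (fun y => ?_), tsum_zero]
    simp [tripTerm, e, hq]

lemma swap_identity (p : l1Sub G (Matrix ι ι ℂ)) (C : Set G)
    (hC : ∀ a b : G, a * b ∈ C ↔ b * a ∈ C) (F : G → G → ℝ) (hs : Summable (pairTerm p C F))
    (r : ℝ) (hloop : ∀ a b, a * b ∈ C → F a b + F b a = r) :
    ∑' q, pairTerm p C F q + ∑' q, pairTerm p C F q =
      (r : ℂ) * ∑' q, pairTerm p C (fun _ _ => 1) q := by
  conv_lhs => arg 2; rw [← (Equiv.prodComm G G).tsum_eq (pairTerm p C F)]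
  rw [← hs.tsum_add (show Summable fun q => pairTerm p C F ((Equiv.prodComm G G) q) from
    ((Equiv.prodComm G G).summable_iff).mpr hs), ← tsum_mul_left]
  refine tsum_congr fun q => ?_
  by_cases hq : q.1 * q.2 ∈ C
  · have hq' := (hC _ _).mp hq
    simp only [pairTerm, Equiv.prodComm_apply, Prod.fst_swap, Prod.snd_swap, if_pos hq, if_pos hq']
    rw [Matrix.trace_mul_comm (p.1 q.2), ← hloop _ _ hq]
    simp [hq']
    ring
  · have hq' : ¬ q.2 * q.1 ∈ C := fun h => hq ((hC _ _).mp h)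
    simp [pairTerm, Equiv.prodComm_apply, Prod.fst_swap, Prod.snd_swap, hq, hq']

lemma rotation_identity (p : l1Sub G (Matrix ι ι ℂ)) (C : Set G)
    (hC : ∀ a b : G, a * b ∈ C ↔ b * a ∈ C) (F : G → G → ℝ)
    (hs : Summable (tripTerm p C fun a b c => F a (b * c)))
    (hadd : ∀ a b c, a * b * c ∈ C → F a (b * c) + F b (c * a) = F (a * b) c) :
    ∑' q, tripTerm p C (fun a b c => F (a * b) c) q =
      ∑' q, tripTerm p C (fun a b c => F a (b * c)) q +
        ∑' q, tripTerm p C (fun a b c => F a (b * c)) q := by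
  let rot : G × G × G ≃ G × G × G :=
    { toFun := fun q => (q.2.1, q.2.2, q.1)
      invFun := fun q => (q.2.2, q.1, q.2.1)
      left_inv := fun q => rfl
      right_inv := fun q => rfl }
  conv_rhs => arg 2; rw [← rot.tsum_eq (tripTerm p C _)]
  rw [← hs.tsum_add (show Summable fun q => tripTerm p C (fun a b c => F a (b * c)) (rot q) from
    rot.summable_iff.mpr hs)]
  refine tsum_congr fun q => ?_
  have hiff : q.2.1 * q.2.2 * q.1 ∈ C ↔ q.1 * q.2.1 * q.2.2 ∈ C := by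
    rw [mul_assoc q.1]; exact hC _ _
  by_cases hq : q.1 * q.2.1 * q.2.2 ∈ C
  · simp only [tripTerm, rot, Equiv.coe_fn_mk, if_pos hq, if_pos (hiff.mpr hq)]
    rw [← hadd _ _ _ hq, Matrix.trace_mul_cycle (p.1 q.1) (p.1 q.2.1) (p.1 q.2.2),
      Matrix.trace_mul_cycle (p.1 q.2.2) (p.1 q.1) (p.1 q.2.1)]
    push_cast; ring
  · simp only [tripTerm, rot, Equiv.coe_fn_mk, if_neg hq, if_neg (mt hiff.mp hq), add_zero]

/-- The core identity: an additive function on pairs kills the trace. -/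
theorem core_identity [CompleteSpace (Matrix ι ι ℂ)] (p : l1Sub G (Matrix ι ι ℂ))
    (hp : p * p = p) (C : Set G) (hC : ∀ a b : G, a * b ∈ C ↔ b * a ∈ C)
    (w : G → ℝ) (hw0 : ∀ x, 0 ≤ w x) (hwadd : ∀ x y, w (x * y) ≤ w x + w y)
    (hwp : Summable fun x => w x * ‖p.1 x‖)
    (F : G → G → ℝ) (hF : ∀ a b, a * b ∈ C → |F a b| ≤ w a)
    (hadd : ∀ a b c, a * b * c ∈ C → F a (b * c) + F b (c * a) = F (a * b) c)
    (r : ℝ) (hloop : ∀ a b, a * b ∈ C → F a b + F b a = r) :
    (r : ℂ) * ∑' x, C.indicator (fun y => (p.1 y).trace) x = 0 := by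
  have hP := pairTerm_summable p C F w hw0 hwp hF
  have hA := tripTerm_summable p C (fun a b c => F a (b * c)) w hw0 hwp fun a b c h =>
    (hF _ _ (by rwa [← mul_assoc])).trans (le_add_of_nonneg_right (hw0 b))
  have hD := tripTerm_summable p C (fun a b c => F (a * b) c) w hw0 hwp fun a b c h =>
    (hF _ _ h).trans (hwadd a b)
  have hrel := rotation_identity p C hC F hA hadd
  rw [collapse_right p hp C F hA, collapse_left p hp C F hD] at hrel
  have h2 := swap_identity p C hC F hP r hloop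
  rw [pairs_trace p hp C] at h2
  rw [← h2]
  linear_combination -2 * hrel

end core

section extension

variable {G : Type*} [Group G]

/-- Lipschitz equivariant extension of a homomorphism on a subgroup. -/
lemma exists_equivariant_extension (L : Subgroup G) (ψ : L → ℝ)
    (hψ : ∀ a b, ψ (a * b) = ψ a + ψ b) (ℓ : G → ℝ) (hℓ : ∀ x y, ℓ (x * y) ≤ ℓ x + ℓ y)
    (hdom : ∀ c : L, |ψ c| ≤ ℓ c) :
    ∃ Ψ : G → ℝ, (∀ (c : L) h, Ψ ((c : G) * h) = ψ c + Ψ h) ∧
      ∀ h a, |Ψ (h * a) - Ψ h| ≤ max (ℓ a) 0 + max (ℓ a⁻¹) 0 := by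
  have hℓ1 : 0 ≤ ℓ 1 := by have := hℓ 1 1; rw [one_mul] at this; linarith
  have hpair : ∀ a, 0 ≤ ℓ a + ℓ a⁻¹ := fun a => by
    have := hℓ a a⁻¹; rw [mul_inv_cancel] at this; linarith
  have hinv : ∀ c, ψ c⁻¹ = -ψ c := fun c => by
    have h1 := hψ 1 1
    rw [one_mul] at h1
    have h2 := hψ c⁻¹ c
    rw [inv_mul_cancel] at h2
    linarith
  let f : G → L → ℝ := fun h c => ψ c + ℓ ((c : G)⁻¹ * h)
  have hbdd : ∀ h, BddBelow (Set.range (f h)) := fun h => ⟨-ℓ h⁻¹, by
    rintro _ ⟨c, rfl⟩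
    have h1 := (abs_le.mp (hdom c⁻¹)).2
    rw [hinv] at h1
    have h2 := hℓ ((c : G)⁻¹ * h) h⁻¹
    rw [mul_inv_cancel_right] at h2
    have : ((c⁻¹ : L) : G) = (c : G)⁻¹ := rfl
    rw [this] at h1
    simp only [f]; linarith⟩
  refine ⟨fun h => ⨅ c : L, f h c, fun c h => ?_, ?_⟩
  · show (⨅ d : L, f ((c : G) * h) d) = ψ c + ⨅ d : L, f h d
    rw [← (Equiv.mulLeft c).iInf_comp (g := fun d : L => f ((c : G) * h) d), add_ciInf (hbdd h)]
    refine iInf_congr fun d => ?_
    simp only [f, Equiv.coe_mulLeft, hψ, Subgroup.coe_mul, mul_inv_rev, mul_assoc,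
      inv_mul_cancel_left]
    ring
  · have key : ∀ h a, (⨅ c : L, f (h * a) c) ≤ (⨅ c : L, f h c) + ℓ a := fun h a => by
      rw [← sub_le_iff_le_add]
      refine le_ciInf fun c => ?_
      have h1 := ciInf_le (hbdd (h * a)) c
      have h2 := hℓ ((c : G)⁻¹ * h) a
      rw [mul_assoc] at h2
      simp only [f] at h1 ⊢
      linarith
    intro h a
    have h1 := key h a
    have h2 := key (h * a) a⁻¹
    rw [mul_inv_cancel_right] at h2
    have ha : 0 ≤ ℓ a + ℓ a⁻¹ := hpair a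
    rw [abs_le]
    constructor <;> linarith [le_max_left (ℓ a) 0, le_max_right (ℓ a) 0, le_max_left (ℓ a⁻¹) 0,
      le_max_right (ℓ a⁻¹) 0]

end extension

section main

variable {G : Type*} [Group G] {ι : Type*} [Fintype ι] [DecidableEq ι]

/-- **Lipschitz criterion.** -/
theorem trace_eq_zero_of_lipschitz (e : G → Matrix ι ι ℂ)
    (he : ∀ i j, Summable fun x => ‖e x i j‖)
    (hi : ∀ x i j, ∑' y, ∑ k, e y i k * e (y⁻¹ * x) k j = e x i j) (g : G)
    (ℓ : G → ℝ) (hℓ : ∀ x y, ℓ (x * y) ≤ ℓ x + ℓ y)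
    (ψ : Subgroup.centralizer ({g} : Set G) → ℝ) (hψ : ∀ a b, ψ (a * b) = ψ a + ψ b)
    (hdom : ∀ c, |ψ c| ≤ ℓ c)
    (hne : ψ ⟨g, Subgroup.mem_centralizer_singleton_iff.mpr rfl⟩ ≠ 0) :
    ∑' x : G, {x | IsConj g x}.indicator (fun y => ∑ i, e y i i) x = 0 := by
  classical
  have : CompleteSpace (Matrix ι ι ℂ) := FiniteDimensional.complete ℂ _
  obtain ⟨Ψ, hΨ, hΨlip⟩ := exists_equivariant_extension _ ψ hψ ℓ hℓ hdom
  have hn : Summable fun x => ‖e x‖ :=
    Summable.of_nonneg_of_le (fun _ => norm_nonneg _) (fun x => norm_le_entries _)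
      (summable_sum fun (i : ι) (_ : i ∈ Finset.univ) =>
        summable_sum fun (j : ι) (_ : j ∈ Finset.univ) => he i j)
  let e' : l1Sub G (Matrix ι ι ℂ) := ⟨e, hn⟩
  have he' : e' * e' = e' := by
    apply Subtype.ext
    funext x
    ext i j
    have hsum := conv_term_summable hn hn x
    show (∑' y, e y * e (y⁻¹ * x)) i j = _
    erw [tsum_apply hsum, tsum_apply (Pi.summable.mp hsum i)]
    simpa [Matrix.mul_apply, e'] using hi x i j
  -- an honest nonnegative subadditive weight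
  let w : G → ℝ := fun x => max (ℓ x) 0 + max (ℓ x⁻¹) 0
  have hwadd : ∀ x y, w (x * y) ≤ w x + w y := fun x y => by
    have h1 := hℓ x y
    have h2 := hℓ y⁻¹ x⁻¹
    rw [← mul_inv_rev] at h2
    have h3 : max (ℓ (x * y)) 0 ≤ max (ℓ x) 0 + max (ℓ y) 0 :=
      max_le (h1.trans (add_le_add (le_max_left _ _) (le_max_left _ _)))
        (add_nonneg (le_max_right _ _) (le_max_right _ _))
    have h4 : max (ℓ (x * y)⁻¹) 0 ≤ max (ℓ y⁻¹) 0 + max (ℓ x⁻¹) 0 :=
      max_le (h2.trans (add_le_add (le_max_left _ _) (le_max_left _ _)))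
        (add_nonneg (le_max_right _ _) (le_max_right _ _))
    simp only [w]; linarith
  have hw0 : ∀ x, 0 ≤ w x := fun x => add_nonneg (le_max_right _ _) (le_max_right _ _)
  have hceil : ∀ x y, ⌈w (x * y)⌉₊ ≤ ⌈w x⌉₊ + ⌈w y⌉₊ := fun x y => by
    refine Nat.ceil_le.mpr ((hwadd x y).trans ?_)
    push_cast
    exact add_le_add (Nat.le_ceil _) (Nat.le_ceil _)
  obtain ⟨p, hpp, hp, hpe⟩ := exists_idem_weighted e' he' (fun x => ⌈w x⌉₊) hceil
  set C : Set G := {x | IsConj g x} with hCdef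
  have hC : ∀ a b : G, a * b ∈ C ↔ b * a ∈ C := by
    intro a b
    have h : IsConj (a * b) (b * a) := isConj_iff.mpr ⟨b, by group⟩
    exact ⟨fun hx => IsConj.trans hx h, fun hx => IsConj.trans hx h.symm⟩
  -- conjugators
  have hk : ∀ x, ∃ k : G, x ∈ C → k * x * k⁻¹ = g := fun x => by
    by_cases hx : x ∈ C
    · obtain ⟨k, hk⟩ := isConj_iff.mp (show IsConj x g from (show IsConj g x from hx).symm)
      exact ⟨k, fun _ => hk⟩
    · exact ⟨1, fun h => absurd h hx⟩
  choose k hk using hk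
  let F : G → G → ℝ := fun a b => Ψ (k (a * b) * a) - Ψ (k (a * b))
  have hindep : ∀ x, x ∈ C → ∀ k' : G, k' * x * k'⁻¹ = g → ∀ a,
      Ψ (k x * a) - Ψ (k x) = Ψ (k' * a) - Ψ k' := by
    intro x hx k' hk' a
    have hc : k x * k'⁻¹ ∈ Subgroup.centralizer ({g} : Set G) := by
      rw [Subgroup.mem_centralizer_singleton_iff]
      calc k x * k'⁻¹ * g = k x * k'⁻¹ * (k' * x * k'⁻¹) := by rw [hk']
        _ = (k x * x * (k x)⁻¹) * (k x * k'⁻¹) := by group
        _ = g * (k x * k'⁻¹) := by rw [hk x hx]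
    have h1 := hΨ ⟨_, hc⟩ (k' * a)
    have h2 := hΨ ⟨_, hc⟩ k'
    simp only [mul_assoc, inv_mul_cancel_left, inv_mul_cancel, mul_one] at h1 h2
    rw [h1, h2]; ring
  have hwp : Summable fun x => w x * ‖p.1 x‖ := by
    refine Summable.of_nonneg_of_le (fun x => mul_nonneg (hw0 x) (norm_nonneg _))
      (fun x => mul_le_mul_of_nonneg_right ?_ (norm_nonneg _)) hp
    have := Nat.le_ceil (w x)
    have h0 : (0 : ℝ) ≤ (⌈w x⌉₊ : ℝ) := Nat.cast_nonneg _
    nlinarith
  have hconj : ∀ a b, a * b ∈ C → k (a * b) * a * (b * a) * (k (a * b) * a)⁻¹ = g := fun a b h => by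
    calc k (a * b) * a * (b * a) * (k (a * b) * a)⁻¹ = k (a * b) * (a * b) * (k (a * b))⁻¹ := by
          group
      _ = g := hk _ h
  have key := core_identity p hpp C hC w hw0 hwadd hwp F
    (fun a b _ => hΨlip _ a)
    (fun a b c h => by
      have hx : a * (b * c) ∈ C := by rwa [← mul_assoc]
      have hy : b * (c * a) ∈ C := by rw [← mul_assoc]; exact (hC _ _).mp hx
      have h2 := hindep _ hy (k (a * (b * c)) * a) (by
        have := hconj a (b * c) hx; rwa [mul_assoc b c a] at this) b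
      simp only [F]
      rw [h2, mul_assoc a b c, mul_assoc (k (a * (b * c))) a b]
      ring)
    (ψ ⟨g, Subgroup.mem_centralizer_singleton_iff.mpr rfl⟩)
    (fun a b h => by
      have h2 := hindep _ ((hC a b).mp h) (k (a * b) * a) (hconj a b h) b
      have h3 := hΨ ⟨g, Subgroup.mem_centralizer_singleton_iff.mpr rfl⟩ (k (a * b))
      have h4 : k (a * b) * a * b = g * k (a * b) := by
        calc k (a * b) * a * b = (k (a * b) * (a * b) * (k (a * b))⁻¹) * k (a * b) := by group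
          _ = g * k (a * b) := by rw [hk _ h]
      simp only [F]
      rw [h2, h4, h3]
      ring)
  have hzero : ∑' x, C.indicator (fun y => (p.1 y).trace) x = 0 :=
    (mul_eq_zero.mp key).resolve_left (Complex.ofReal_ne_zero.mpr hne)
  let Tι : Matrix ι ι ℂ →L[ℂ] ℂ := LinearMap.toContinuousLinearMap (Matrix.traceLinearMap ι ℂ ℂ)
  have hfinal := classTrace_eq_of_close Tι (fun a b => Matrix.trace_mul_comm a b) g hpp he' hpe
  exact hfinal.symm.trans hzero

/-- The same for a subgroup of finite index. -/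
theorem trace_eq_zero_of_lipschitz_subgroup (e : G → Matrix ι ι ℂ)
    (he : ∀ i j, Summable fun x => ‖e x i j‖)
    (hi : ∀ x i j, ∑' y, ∑ k, e y i k * e (y⁻¹ * x) k j = e x i j) (g : G)
    (H : Subgroup G) (hH : H.FiniteIndex) (hg : g ∈ H) (ℓ : H → ℝ)
    (hℓ : ∀ x y, ℓ (x * y) ≤ ℓ x + ℓ y)
    (ψ : Subgroup.centralizer ({⟨g, hg⟩} : Set H) → ℝ) (hψ : ∀ a b, ψ (a * b) = ψ a + ψ b)
    (hdom : ∀ c, |ψ c| ≤ ℓ c)
    (hne : ψ ⟨⟨g, hg⟩, Subgroup.mem_centralizer_singleton_iff.mpr rfl⟩ ≠ 0) :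
    ∑' x : G, {x | IsConj g x}.indicator (fun y => ∑ i, e y i i) x = 0 := by
  classical
  exact trace_eq_zero_of_subgroup e he hi g H hH hg
    fun R hR hRi => trace_eq_zero_of_lipschitz R hR hRi _ ℓ hℓ ψ hψ hdom hne

end main

end Vale.Agent.P184
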