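import Vale.Agent.P184.Linear

/-!
The linear criterion only needs representations of the finitely generated subgroups, since an
idempotent is homotopic to one supported in a finitely generated subgroup.
-/

namespace Vale.Agent.P184

open Matrix

attribute [local instance] Matrix.linftyOpNormedRing Matrix.linftyOpNormedAlgebra

variable {G : Type*} [Group G] {ι : Type*} [Fintype ι] [DecidableEq ι]

/-- A class of `G` meets a subgroup in classes of the subgroup; if each of them has trace zero,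
so does the class. -/
lemma trace_eq_zero_of_classes (p : G → Matrix ι ι ℂ) (hp : ∀ i j, Summable fun x => ‖p x i j‖)
    (g : G) (Γ : Subgroup G) (hoff : ∀ x ∉ Γ, p x = 0)
    (hvan : ∀ x : Γ, IsConj g (x : G) →
      ∑' y : Γ, {y | IsConj x y}.indicator (fun y : Γ => ∑ i, p y i i) y = 0) :
    ∑' x : G, {x | IsConj g x}.indicator (fun y => ∑ i, p y i i) x = 0 := by
  classical
  set F : G → ℂ := {x | IsConj g x}.indicator (fun y => ∑ i, p y i i) with hF
  have hFs : Summable F := (summable_sum fun i _ => (hp i i).of_norm).indicator _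
  rw [← (Subtype.val_injective (p := fun x => x ∈ Γ)).tsum_eq (f := F) (fun x hx => by
    by_cases h : x ∈ Γ
    · exact ⟨⟨x, h⟩, rfl⟩
    · exact absurd (by simp [F, hoff x h]) hx)]
  have hs : Summable fun x : Γ => F x := hFs.comp_injective Subtype.val_injective
  let σ := Equiv.sigmaFiberEquiv (ConjClasses.mk : Γ → ConjClasses Γ)
  have hs2 : Summable fun c => F (σ c) := σ.summable_iff.mpr hs
  rw [← σ.tsum_eq (fun x : Γ => F x), hs2.tsum_sigma]
  refine (tsum_congr fun D => ?_).trans tsum_zero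
  obtain ⟨x, rfl⟩ := ConjClasses.mk_surjective D
  by_cases hx : IsConj g (x : G)
  · refine Eq.trans ?_ (hvan x hx)
    rw [← tsum_subtype {y : Γ | IsConj x y}]
    let u : {y : Γ // IsConj x y} ≃ {y : Γ // ConjClasses.mk y = ConjClasses.mk x} :=
      Equiv.subtypeEquivRight fun y => by rw [ConjClasses.mk_eq_mk_iff_isConj, isConj_comm]
    refine (u.tsum_eq (fun y => F ((σ ⟨ConjClasses.mk x, y⟩ : Γ) : G))).symm.trans
      (tsum_congr fun y => ?_)
    have hy : IsConj g ((y.1 : Γ) : G) := hx.trans (Γ.subtype.map_isConj y.2)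
    exact Set.indicator_of_mem (show ((y.1 : Γ) : G) ∈ {x | IsConj g x} from hy) _
  · refine (tsum_congr fun y => ?_).trans tsum_zero
    have hy : ¬ IsConj g ((y.1 : Γ) : G) := fun h =>
      hx (h.trans (Γ.subtype.map_isConj (ConjClasses.mk_eq_mk_iff_isConj.mp y.2)))
    exact Set.indicator_of_notMem (show ((y.1 : Γ) : G) ∉ {x | IsConj g x} from hy) _

/-- **Locally linear criterion.** -/
theorem trace_eq_zero_of_locally_linear (e : G → Matrix ι ι ℂ)
    (he : ∀ i j, Summable fun x => ‖e x i j‖)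
    (hi : ∀ x i j, ∑' y, ∑ k, e y i k * e (y⁻¹ * x) k j = e x i j) (g : G)
    (hrep : ∀ Γ : Subgroup G, Γ.FG → ∀ hgΓ : g ∈ Γ,
      ∃ (K : Type) (_ : Field K) (n : ℕ) (π : Γ →* GL (Fin n) K),
        ∀ m : ℕ, 0 < m → ¬ IsNilpotent ((π ⟨g, hgΓ⟩ : Matrix (Fin n) (Fin n) K) ^ m - 1)) :
    ∑' x : G, {x | IsConj g x}.indicator (fun y => ∑ i, e y i i) x = 0 := by
  classical
  have : CompleteSpace (Matrix ι ι ℂ) := FiniteDimensional.complete ℂ _
  have hn : Summable fun x => ‖e x‖ :=
    Summable.of_nonneg_of_le (fun _ => norm_nonneg _) (fun x => norm_le_entries _)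
      (summable_sum fun (i : ι) (_ : i ∈ Finset.univ) =>
        summable_sum fun (j : ι) (_ : j ∈ Finset.univ) => he i j)
  let e' : l1Sub G (Matrix ι ι ℂ) := ⟨e, hn⟩
  have he' : e' * e' = e' := by
    apply Subtype.ext
    funext x
    ext i j
    have hsum := conv_term_summable hn hn x
    show (∑' y, e y * e (y⁻¹ * x)) i j = _
    erw [tsum_apply hsum, tsum_apply (Pi.summable.mp hsum i)]
    simpa [Matrix.mul_apply, e'] using hi x i j
  obtain ⟨S, hS⟩ := exists_idem_supported e' he'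
  let Γ₀ : Subgroup G := Subgroup.closure ↑S
  obtain ⟨p, hp, hoff, hclose⟩ := hS Γ₀ Subgroup.subset_closure
  let Tι : Matrix ι ι ℂ →L[ℂ] ℂ := LinearMap.toContinuousLinearMap (Matrix.traceLinearMap ι ℂ ℂ)
  refine (classTrace_eq_of_close Tι (fun a b => Matrix.trace_mul_comm a b) g hp he' hclose).symm.trans ?_
  have hps : ∀ i j, Summable fun x => ‖p.1 x i j‖ := fun i j =>
    Summable.of_nonneg_of_le (fun _ => norm_nonneg _) (fun x => entry_le_norm _ i j) p.2
  refine trace_eq_zero_of_classes p.1 hps g Γ₀ hoff fun x hx => ?_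
  obtain ⟨k, hk⟩ := isConj_iff.mp hx
  let Γ : Subgroup G := Subgroup.closure ↑(insert g (insert k S))
  have hsub : ∀ y ∈ insert g (insert k S), y ∈ Γ := fun y hy =>
    Subgroup.subset_closure (Finset.mem_coe.mpr hy)
  have hle : Γ₀ ≤ Γ := (Subgroup.closure_le _).mpr fun y hy =>
    hsub y (Finset.mem_insert_of_mem (Finset.mem_insert_of_mem (Finset.mem_coe.mp hy)))
  have hgΓ : g ∈ Γ := hsub g (Finset.mem_insert_self _ _)
  have hkΓ : k ∈ Γ := hsub k (Finset.mem_insert_of_mem (Finset.mem_insert_self _ _))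
  obtain ⟨K, hK, n, π, hπ⟩ := hrep Γ ⟨_, rfl⟩ hgΓ
  have hinj : Function.Injective ((↑) : Γ₀ → G) := Subtype.val_injective
  refine trace_eq_zero_of_linear (fun y : Γ₀ => p.1 y) (fun i j => (hps i j).comp_injective hinj)
    (fun y i j => ?_) x (π.comp (Subgroup.inclusion hle)) fun m hm hnil => hπ m hm ?_
  · have hsum := conv_term_summable p.2 p.2 (y : G)
    have h1 : p.1 y i j = (∑' z, p.1 z * p.1 (z⁻¹ * y)) i j :=
      congrArg (fun M : Matrix ι ι ℂ => M i j) (congrFun (congrArg Subtype.val hp) (y : G)).symm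
    erw [h1, tsum_apply hsum, tsum_apply (Pi.summable.mp hsum i)]
    simp only [Matrix.mul_apply]
    refine hinj.tsum_eq (f := fun z => ∑ l, p.1 z i l * p.1 (z⁻¹ * y) l j) fun z hz => ?_
    by_cases hzΓ : z ∈ Γ₀
    · exact ⟨⟨z, hzΓ⟩, rfl⟩
    · exact absurd (by simp [hoff z hzΓ]) hz
  · obtain ⟨N, hN⟩ := hnil
    have hxk : Subgroup.inclusion hle x = ⟨k, hkΓ⟩ * ⟨g, hgΓ⟩ * ⟨k, hkΓ⟩⁻¹ :=
      Subtype.ext hk.symm
    refine ⟨N, ?_⟩
    rw [MonoidHom.comp_apply, hxk, map_mul, map_mul, map_inv, Units.val_mul, Units.val_mul,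
      Units.conj_pow] at hN
    set u := π ⟨k, hkΓ⟩
    set A : Matrix (Fin n) (Fin n) K := (π ⟨g, hgΓ⟩ : Matrix (Fin n) (Fin n) K) ^ m
    have h1 : u.val * A * (u⁻¹).val - 1 = u.val * (A - 1) * (u⁻¹).val := by
      rw [mul_sub, sub_mul, mul_one, Units.mul_inv]
    rw [h1, Units.conj_pow] at hN
    simpa [← mul_assoc] using congrArg (fun M : Matrix (Fin n) (Fin n) K =>
      (u⁻¹).val * M * u.val) hN

/-- Every infinite order element of a group whose finitely generated subgroups are linear over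
fields of positive characteristic. -/
theorem trace_eq_zero_of_locally_linear_charP (e : G → Matrix ι ι ℂ)
    (he : ∀ i j, Summable fun x => ‖e x i j‖)
    (hi : ∀ x i j, ∑' y, ∑ k, e y i k * e (y⁻¹ * x) k j = e x i j) (g : G)
    (hrep : ∀ Γ : Subgroup G, Γ.FG → ∃ (K : Type) (_ : Field K) (p : ℕ) (n : ℕ)
      (π : Γ →* GL (Fin n) K), p.Prime ∧ CharP K p ∧ Function.Injective π)
    (hg : ¬ IsOfFinOrder g) :
    ∑' x : G, {x | IsConj g x}.indicator (fun y => ∑ i, e y i i) x = 0 := by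
  refine trace_eq_zero_of_locally_linear e he hi g fun Γ hΓ hgΓ => ?_
  obtain ⟨K, hK, p, n, π, hp, hc, hπ⟩ := hrep Γ hΓ
  refine ⟨K, hK, n, π, fun m hm h => ?_⟩
  have : Fact p.Prime := ⟨hp⟩
  exact no_unipotent_power_charP p π hπ (g := (⟨g, hgΓ⟩ : Γ))
    (fun hfin => hg (Γ.subtype.isOfFinOrder hfin)) m hm h

end Vale.Agent.P184
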