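import Vale.Agent.P184.Lipschitz
import Vale.Agent.P184.LocallyLinear

/-!
Undistorted elements with amenable centraliser: averaging an equivariant Lipschitz extension by an
invariant mean gives a homomorphism on the centraliser. With finitely many torsion classes in every
finitely generated subgroup, only finitely many traces can be nonzero.
-/

namespace Vale.Agent.P184

open Filter Topology

attribute [local instance] Matrix.linftyOpNormedRing Matrix.linftyOpNormedAlgebra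

/-- A right invariant mean on the bounded real functions: the group is amenable. -/
def HasMean (C : Type*) [Group C] : Prop :=
  ∃ m : (C → ℝ) → ℝ, (∀ r : ℝ, m (fun _ => r) = r) ∧
    (∀ u v : C → ℝ, (∃ K, ∀ x, |u x| ≤ K) → (∃ K, ∀ x, |v x| ≤ K) →
      m (fun x => u x + v x) = m u + m v) ∧
    (∀ u : C → ℝ, (∃ K, ∀ x, |u x| ≤ K) → (∀ x, 0 ≤ u x) → 0 ≤ m u) ∧
    ∀ u : C → ℝ, (∃ K, ∀ x, |u x| ≤ K) → ∀ c, m (fun x => u (x * c)) = m u

/-- A length on `G` along which `g` is detected: either by a homomorphism on its centraliser, or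
by positive translation length together with amenability of its centraliser. -/
def Detected {G : Type*} [Group G] (g : G) : Prop :=
  ∃ ℓ : G → ℝ, (∀ x y, ℓ (x * y) ≤ ℓ x + ℓ y) ∧
    ((∃ ψ : Subgroup.centralizer ({g} : Set G) → ℝ, (∀ a b, ψ (a * b) = ψ a + ψ b) ∧
        (∀ c, |ψ c| ≤ ℓ c) ∧ ψ ⟨g, Subgroup.mem_centralizer_singleton_iff.mpr rfl⟩ ≠ 0) ∨
      ((∃ s : ℝ, 0 < s ∧ ∀ k : ℤ, s * |(k : ℝ)| ≤ ℓ (g ^ k)) ∧
        HasMean (Subgroup.centralizer ({g} : Set G))))

variable {G : Type*} [Group G]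

/-- Undistorted elements with amenable centraliser have a dominated homomorphism. -/
theorem exists_hom_of_mean (g : G) (ℓ : G → ℝ) (hℓ : ∀ x y, ℓ (x * y) ≤ ℓ x + ℓ y) (s : ℝ)
    (hs : 0 < s) (hgrow : ∀ k : ℤ, s * |(k : ℝ)| ≤ ℓ (g ^ k))
    (hm : HasMean (Subgroup.centralizer ({g} : Set G))) :
    ∃ ψ : Subgroup.centralizer ({g} : Set G) → ℝ, (∀ a b, ψ (a * b) = ψ a + ψ b) ∧
      (∀ c, |ψ c| ≤ max (ℓ c) 0 + max (ℓ (c : G)⁻¹) 0) ∧
      ψ ⟨g, Subgroup.mem_centralizer_singleton_iff.mpr rfl⟩ = s := by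
  have hk : ∀ z : Subgroup.zpowers g, ∃ k : ℤ, g ^ k = z.1 := fun z => z.2
  choose k hk using hk
  have huniq : ∀ i j : ℤ, g ^ i = g ^ j → i = j := by
    intro i j h
    by_contra hne
    have h0 : g ^ (i - j) = 1 := by rw [zpow_sub, h, mul_inv_cancel]
    obtain ⟨N, hN⟩ := exists_nat_gt (ℓ 1 / s)
    have h1 := hgrow ((i - j) * N)
    rw [zpow_mul, h0, one_zpow] at h1
    have h2 : (1 : ℝ) ≤ |((i - j : ℤ) : ℝ)| := by
      exact_mod_cast Int.one_le_abs (sub_ne_zero.2 hne)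
    rw [div_lt_iff₀ hs] at hN
    rw [Int.cast_mul, Int.cast_natCast, abs_mul, Nat.abs_cast] at h1
    have h3 : (N : ℝ) ≤ |((i - j : ℤ) : ℝ)| * N := le_mul_of_one_le_left (Nat.cast_nonneg _) h2
    nlinarith
  let ψ₀ : Subgroup.zpowers g → ℝ := fun z => s * (k z : ℝ)
  have hψ₀ : ∀ a b, ψ₀ (a * b) = ψ₀ a + ψ₀ b := fun a b => by
    have : k (a * b) = k a + k b := huniq _ _ (by rw [hk, zpow_add, hk, hk]; rfl)
    simp only [ψ₀, this, Int.cast_add]
    ring
  have hdom : ∀ z : Subgroup.zpowers g, |ψ₀ z| ≤ ℓ z := fun z => by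
    have := hgrow (k z)
    rw [hk] at this
    simpa [ψ₀, abs_mul, abs_of_pos hs] using this
  obtain ⟨Ψ, hΨ, hlip⟩ := exists_equivariant_extension _ ψ₀ hψ₀ ℓ hℓ hdom
  obtain ⟨m, hconst, hadd, hpos, hinv⟩ := hm
  let D : Subgroup.centralizer ({g} : Set G) → Subgroup.centralizer ({g} : Set G) → ℝ :=
    fun c x => Ψ ((x : G) * c) - Ψ (x : G)
  have hD : ∀ c, ∃ K, ∀ x, |D c x| ≤ K := fun c => ⟨_, fun x => hlip (x : G) (c : G)⟩
  refine ⟨fun c => m (D c), fun a b => ?_, fun c => ?_, ?_⟩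
  · show m (D (a * b)) = m (D a) + m (D b)
    have hDb : ∃ K, ∀ x, |D b (x * a)| ≤ K := ⟨_, fun x => hlip ((x * a : _) : G) (b : G)⟩
    rw [← hinv (D b) (hD b) a, ← hadd _ _ (hD a) hDb]
    congr 1
    funext x
    simp only [D, Subgroup.coe_mul, mul_assoc]
    ring
  · set K := max (ℓ c) 0 + max (ℓ (c : G)⁻¹) 0
    have hcK : ∀ x, |D c x| ≤ K := fun x => hlip (x : G) (c : G)
    have hK0 : 0 ≤ K := add_nonneg (le_max_right _ _) (le_max_right _ _)
    rw [abs_le]
    constructor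
    · have hb : ∃ L, ∀ x, |D c x + K| ≤ L := ⟨2 * K, fun x => by
        have := hcK x; rw [abs_le] at this ⊢; constructor <;> linarith⟩
      have h1 := hpos (fun x => D c x + K) hb fun x => by
        have := (abs_le.1 (hcK x)).1; linarith
      rw [hadd _ _ (hD c) ⟨K, fun _ => (abs_of_nonneg hK0).le⟩, hconst] at h1
      linarith
    · have hb : ∃ L, ∀ x, |K - D c x| ≤ L := ⟨2 * K, fun x => by
        have := hcK x; rw [abs_le] at this ⊢; constructor <;> linarith⟩
      have h1 := hpos (fun x => K - D c x) hb fun x => by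
        have := (abs_le.1 (hcK x)).2; linarith
      have h2 := hadd (D c) (fun x => K - D c x) (hD c) hb
      simp only [add_sub_cancel, hconst] at h2
      linarith
  · show m (D _) = s
    rw [← hconst s]
    congr 1
    funext x
    have hx : g * (x : G) = (x : G) * g := (Subgroup.mem_centralizer_singleton_iff.1 x.2).symm
    have h1 := hΨ ⟨g, Subgroup.mem_zpowers g⟩ (x : G)
    have h2 : k ⟨g, Subgroup.mem_zpowers g⟩ = 1 := huniq _ _ (by rw [hk, zpow_one])
    simp only [D, ψ₀, h2, Int.cast_one, mul_one] at h1 ⊢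
    rw [← hx, h1]
    ring

variable {ι : Type*} [Fintype ι] [DecidableEq ι]

/-- Traces vanish at detected elements. -/
theorem trace_eq_zero_of_detected (e : G → Matrix ι ι ℂ)
    (he : ∀ i j, Summable fun x => ‖e x i j‖)
    (hi : ∀ x i j, ∑' y, ∑ k, e y i k * e (y⁻¹ * x) k j = e x i j) (g : G) (h : Detected g) :
    ∑' x : G, {x | IsConj g x}.indicator (fun y => ∑ i, e y i i) x = 0 := by
  obtain ⟨ℓ, hℓ, ⟨ψ, hψ, hdom, hne⟩ | ⟨⟨s, hs, hgrow⟩, hm⟩⟩ := h
  · exact trace_eq_zero_of_lipschitz e he hi g ℓ hℓ ψ hψ hdom hne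
  obtain ⟨ψ, hψ, hdom, hg⟩ := exists_hom_of_mean g ℓ hℓ s hs hgrow hm
  refine trace_eq_zero_of_lipschitz e he hi g (fun x => max (ℓ x) 0 + max (ℓ x⁻¹) 0)
    (fun x y => ?_) ψ hψ hdom (by rw [hg]; exact hs.ne')
  have h1 := hℓ x y
  have h2 := hℓ y⁻¹ x⁻¹
  rw [← mul_inv_rev] at h2
  have h3 : max (ℓ (x * y)) 0 ≤ max (ℓ x) 0 + max (ℓ y) 0 :=
    max_le (h1.trans (add_le_add (le_max_left _ _) (le_max_left _ _)))
      (add_nonneg (le_max_right _ _) (le_max_right _ _))
  have h4 : max (ℓ (x * y)⁻¹) 0 ≤ max (ℓ y⁻¹) 0 + max (ℓ x⁻¹) 0 :=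
    max_le (h2.trans (add_le_add (le_max_left _ _) (le_max_left _ _)))
      (add_nonneg (le_max_right _ _) (le_max_right _ _))
  linarith

/-- The same inside a subgroup of finite index. -/
theorem trace_eq_zero_of_detected_subgroup (e : G → Matrix ι ι ℂ)
    (he : ∀ i j, Summable fun x => ‖e x i j‖)
    (hi : ∀ x i j, ∑' y, ∑ k, e y i k * e (y⁻¹ * x) k j = e x i j) (g : G)
    (H : Subgroup G) (hH : H.FiniteIndex) (hg : g ∈ H) (h : Detected (⟨g, hg⟩ : H)) :
    ∑' x : G, {x | IsConj g x}.indicator (fun y => ∑ i, e y i i) x = 0 := by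
  classical
  exact trace_eq_zero_of_subgroup e he hi g H hH hg
    fun R hR hRi => trace_eq_zero_of_detected R hR hRi _ h

/-- The whole of Q1 when every finitely generated subgroup has finitely many classes of finite
order and detects all its elements of infinite order. -/
theorem exists_finite_support (e : G → Matrix ι ι ℂ)
    (he : ∀ i j, Summable fun x => ‖e x i j‖)
    (hi : ∀ x i j, ∑' y, ∑ k, e y i k * e (y⁻¹ * x) k j = e x i j)
    (hG : ∀ Γ : Subgroup G, Γ.FG →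
      {c : ConjClasses Γ | ∃ x, ConjClasses.mk x = c ∧ IsOfFinOrder x}.Finite ∧
      ∀ x : Γ, ¬ IsOfFinOrder x → Detected x) :
    ∃ F : Set (ConjClasses G), F.Finite ∧
      (∀ c ∈ F, ∃ x, ConjClasses.mk x = c ∧ IsOfFinOrder x) ∧
      ∀ g : G, ConjClasses.mk g ∉ F →
        ∑' x : G, {x | IsConj g x}.indicator (fun y => ∑ i, e y i i) x = 0 := by
  classical
  have : CompleteSpace (Matrix ι ι ℂ) := FiniteDimensional.complete ℂ _
  have hn : Summable fun x => ‖e x‖ :=
    Summable.of_nonneg_of_le (fun _ => norm_nonneg _) (fun x => norm_le_entries _)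
      (summable_sum fun (i : ι) (_ : i ∈ Finset.univ) =>
        summable_sum fun (j : ι) (_ : j ∈ Finset.univ) => he i j)
  let e' : l1Sub G (Matrix ι ι ℂ) := ⟨e, hn⟩
  have he' : e' * e' = e' := by
    apply Subtype.ext
    funext x
    ext i j
    have hsum := conv_term_summable hn hn x
    show (∑' y, e y * e (y⁻¹ * x)) i j = _
    erw [tsum_apply hsum, tsum_apply (Pi.summable.mp hsum i)]
    simpa [Matrix.mul_apply, e'] using hi x i j
  obtain ⟨S, hS⟩ := exists_idem_supported e' he'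
  let Γ : Subgroup G := Subgroup.closure ↑S
  obtain ⟨p, hp, hoff, hclose⟩ := hS Γ Subgroup.subset_closure
  obtain ⟨hfin, hdet⟩ := hG Γ ⟨S, rfl⟩
  refine ⟨(ConjClasses.map Γ.subtype) '' _, hfin.image _, ?_, fun g hg => ?_⟩
  · rintro _ ⟨_, ⟨x, rfl, hx⟩, rfl⟩
    exact ⟨x.1, rfl, Γ.subtype.isOfFinOrder hx⟩
  let Tι : Matrix ι ι ℂ →L[ℂ] ℂ := LinearMap.toContinuousLinearMap (Matrix.traceLinearMap ι ℂ ℂ)
  refine (classTrace_eq_of_close Tι (fun a b => Matrix.trace_mul_comm a b) g hp he' hclose).symm.trans ?_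
  have hps : ∀ i j, Summable fun x => ‖p.1 x i j‖ := fun i j =>
    Summable.of_nonneg_of_le (fun _ => norm_nonneg _) (fun x => entry_le_norm _ i j) p.2
  refine trace_eq_zero_of_classes p.1 hps g Γ hoff fun x hx => ?_
  have hinf : ¬ IsOfFinOrder x := fun hfo => hg
    ⟨ConjClasses.mk x, ⟨x, rfl, hfo⟩, (ConjClasses.mk_eq_mk_iff_isConj.2 hx).symm⟩
  have hinj : Function.Injective ((↑) : Γ → G) := Subtype.val_injective
  refine trace_eq_zero_of_detected (fun y : Γ => p.1 y) (fun i j => (hps i j).comp_injective hinj)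
    (fun y i j => ?_) x (hdet x hinf)
  have hsum := conv_term_summable p.2 p.2 (y : G)
  have h1 : p.1 y i j = (∑' z, p.1 z * p.1 (z⁻¹ * y)) i j :=
    congrArg (fun M : Matrix ι ι ℂ => M i j) (congrFun (congrArg Subtype.val hp) (y : G)).symm
  erw [h1, tsum_apply hsum, tsum_apply (Pi.summable.mp hsum i)]
  simp only [Matrix.mul_apply]
  refine hinj.tsum_eq (f := fun z => ∑ l, p.1 z i l * p.1 (z⁻¹ * y) l j) fun z hz => ?_
  by_cases hzΓ : z ∈ Γ
  · exact ⟨⟨z, hzΓ⟩, rfl⟩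
  · exact absurd (by simp [hoff z hzΓ]) hz

end Vale.Agent.P184
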