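import Vale.Agent.P184.Twist

/-!
A relative trace for pairs of idempotents over `l^1(G, B(l^1 W))` with nuclear difference.
-/

namespace Vale.Agent.P184.Rel

open Filter Topology

/-- `l^1` of an index type -/
noncomputable abbrev L1 (W : Type*) := lp (fun _ : W => ℂ) 1

/-- operators on `l^1` -/
noncomputable abbrev Op (W : Type*) := L1 W →L[ℂ] L1 W

variable {W : Type*}

open Classical in
/-- basis vectors -/
noncomputable def delta (w : W) : L1 W := lp.single 1 w (1 : ℂ)

lemma delta_norm (w : W) : ‖delta w‖ = 1 := by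
  classical
  simp [delta, lp.norm_single]

/-- matrix entries -/
noncomputable def entry (T : Op W) (u v : W) : ℂ := T (delta v) u

lemma l1_summable (f : L1 W) : Summable fun u => ‖f u‖ := by
  have h := (lp.memℓp f).summable (by simp)
  simpa using h

lemma l1_norm (f : L1 W) : ‖f‖ = ∑' u, ‖f u‖ := by
  rw [lp.norm_eq_tsum_rpow (by simp)]
  simp

lemma entry_col (T : Op W) (v : W) :
    (Summable fun u => ‖entry T u v‖) ∧ ∑' u, ‖entry T u v‖ ≤ ‖T‖ := by
  refine ⟨l1_summable _, ?_⟩
  show ∑' u, ‖(T (delta v)) u‖ ≤ _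
  rw [← l1_norm]
  simpa [delta_norm] using T.le_opNorm (delta v)

lemma entry_le_norm (T : Op W) (u v : W) : ‖entry T u v‖ ≤ ‖T‖ :=
  (Summable.le_tsum (entry_col T v).1 u fun _ _ => norm_nonneg _).trans (entry_col T v).2

lemma hasSum_delta (f : L1 W) : HasSum (fun w => f w • delta w) f := by
  classical
  refine (lp.hasSum_single ENNReal.one_ne_top f).congr_fun fun w => ?_
  rw [delta, ← lp.single_smul, smul_eq_mul, mul_one]

lemma entry_mul (S T : Op W) (u v : W) :
    entry (S * T) u v = ∑' w, entry S u w * entry T w v := by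
  have h := ((hasSum_delta (T (delta v))).map S S.continuous).map
    (lp.evalCLM ℂ (fun _ : W => ℂ) 1 u) (ContinuousLinearMap.continuous _)
  refine Eq.trans ?_ h.tsum_eq.symm |>.trans (tsum_congr fun w => ?_)
  · rfl
  · show S ((T (delta v)) w • delta w) u = _
    rw [map_smul]
    show (T (delta v)) w * (S (delta w)) u = _
    rw [mul_comm]
    rfl

lemma op_ext {S T : Op W} (h : ∀ w, S (delta w) = T (delta w)) : S = T := by
  ext1 f
  rw [← ((hasSum_delta f).map S S.continuous).tsum_eq, ← ((hasSum_delta f).map T T.continuous).tsum_eq]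
  refine tsum_congr fun w => ?_
  simp [h w]

/-- an operator from bounded columns -/
noncomputable def ofCols (K : W → L1 W) (C : ℝ) (hK : ∀ v, ‖K v‖ ≤ C) : Op W :=
  LinearMap.mkContinuous
    { toFun := fun f => ∑' v, f v • K v
      map_add' := fun f g => by
        have hs : ∀ f : L1 W, Summable fun v => f v • K v := fun f =>
          Summable.of_norm_bounded ((l1_summable f).mul_right C) fun v => by
            rw [norm_smul]; exact mul_le_mul_of_nonneg_left (hK v) (norm_nonneg _)
        simp only [lp.coeFn_add, Pi.add_apply, add_smul]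
        exact (hs f).tsum_add (hs g)
      map_smul' := fun r f => by
        have hs : Summable fun v => f v • K v :=
          Summable.of_norm_bounded ((l1_summable f).mul_right C) fun v => by
            rw [norm_smul]; exact mul_le_mul_of_nonneg_left (hK v) (norm_nonneg _)
        simp only [lp.coeFn_smul, Pi.smul_apply, smul_eq_mul, RingHom.id_apply, mul_smul]
        exact hs.tsum_const_smul r }
    C fun f => by
      refine (tsum_of_norm_bounded ((l1_summable f).hasSum.mul_right C) fun v => ?_).trans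
        (le_of_eq ?_)
      · rw [norm_smul]; exact mul_le_mul_of_nonneg_left (hK v) (norm_nonneg _)
      · rw [← l1_norm, mul_comm]

lemma ofCols_delta (K : W → L1 W) (C : ℝ) (hK : ∀ v, ‖K v‖ ≤ C) (v : W) :
    ofCols K C hK (delta v) = K v := by
  classical
  show ∑' w, (delta v) w • K w = _
  rw [tsum_eq_single v]
  · simp [delta]
  · intro w hw
    simp [delta, hw]

lemma norm_le_of_cols (T : Op W) (C : ℝ) (hC : 0 ≤ C) (h : ∀ w, ‖T (delta w)‖ ≤ C) : ‖T‖ ≤ C := by
  refine T.opNorm_le_bound hC fun f => ?_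
  rw [← ((hasSum_delta f).map T T.continuous).tsum_eq]
  refine (tsum_of_norm_bounded ((l1_summable f).hasSum.mul_right C) fun v => ?_).trans
    (le_of_eq ?_)
  · simp only [Function.comp_apply, map_smul, norm_smul]
    exact mul_le_mul_of_nonneg_left (h v) (norm_nonneg _)
  · rw [← l1_norm, mul_comm]

lemma entry_sub (S T : Op W) (u v : W) : entry (S - T) u v = entry S u v - entry T u v := rfl

lemma entry_zero (u v : W) : entry (0 : Op W) u v = 0 := rfl

variable {G : Type*} [Group G]

/-- entries of a convolution product, as a sum over pairs -/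
lemma entry_conv (f g : l1Sub G (Op W)) (x : G) (u v : W) :
    (Summable fun p : G × W => entry (f.1 p.1) u p.2 * entry (g.1 (p.1⁻¹ * x)) p.2 v) ∧
    entry ((f * g).1 x) u v =
      ∑' p : G × W, entry (f.1 p.1) u p.2 * entry (g.1 (p.1⁻¹ * x)) p.2 v := by
  have hs := conv_term_summable f.2 g.2 x
  have habs : Summable fun p : G × W =>
      ‖entry (f.1 p.1) u p.2‖ * ‖entry (g.1 (p.1⁻¹ * x)) p.2 v‖ := by
    have hrow : ∀ y, Summable fun w => ‖entry (f.1 y) u w‖ * ‖entry (g.1 (y⁻¹ * x)) w v‖ := fun y =>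
      Summable.of_nonneg_of_le (fun w => mul_nonneg (norm_nonneg _) (norm_nonneg _))
        (fun w => mul_le_mul_of_nonneg_right (entry_le_norm _ _ _) (norm_nonneg _))
        ((entry_col _ v).1.mul_left _)
    refine (summable_prod_of_nonneg fun p => mul_nonneg (norm_nonneg _) (norm_nonneg _)).mpr
      ⟨hrow, ?_⟩
    refine Summable.of_nonneg_of_le
      (fun y => tsum_nonneg fun w => mul_nonneg (norm_nonneg _) (norm_nonneg _)) (fun y => ?_)
      ((shear_summable f.2 g.2).comp_injective (i := fun y => (y, x))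
        (fun a b h => (Prod.mk.inj h).1))
    refine ((hrow y).tsum_le_tsum
      (fun w => mul_le_mul_of_nonneg_right (entry_le_norm _ _ _) (norm_nonneg _))
      ((entry_col _ v).1.mul_left _)).trans ?_
    rw [tsum_mul_left]
    exact mul_le_mul_of_nonneg_left (entry_col _ v).2 (norm_nonneg _)
  have hsum : Summable fun p : G × W => entry (f.1 p.1) u p.2 * entry (g.1 (p.1⁻¹ * x)) p.2 v :=
    Summable.of_norm (by simpa only [norm_mul] using habs)
  refine ⟨hsum, ?_⟩
  rw [hsum.tsum_prod]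
  have h1 := (hs.hasSum.map (ContinuousLinearMap.apply ℂ (L1 W) (delta v))
    (ContinuousLinearMap.continuous _)).map (lp.evalCLM ℂ (fun _ : W => ℂ) 1 u)
    (ContinuousLinearMap.continuous _)
  refine h1.tsum_eq.symm.trans (tsum_congr fun y => ?_)
  exact entry_mul _ _ u v

attribute [local irreducible] entry

lemma entry_pairs (g : l1Sub G (Op W)) (v : W) :
    (Summable fun c : G × W => ‖entry (g.1 c.1) c.2 v‖) ∧
      ∑' c : G × W, ‖entry (g.1 c.1) c.2 v‖ ≤ ∑' x, ‖g.1 x‖ := by
  set A : G × W → ℝ := fun c => ‖entry (g.1 c.1) c.2 v‖ with hA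
  have h0 : 0 ≤ A := fun c => norm_nonneg _
  have hfac : ∀ y, (Summable fun w => A (y, w)) ∧ ∑' w, A (y, w) ≤ ‖g.1 y‖ :=
    fun y => entry_col (g.1 y) v
  have hsum : Summable A := (summable_prod_of_nonneg h0).mpr
    ⟨fun y => (hfac y).1, Summable.of_nonneg_of_le (fun y => tsum_nonneg fun w => h0 _)
      (fun y => (hfac y).2) g.2⟩
  refine ⟨hsum, ?_⟩
  rw [hsum.tsum_prod]
  exact hsum.prod.tsum_le_tsum (fun y => (hfac y).2) g.2

/-- entrywise domination by a summable row function -/
def Nuc (f : l1Sub G (Op W)) (R : G × W → ℝ) : Prop :=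
  Summable R ∧ ∀ x u v, ‖entry (f.1 x) u v‖ ≤ R (x, u)

/-- the trace at a set -/
noncomputable def relTr (C : Set G) (f : l1Sub G (Op W)) : ℂ :=
  ∑' p : G × W, C.indicator (fun x => entry (f.1 x) p.2 p.2) p.1

lemma relTr_summable (C : Set G) {f : l1Sub G (Op W)} {R : G × W → ℝ} (hf : Nuc f R) :
    (Summable fun p : G × W => C.indicator (fun x => entry (f.1 x) p.2 p.2) p.1) ∧
      ‖relTr C f‖ ≤ ∑' p, R p := by
  have hle : ∀ p : G × W, ‖C.indicator (fun x => entry (f.1 x) p.2 p.2) p.1‖ ≤ R p := fun p =>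
    (norm_indicator_le_norm_self _ _).trans (hf.2 p.1 p.2 p.2)
  exact ⟨Summable.of_norm_bounded hf.1 hle, tsum_of_norm_bounded hf.1.hasSum hle⟩

lemma nuc_nonneg {f : l1Sub G (Op W)} {R : G × W → ℝ} (hf : Nuc f R) (p : G × W) : 0 ≤ R p :=
  (norm_nonneg _).trans (hf.2 p.1 p.2 p.2)

lemma nuc_sub {f g : l1Sub G (Op W)} {R S : G × W → ℝ} (hf : Nuc f R) (hg : Nuc g S) :
    Nuc (f - g) (R + S) :=
  ⟨hf.1.add hg.1, fun x u v => by
    rw [show (f - g).1 x = f.1 x - g.1 x from rfl, entry_sub]
    exact (norm_sub_le _ _).trans (add_le_add (hf.2 x u v) (hg.2 x u v))⟩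

lemma relTr_sub (C : Set G) {f g : l1Sub G (Op W)} {R S : G × W → ℝ} (hf : Nuc f R)
    (hg : Nuc g S) : relTr C (f - g) = relTr C f - relTr C g := by
  simp only [relTr]
  rw [← (relTr_summable C hf).1.tsum_sub (relTr_summable C hg).1]
  refine tsum_congr fun p => ?_
  by_cases hp : p.1 ∈ C <;> simp [hp, entry_sub]

lemma shear_kernel (A : G × W → W → ℝ) (hA0 : ∀ c v, 0 ≤ A c v) {N : ℝ}
    (hA : ∀ v, (Summable fun c => A c v) ∧ ∑' c, A c v ≤ N) {R : G × W → ℝ} (hR : Summable R)
    (hR0 : ∀ b, 0 ≤ R b) :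
    ∃ R' : G × W → ℝ, Summable R' ∧ (∀ x u,
      HasSum (fun c : G × W => A (c.1, u) c.2 * R (c.1⁻¹ * x, c.2)) (R' (x, u))) ∧
      ∑' p, R' p ≤ N * ∑' p, R p := by
  have hinner : ∀ b : G × W, ∑' c : G × W, A c b.2 * R b ≤ R b * N := fun b => by
    rw [tsum_mul_right, mul_comm]
    exact mul_le_mul_of_nonneg_left (hA b.2).2 (hR0 b)
  have hF : Summable fun q : (G × W) × (G × W) => A q.2 q.1.2 * R q.1 := by
    rw [summable_prod_of_nonneg (f := fun q : (G × W) × (G × W) => A q.2 q.1.2 * R q.1)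
      (fun q => mul_nonneg (hA0 _ _) (hR0 _))]
    refine ⟨fun b => ?_, ?_⟩
    · exact (hA b.2).1.mul_right (R b)
    · exact Summable.of_nonneg_of_le (fun b => tsum_nonneg fun c => mul_nonneg (hA0 _ _) (hR0 _))
        hinner (hR.mul_right N)
  let e : (G × W) × (G × W) ≃ (G × W) × (G × W) :=
    { toFun := fun q => ((q.2.1⁻¹ * q.1.1, q.2.2), (q.2.1, q.1.2))
      invFun := fun q => ((q.2.1 * q.1.1, q.2.2), (q.2.1, q.1.2))
      left_inv := fun q => by simp
      right_inv := fun q => by simp }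
  have hFe : Summable fun q => A (e q).2 (e q).1.2 * R (e q).1 :=
    (e.summable_iff (f := fun q : (G × W) × (G × W) => A q.2 q.1.2 * R q.1)).mpr hF
  refine ⟨fun a => ∑' c, A (e (a, c)).2 (e (a, c)).1.2 * R (e (a, c)).1, hFe.prod,
    fun x u => (hFe.prod_factor (x, u)).hasSum, ?_⟩
  rw [← hFe.tsum_prod, e.tsum_eq (fun q : (G × W) × (G × W) => A q.2 q.1.2 * R q.1), hF.tsum_prod,
    mul_comm, ← tsum_mul_right]
  exact hF.prod.tsum_le_tsum hinner (hR.mul_right _)

/-- left multiplication preserves nuclearity -/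
lemma nuc_mul_left (g : l1Sub G (Op W)) {f : l1Sub G (Op W)} {R : G × W → ℝ} (hf : Nuc f R) :
    ∃ R', Nuc (g * f) R' ∧ ∑' p, R' p ≤ (∑' x, ‖g.1 x‖) * ∑' p, R p := by
  obtain ⟨R', h1, h2, h3⟩ := shear_kernel (fun c v => ‖entry (g.1 c.1) c.2 v‖)
    (fun _ _ => norm_nonneg _) (entry_pairs g) hf.1 (nuc_nonneg hf)
  refine ⟨R', ⟨h1, fun x u v => ?_⟩, h3⟩
  rw [(entry_conv g f x u v).2]
  refine tsum_of_norm_bounded (h2 x u) fun c => ?_
  rw [norm_mul]
  exact mul_le_mul_of_nonneg_left (hf.2 _ _ _) (norm_nonneg _)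

/-- the trace is cyclic when one factor is nuclear -/
lemma relTr_comm (C : Set G) (hC : ∀ a b : G, a * b ∈ C ↔ b * a ∈ C)
    {f : l1Sub G (Op W)} {R : G × W → ℝ} (hf : Nuc f R) (g : l1Sub G (Op W)) :
    relTr C (f * g) = relTr C (g * f) := by
  classical
  set F : (G × W) × (G × W) → ℂ := fun q =>
    if q.1.1 * q.2.1 ∈ C then entry (f.1 q.1.1) q.1.2 q.2.2 * entry (g.1 q.2.1) q.2.2 q.1.2 else 0
  have hF : Summable F := by
    refine Summable.of_norm_bounded
      (g := fun q : (G × W) × (G × W) => R q.1 * ‖entry (g.1 q.2.1) q.2.2 q.1.2‖) ?_ fun q => ?_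
    · refine (summable_prod_of_nonneg fun q => mul_nonneg (nuc_nonneg hf _) (norm_nonneg _)).mpr
        ⟨fun b => ?_, ?_⟩
      · exact (entry_pairs g b.2).1.mul_left (R b)
      · refine Summable.of_nonneg_of_le (fun b => tsum_nonneg fun c =>
          mul_nonneg (nuc_nonneg hf _) (norm_nonneg _)) (fun b => ?_)
          (hf.1.mul_right (∑' x, ‖g.1 x‖))
        dsimp only
        rw [tsum_mul_left]
        exact mul_le_mul_of_nonneg_left (entry_pairs g b.2).2 (nuc_nonneg hf _)
    · simp only [F]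
      split_ifs
      · rw [norm_mul]; exact mul_le_mul_of_nonneg_right (hf.2 _ _ _) (norm_nonneg _)
      · simp only [norm_zero]; exact mul_nonneg (nuc_nonneg hf _) (norm_nonneg _)
  let e1 : (G × W) × (G × W) ≃ (G × W) × (G × W) :=
    { toFun := fun q => ((q.2.1, q.1.2), (q.2.1⁻¹ * q.1.1, q.2.2))
      invFun := fun q => ((q.1.1 * q.2.1, q.1.2), (q.1.1, q.2.2))
      left_inv := fun q => by simp
      right_inv := fun q => by simp }
  let e2 : (G × W) × (G × W) ≃ (G × W) × (G × W) :=
    { toFun := fun q => ((q.2.1⁻¹ * q.1.1, q.2.2), (q.2.1, q.1.2))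
      invFun := fun q => ((q.2.1 * q.1.1, q.2.2), (q.2.1, q.1.2))
      left_inv := fun q => by simp
      right_inv := fun q => by simp }
  have h1 : relTr C (f * g) = ∑' q, F q := by
    rw [← e1.tsum_eq F, (show Summable fun q => F (e1 q) from e1.summable_iff.mpr hF).tsum_prod]
    refine tsum_congr fun a => ?_
    obtain ⟨hs, heq⟩ := entry_conv f g a.1 a.2 a.2
    by_cases ha : a.1 ∈ C
    · rw [Set.indicator_of_mem ha, heq]
      exact tsum_congr fun c => by simp [F, e1, ha]
    · rw [Set.indicator_of_notMem ha, tsum_congr (fun c => ?_), tsum_zero]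
      simp [F, e1, ha]
  have h2 : relTr C (g * f) = ∑' q, F q := by
    rw [← e2.tsum_eq F, (show Summable fun q => F (e2 q) from e2.summable_iff.mpr hF).tsum_prod]
    refine tsum_congr fun a => ?_
    obtain ⟨hs, heq⟩ := entry_conv g f a.1 a.2 a.2
    have hh : ∀ c : G × W, c.1⁻¹ * a.1 * c.1 ∈ C ↔ a.1 ∈ C := fun c => by
      rw [hC (c.1⁻¹ * a.1) c.1, mul_inv_cancel_left]
    by_cases ha : a.1 ∈ C
    · rw [Set.indicator_of_mem ha, heq]
      refine tsum_congr fun c => ?_
      simp only [F, e2, Equiv.coe_fn_mk, if_pos ((hh c).mpr ha)]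
      exact mul_comm _ _
    · rw [Set.indicator_of_notMem ha, tsum_congr (fun c => ?_), tsum_zero]
      simp only [F, e2, Equiv.coe_fn_mk, if_neg (mt (hh c).mp ha)]
  rw [h1, h2]

lemma relTr_zero (C : Set G) : relTr C (0 : l1Sub G (Op W)) = 0 := by
  rw [relTr, tsum_congr (fun p => ?_), tsum_zero]
  simp [entry]

section algebra

variable {A : Type*} [NonUnitalRing A]

lemma idem_facts {p q : A} (hp : p * p = p) (hq : q * q = q) :
    p * ((p - q) * (p - q)) = (p - q) * (p - q) * p ∧
    q * ((p - q) * (p - q)) = (p - q) * (p - q) * q ∧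
    (p - q) * (p - q) * (p - q) = ((p - q) - p * (q * (p - q))) - (p - q) * (p * q) ∧
    q * (p - q) * p = 0 := by
  refine ⟨?_, ?_, ?_, ?_⟩
  · simp only [mul_sub, sub_mul, ← mul_assoc, hp, hq]
    simp only [mul_assoc, hp, hq]; abel
  · simp only [mul_sub, sub_mul, ← mul_assoc, hp, hq]
    simp only [mul_assoc, hp, hq]; abel
  · simp only [mul_sub, sub_mul, mul_assoc, hp, hq]
    simp only [← mul_assoc, hp, hq]
    abel
  · rw [mul_sub, sub_mul, hq, mul_assoc, hp, sub_self]

lemma iterMul_comm {s a : A} (Z : A) (ha : a * s = s * a) (j : ℕ) :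
    iterMul s (a * Z) j = a * iterMul s Z j := by
  induction j with
  | zero => rfl
  | succ j ih => rw [iterMul, iterMul, ih, ← mul_assoc, ← ha, mul_assoc]

lemma iterMul_right (s a Z : A) (j : ℕ) : iterMul s (Z * a) j = iterMul s Z j * a := by
  induction j with
  | zero => rfl
  | succ j ih => rw [iterMul, iterMul, ih, mul_assoc]

lemma iterMul_sub (s Y Z : A) (j : ℕ) :
    iterMul s (Y - Z) j = iterMul s Y j - iterMul s Z j := by
  induction j with
  | zero => rfl
  | succ j ih => rw [iterMul, iterMul, iterMul, ih, mul_sub]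

lemma iterMul_zero (s : A) (j : ℕ) : iterMul s (0 : A) j = 0 := by
  induction j with
  | zero => rfl
  | succ j ih => rw [iterMul, ih, mul_zero]

lemma iterMul_step {s d p q : A} (hps : p * s = s * p) (hqs : q * s = s * q)
    (he : s * d = (d - p * (q * d)) - d * (p * q)) (j : ℕ) :
    iterMul s d (j + 1) =
      (iterMul s d j - p * (q * iterMul s d j)) - iterMul s d j * (p * q) := by
  have h1 : iterMul s d (j + 1) = iterMul s (s * d) j := by
    rw [iterMul_comm d rfl]; rfl
  rw [h1, he, iterMul_sub, iterMul_sub, iterMul_comm _ hps, iterMul_comm _ hqs, iterMul_right]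

end algebra

/-- Idempotents with nuclear difference of norm `< 1` have zero relative trace. -/
theorem relTr_eq_zero_of_close (C : Set G) (hC : ∀ a b : G, a * b ∈ C ↔ b * a ∈ C)
    {p q : l1Sub G (Op W)} (hp : p * p = p) (hq : q * q = q) {R : G × W → ℝ}
    (hR : Nuc (p - q) R) (hd : ∑' x, ‖(p - q).1 x‖ < 1) : relTr C (p - q) = 0 := by
  obtain ⟨hps, hqs, he, hqdp⟩ := idem_facts hp hq
  have hNs : ∑' x, ‖((p - q) * (p - q)).1 x‖ ≤ (∑' x, ‖(p - q).1 x‖) * ∑' x, ‖(p - q).1 x‖ :=
    (conv_norm (p - q).2 (p - q).2).2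
  have hN0 : 0 ≤ ∑' x, ‖(p - q).1 x‖ := tsum_nonneg fun _ => norm_nonneg _
  generalize hNd : ∑' x, ‖(p - q).1 x‖ = Nd at hd hNs hN0
  clear hNd
  generalize p - q = d at *
  generalize d * d = s at *
  have nucX : ∀ j, ∃ S, Nuc (iterMul s d j) S ∧ ∑' i, S i ≤ (Nd * Nd) ^ j * ∑' i, R i := by
    intro j
    induction j with
    | zero => exact ⟨R, hR, by simp⟩
    | succ j ih =>
      obtain ⟨S, hS, hS'⟩ := ih
      obtain ⟨S', h1, h2⟩ := nuc_mul_left s hS
      refine ⟨S', h1, h2.trans ((mul_le_mul hNs hS' (tsum_nonneg (nuc_nonneg hS))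
        (mul_nonneg hN0 hN0)).trans (le_of_eq (by ring)))⟩
  have hconst : ∀ j, relTr C (iterMul s d j) = relTr C d := by
    intro j
    induction j with
    | zero => rfl
    | succ j ih =>
      rw [← ih]
      obtain ⟨S, hS, -⟩ := nucX j
      obtain ⟨S4, hS4, -⟩ := nucX (j + 1)
      have hstep := iterMul_step hps hqs he j
      obtain ⟨S1, hS1, -⟩ := nuc_mul_left q hS
      obtain ⟨S2, hS2, -⟩ := nuc_mul_left p hS1
      have hzero : relTr C (p * (q * iterMul s d j)) = 0 := by
        rw [← relTr_comm C hC hS1 p, ← iterMul_comm d hqs, ← iterMul_right, hqdp, iterMul_zero,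
          relTr_zero]
      have hright : relTr C (iterMul s d j * (p * q)) = 0 := by
        rw [relTr_comm C hC hS, mul_assoc, hzero]
      have hS3 : Nuc (iterMul s d j * (p * q)) (S + S2 + S4) := by
        have h : iterMul s d j * (p * q) =
            (iterMul s d j - p * (q * iterMul s d j)) - iterMul s d (j + 1) := by
          rw [hstep]; abel
        rw [h]
        exact nuc_sub (nuc_sub hS hS2) hS4
      rw [hstep, relTr_sub C (nuc_sub hS hS2) hS3, relTr_sub C hS hS2, hzero, hright, sub_zero,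
        sub_zero]
  have hlt : Nd * Nd < 1 := by nlinarith
  have hlim : Tendsto (fun j : ℕ => (Nd * Nd) ^ j * ∑' i, R i) atTop (𝓝 0) := by
    simpa using (tendsto_pow_atTop_nhds_zero_of_lt_one (mul_nonneg hN0 hN0) hlt).mul_const
      (∑' i, R i)
  have h0 : ‖relTr C d‖ ≤ 0 := by
    refine ge_of_tendsto' hlim fun j => ?_
    obtain ⟨S, hS, hS'⟩ := nucX j
    rw [← hconst j]
    exact (relTr_summable C hS).2.trans hS'
  exact norm_le_zero_iff.mp h0

end Vale.Agent.P184.Rel
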