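import Vale.Agent.P184.Twist

/-!
Restriction of matrix idempotents over `l^1(G)` to subgroups of finite index.
-/

namespace Vale.Agent.P184

attribute [local instance] Matrix.linftyOpNormedRing Matrix.linftyOpNormedAlgebra

lemma matrix_case {G : Type*} [Group G] {ι : Type*} [Fintype ι] [DecidableEq ι]
    (e : G → Matrix ι ι ℂ) (he : ∀ i j, Summable fun x => ‖e x i j‖)
    (hi : ∀ x i j, ∑' y, ∑ k, e y i k * e (y⁻¹ * x) k j = e x i j)
    (φ : G → ℝ) (hφ : ∀ a b, φ (a * b) = φ a + φ b) {g : G} (hg : φ g ≠ 0) :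
    ∑' x, {x | IsConj g x}.indicator (fun y => ∑ i, e y i i) x = 0 := by
  haveI : CompleteSpace (Matrix ι ι ℂ) := FiniteDimensional.complete ℂ _
  have hn : Summable fun x => ‖e x‖ := by
    refine Summable.of_nonneg_of_le (fun _ => norm_nonneg _) (fun x => ?_)
      (summable_sum fun (i : ι) (_ : i ∈ Finset.univ) =>
        summable_sum fun (j : ι) (_ : j ∈ Finset.univ) => he i j)
    rw [Matrix.linfty_opNorm_def]
    refine le_trans (NNReal.coe_le_coe.mpr (Finset.sup_le (a := ∑ i, ∑ j, ‖e x i j‖₊)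
      fun i _ => Finset.single_le_sum (f := fun i => ∑ j, ‖e x i j‖₊) (fun _ _ => zero_le)
        (Finset.mem_univ i))) (le_of_eq ?_)
    push_cast
    rfl
  have hie : conv e e = e := by
    funext x
    ext i j
    have hsum := conv_term_summable hn hn x
    show (∑' y, e y * e (y⁻¹ * x)) i j = _
    erw [tsum_apply hsum, tsum_apply (Pi.summable.mp hsum i)]
    simpa [Matrix.mul_apply] using hi x i j
  let T : Matrix ι ι ℂ →L[ℂ] ℂ := LinearMap.toContinuousLinearMap (Matrix.traceLinearMap ι ℂ ℂ)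
  have := trace_eq_zero_of_character T (fun a b => Matrix.trace_mul_comm a b)
    φ hφ e hn hie hg
  exact this

/-- Trace vanishing passes from a subgroup of finite index to the group. -/
theorem trace_eq_zero_of_subgroup {G : Type*} [Group G] {ι : Type*} [Fintype ι] [DecidableEq ι]
    (e : G → Matrix ι ι ℂ) (he : ∀ i j, Summable fun x => ‖e x i j‖)
    (hi : ∀ x i j, ∑' y, ∑ k, e y i k * e (y⁻¹ * x) k j = e x i j)
    (g : G) (H : Subgroup G) (hH : H.FiniteIndex) (hg : g ∈ H)
    (hvan : ∀ [Fintype (G ⧸ H)] [DecidableEq (G ⧸ H)]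
      (R : H → Matrix (ι × (G ⧸ H)) (ι × (G ⧸ H)) ℂ),
      (∀ a b, Summable fun h => ‖R h a b‖) →
      (∀ x a b, ∑' y, ∑ c, R y a c * R (y⁻¹ * x) c b = R x a b) →
      ∑' x, {x | IsConj (⟨g, hg⟩ : H) x}.indicator (fun y => ∑ i, R y i i) x = 0) :
    ∑' x : G, {x | IsConj g x}.indicator (fun y => ∑ i, e y i i) x = 0 := by
  classical
  haveI := hH
  letI : Fintype (G ⧸ H) := Fintype.ofFinite _
  let r : G ⧸ H → G := Quotient.out
  have hr : ∀ s, (QuotientGroup.mk (r s) : G ⧸ H) = s := fun s => Quotient.out_eq s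
  let R : H → Matrix (ι × (G ⧸ H)) (ι × (G ⧸ H)) ℂ :=
    fun h a b => e (r a.2 * h * (r b.2)⁻¹) a.1 b.1
  have hR : ∀ a b, Summable fun h => ‖R h a b‖ := fun a b =>
    (he a.1 b.1).comp_injective (i := fun h : H => r a.2 * h * (r b.2)⁻¹)
      (fun x y hxy => Subtype.ext (by simpa using hxy))
  have hRi : ∀ x a b, ∑' y, ∑ c, R y a c * R (y⁻¹ * x) c b = R x a b := by
    intro x a b
    obtain ⟨i, s⟩ := a
    obtain ⟨j, t⟩ := b
    let F : G → ℂ := fun y => ∑ k, e y i k * e (y⁻¹ * (r s * x * (r t)⁻¹)) k j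
    let Φ : (G ⧸ H) × H → G := fun p => r s * p.2 * (r p.1)⁻¹
    have hΦ : Function.Bijective Φ := by
      constructor
      · intro p p' hpp
        have h1 : r p.1 * (p.2 : G)⁻¹ = r p'.1 * (p'.2 : G)⁻¹ := by
          have := congrArg (fun y => y⁻¹ * r s) hpp
          simpa [Φ, mul_assoc] using this
        have h2 : p.1 = p'.1 := by
          have := congrArg (fun y => (QuotientGroup.mk y : G ⧸ H)) h1
          simpa [QuotientGroup.mk_mul_of_mem, hr] using this
        rw [h2] at h1
        exact Prod.ext h2 (Subtype.ext (inv_injective (mul_left_cancel h1)))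
      · intro y
        have hm : (r (QuotientGroup.mk (y⁻¹ * r s)))⁻¹ * (y⁻¹ * r s) ∈ H :=
          QuotientGroup.eq.mp (hr _)
        refine ⟨(QuotientGroup.mk (y⁻¹ * r s), ⟨_, H.inv_mem hm⟩), ?_⟩
        simp [Φ, mul_assoc]
    have hF : Summable F := by
      refine summable_sum fun k _ => Summable.of_norm ?_
      exact (shear_summable' (he i k) (he k j)).comp_injective
        (i := fun y => (y, r s * x * (r t)⁻¹)) (fun a b h => (Prod.mk.inj h).1)
    have hFΦ : Summable fun p => F (Φ p) := hF.comp_injective hΦ.injective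
    calc ∑' y : H, ∑ c, R y (i, s) c * R (y⁻¹ * x) c (j, t)
        = ∑' y : H, ∑ u, F (Φ (u, y)) := tsum_congr fun y => by
          rw [Fintype.sum_prod_type, Finset.sum_comm]
          refine Finset.sum_congr rfl fun u _ => Finset.sum_congr rfl fun k _ => ?_
          simp [R, Φ, mul_assoc]
      _ = ∑ u, ∑' y : H, F (Φ (u, y)) :=
          Summable.tsum_finsetSum fun u _ => hFΦ.prod_factor u
      _ = ∑' p, F (Φ p) := by rw [hFΦ.tsum_prod, tsum_fintype]
      _ = ∑' y, F y := (Equiv.ofBijective Φ hΦ).tsum_eq F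
      _ = R x (i, s) (j, t) := hi _ i j
  have h0 := hvan R hR hRi
  -- the classes of the subgroup inside the group
  let DG : Set G := {x | ∃ h ∈ H, h * g * h⁻¹ = x}
  let a : G → ℂ := fun y => ∑ i, e y i i
  have ha : Summable fun y => ‖a y‖ :=
    Summable.of_nonneg_of_le (fun _ => norm_nonneg _) (fun y => norm_sum_le _ _)
      (summable_sum fun i _ => he i i)
  let C : Set G := {x | IsConj g x}
  let W : G ⧸ H → G → ℂ := fun t x => if (r t)⁻¹ * x * r t ∈ DG then a x else 0
  have hW : ∀ t, Summable (W t) := fun t => Summable.of_norm_bounded ha fun x => by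
    by_cases hx : (r t)⁻¹ * x * r t ∈ DG <;> simp [W, hx]
  have hfull : ∑' x, ∑ t, W t x = 0 := by
    rw [Summable.tsum_finsetSum fun t _ => hW t, ← h0]
    have hterm : ∀ t, ∑' x, W t x = ∑' h : H,
        ({x | IsConj (⟨g, hg⟩ : H) x}.indicator (fun y => a (r t * y * (r t)⁻¹)) h) := by
      intro t
      have hinj : Function.Injective (fun h : H => r t * h * (r t)⁻¹) :=
        fun x y hxy => Subtype.ext (by simpa using hxy)
      rw [← hinj.tsum_eq (f := W t)]
      · refine tsum_congr fun h => ?_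
        have hiff : (h : G) ∈ DG ↔ IsConj (⟨g, hg⟩ : H) h := by
          rw [isConj_iff]
          constructor
          · rintro ⟨c, hc, hcg⟩
            exact ⟨⟨c, hc⟩, Subtype.ext hcg⟩
          · rintro ⟨c, hc⟩
            exact ⟨c, c.2, congrArg Subtype.val hc⟩
        have he' : (r t)⁻¹ * (r t * h * (r t)⁻¹) * r t = h := by group
        simp only [W, he', hiff, Set.indicator_apply, Set.mem_setOf_eq]
      · intro x hx
        rw [Function.mem_support] at hx
        by_cases hm : (r t)⁻¹ * x * r t ∈ DG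
        · obtain ⟨c, hc, hcg⟩ := hm
          exact ⟨⟨_, H.mul_mem (H.mul_mem hc hg) (H.inv_mem hc)⟩, by
            simp only [hcg]; group⟩
        · exact absurd (by simp [W, hm]) hx
    simp only [hterm]
    rw [← Summable.tsum_finsetSum]
    · refine tsum_congr fun h => ?_
      by_cases hh : IsConj (⟨g, hg⟩ : H) h
      · simp only [Set.indicator_apply, Set.mem_setOf_eq, hh, if_true, a, R]
        rw [Fintype.sum_prod_type, Finset.sum_comm]
      · simp only [Set.indicator_apply, Set.mem_setOf_eq, if_neg hh, Finset.sum_const_zero]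
    · intro t _
      apply Summable.indicator
      exact Summable.of_norm (ha.comp_injective (i := fun h : H => r t * h * (r t)⁻¹)
        (fun x y hxy => Subtype.ext (by simpa using hxy)))
  let N : G → ℕ := fun x => (Finset.univ.filter fun t => (r t)⁻¹ * x * r t ∈ DG).card
  have hND : ∀ t (h : G), h ∈ H → ∀ y, (t * h)⁻¹ * y * (t * h) ∈ DG ↔ t⁻¹ * y * t ∈ DG := by
    intro t h hh y
    constructor
    · rintro ⟨c, hc, hcg⟩
      refine ⟨h * c, H.mul_mem hh hc, ?_⟩
      calc h * c * g * (h * c)⁻¹ = h * (c * g * c⁻¹) * h⁻¹ := by group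
        _ = _ := by rw [hcg]; group
    · rintro ⟨c, hc, hcg⟩
      refine ⟨h⁻¹ * c, H.mul_mem (H.inv_mem hh) hc, ?_⟩
      calc h⁻¹ * c * g * (h⁻¹ * c)⁻¹ = h⁻¹ * (c * g * c⁻¹) * h := by group
        _ = _ := by rw [hcg]; group
  have hNconj : ∀ u y, N (u * y * u⁻¹) = N y := by
    intro u y
    refine Finset.card_equiv (MulAction.toPerm (u⁻¹ : G)) fun t => ?_
    simp only [Finset.mem_filter, Finset.mem_univ, true_and, MulAction.toPerm_apply]
    obtain ⟨h, hh⟩ := QuotientGroup.mk_out_eq_mul H (u⁻¹ * r t)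
    have hrt : u⁻¹ • t = (QuotientGroup.mk (u⁻¹ * r t) : G ⧸ H) := by
      conv_lhs => rw [← hr t]
      rfl
    have hr' : r (u⁻¹ • t) = u⁻¹ * r t * h := by rw [hrt]; exact hh
    rw [hr', hND _ _ h.2]
    simp [mul_assoc]
  have hN1 : 0 < N g := by
    refine Finset.card_pos.mpr ⟨QuotientGroup.mk (1 : G), ?_⟩
    obtain ⟨h, hh⟩ := QuotientGroup.mk_out_eq_mul H (1 : G)
    simp only [Finset.mem_filter, Finset.mem_univ, true_and]
    refine ⟨(r (QuotientGroup.mk (1 : G)))⁻¹, H.inv_mem ?_, ?_⟩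
    · simp [r, hh]
    · group
  have hsplit : ∀ x, ∑ t, W t x = (N g : ℂ) * C.indicator a x := by
    intro x
    have : ∑ t, W t x = (N x : ℂ) * a x := by
      simp [W, N, Finset.sum_ite]
    rw [this]
    by_cases hx : x ∈ C
    · obtain ⟨u, hu⟩ := isConj_iff.mp (show IsConj g x from hx)
      rw [Set.indicator_of_mem hx, ← hNconj u g, hu]
    · have hz : N x = 0 := by
        rw [Finset.card_eq_zero, Finset.filter_eq_empty_iff]
        rintro t - ⟨c, -, hcg⟩
        refine hx (isConj_iff.mpr ⟨r t * c, ?_⟩)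
        calc r t * c * g * (r t * c)⁻¹ = r t * (c * g * c⁻¹) * (r t)⁻¹ := by group
          _ = x := by rw [hcg]; group
      simp [hz, Set.indicator_of_notMem hx]
  simp only [hsplit, tsum_mul_left] at hfull
  rcases mul_eq_zero.mp hfull with h | h
  · exact absurd h (Nat.cast_ne_zero.mpr hN1.ne')
  · exact h

/-- Traces vanish at classes detected by a real character of a finite index subgroup. -/
theorem trace_eq_zero_of_finiteIndex {G : Type*} [Group G] {ι : Type*} [Fintype ι] [DecidableEq ι]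
    (e : G → Matrix ι ι ℂ) (he : ∀ i j, Summable fun x => ‖e x i j‖)
    (hi : ∀ x i j, ∑' y, ∑ k, e y i k * e (y⁻¹ * x) k j = e x i j)
    (g : G) (H : Subgroup G) (hH : H.FiniteIndex) (hg : g ∈ H)
    (φ : H → ℝ) (hφ : ∀ a b, φ (a * b) = φ a + φ b) (hne : φ ⟨g, hg⟩ ≠ 0) :
    ∑' x : G, {x | IsConj g x}.indicator (fun y => ∑ i, e y i i) x = 0 := by
  classical
  exact trace_eq_zero_of_subgroup e he hi g H hH hg fun R hR hRi => matrix_case R hR hRi φ hφ hne

end Vale.Agent.P184
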