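import Mathlib

/-!
An explicit deformation of the permutation representation of a group acting on a tree.
-/

namespace Vale.Agent.P184.Tree

variable {V : Type*} {T : SimpleGraph V}

open Classical in
/-- the neighbour closer to the base point -/
noncomputable def par (T : SimpleGraph V) (o v : V) : V :=
  if h : ∃ w, T.Adj v w ∧ T.dist o w + 1 = T.dist o v then h.choose else o

variable (hT : T.IsTree) (o : V)

include hT in
lemma exists_closer {v : V} (hv : v ≠ o) : ∃ w, T.Adj v w ∧ T.dist o w + 1 = T.dist o v := by
  obtain ⟨p, hp, hlen⟩ := (hT.connected v o).exists_path_of_dist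
  cases p with
  | nil => exact absurd rfl hv
  | cons hadj q =>
    refine ⟨_, hadj, ?_⟩
    have h1 := SimpleGraph.dist_le q
    have h2 := hT.dist_eq_dist_add_one_of_adj o hadj
    simp only [SimpleGraph.Walk.length_cons] at hlen
    rw [SimpleGraph.dist_comm] at h1 hlen
    rcases h2 with h2 | h2
    · exact h2.symm
    · omega

include hT in
lemma par_spec {v : V} (hv : v ≠ o) : T.Adj v (par T o v) ∧ T.dist o (par T o v) + 1 = T.dist o v := by
  have h := exists_closer hT o hv
  rw [par, dif_pos h]
  exact h.choose_spec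

@[simp] lemma par_self : par T o o = o := by
  rw [par, dif_neg]
  rintro ⟨w, -, h⟩
  simp at h

include hT in
lemma closer_unique {v w w' : V} (h : T.Adj v w) (h' : T.Adj v w')
    (hd : T.dist o w + 1 = T.dist o v) (hd' : T.dist o w' + 1 = T.dist o v) : w = w' := by
  classical
  obtain ⟨p, hp, hlen⟩ := (hT.connected w o).exists_path_of_dist
  obtain ⟨q, hq, hlen'⟩ := (hT.connected w' o).exists_path_of_dist
  rw [SimpleGraph.dist_comm] at hlen hlen'
  have hp' : (SimpleGraph.Walk.cons h p).IsPath := by
    refine SimpleGraph.Walk.isPath_of_length_eq_dist _ ?_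
    rw [SimpleGraph.Walk.length_cons, hlen, hd, SimpleGraph.dist_comm]
  have hq' : (SimpleGraph.Walk.cons h' q).IsPath := by
    refine SimpleGraph.Walk.isPath_of_length_eq_dist _ ?_
    rw [SimpleGraph.Walk.length_cons, hlen', hd', SimpleGraph.dist_comm]
  have := congrArg Subtype.val
    (hT.isAcyclic.path_unique ⟨_, hp'⟩ ⟨_, hq'⟩)
  have := congrArg SimpleGraph.Walk.support this
  simp only [SimpleGraph.Walk.support_cons, List.cons.injEq, true_and] at this
  have h1 := p.head_support
  have h2 := q.head_support
  simp only [this] at h1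
  exact h1.symm.trans h2

include hT in
lemma adj_par {u v : V} (h : T.Adj u v) :
    (v ≠ o ∧ par T o v = u) ∨ (u ≠ o ∧ par T o u = v) := by
  rcases hT.dist_eq_dist_add_one_of_adj o h with h1 | h1
  · right
    have hu : u ≠ o := by rintro rfl; simp at h1
    exact ⟨hu, closer_unique hT o (par_spec hT o hu).1 h (par_spec hT o hu).2 h1.symm⟩
  · left
    have hv : v ≠ o := by rintro rfl; simp at h1
    exact ⟨hv, closer_unique hT o (par_spec hT o hv).1 h.symm (par_spec hT o hv).2 h1.symm⟩

include hT in
lemma dist_par_le (v : V) : T.dist o (par T o v) ≤ T.dist o v := by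
  by_cases hv : v = o
  · simp [hv]
  · exact Nat.le.intro (par_spec hT o hv).2

include hT in
lemma dist_iterate_le (v : V) (k : ℕ) : T.dist o ((par T o)^[k] v) ≤ T.dist o v := by
  induction k with
  | zero => rfl
  | succ k ih => rw [Function.iterate_succ_apply']; exact (dist_par_le hT o _).trans ih

include hT in
lemma iterate_dist (v : V) : (par T o)^[T.dist o v] v = o := by
  generalize hn : T.dist o v = n
  induction n generalizing v with
  | zero =>
    simp only [Function.iterate_zero, id_eq]
    exact ((hT.connected o v).dist_eq_zero_iff.mp hn).symm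
  | succ n ih =>
    rw [Function.iterate_succ_apply]
    have hv : v ≠ o := by rintro rfl; simp at hn
    exact ih _ (by have := (par_spec hT o hv).2; omega)

/-- the weighted ancestor chain -/
noncomputable def chain (T : SimpleGraph V) (o : V) (z : ℂ) (v : V) : V →₀ ℂ :=
  ∑ k ∈ Finset.range (T.dist o v + 1), Finsupp.single ((par T o)^[k] v) (z ^ k)

lemma chain_self (z : ℂ) : chain T o z o = Finsupp.single o 1 := by
  simp [chain]

include hT in
lemma chain_step (z : ℂ) {v : V} (hv : v ≠ o) :
    chain T o z v = Finsupp.single v 1 + z • chain T o z (par T o v) := by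
  rw [chain, ← (par_spec hT o hv).2, Finset.sum_range_succ', add_comm]
  simp only [chain, Finset.smul_sum, Finsupp.smul_single, smul_eq_mul,
      Function.iterate_succ_apply, Function.iterate_zero, id_eq, pow_zero, pow_succ']

variable {H : Type*} [Group H] (ρ : H →* (T ≃g T))

lemma ρ_mul (x y : H) (v : V) : ρ (x * y) v = ρ x (ρ y v) := by rw [map_mul]; rfl

lemma ρ_inv (x : H) (v : V) : ρ x (ρ x⁻¹ v) = v := by
  rw [← ρ_mul, mul_inv_cancel, map_one]; rfl

lemma ρ_inv' (x : H) (v : V) : ρ x⁻¹ (ρ x v) = v := by
  rw [← ρ_mul, inv_mul_cancel, map_one]; rfl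

lemma dist_ρ (x : H) (u v : V) : T.dist (ρ x u) (ρ x v) = T.dist u v := by
  have h : ∀ (y : H) (a b : V), T.Reachable a b → T.dist (ρ y a) (ρ y b) ≤ T.dist a b := by
    intro y a b hab
    obtain ⟨w, hw⟩ := hab.exists_walk_length_eq_dist
    rw [← hw]
    exact (SimpleGraph.dist_le (w.map (ρ y).toHom)).trans (by rw [SimpleGraph.Walk.length_map])
  by_cases hr : T.Reachable u v
  · refine le_antisymm (h x u v hr) ?_
    have := h x⁻¹ _ _ (hr.map (ρ x).toHom)
    simpa [ρ_inv'] using this
  · rw [SimpleGraph.dist_eq_zero_of_not_reachable hr,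
      SimpleGraph.dist_eq_zero_of_not_reachable]
    intro hr'
    exact hr (by simpa [ρ_inv'] using hr'.map (ρ x⁻¹).toHom)

/-- the displacement of the base point -/
noncomputable def len (o : V) (x : H) : ℕ := T.dist o (ρ x o)

include hT in
lemma len_mul (x y : H) : len ρ o (x * y) ≤ len ρ o x + len ρ o y := by
  rw [len, len, len, ρ_mul, ← dist_ρ ρ x o (ρ y o)]
  exact hT.connected.dist_triangle

/-- the deformed permutation representation, by its columns -/
noncomputable def col (o : V) (z : ℂ) (x : H) (v : V) : V →₀ ℂ :=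
  open Classical in
  if v = o then chain T o z (ρ x o) else chain T o z (ρ x v) - z • chain T o z (ρ x (par T o v))

open Classical in
/-- the finitely many exceptional columns -/
noncomputable def bad (o : V) (x : H) : Finset V :=
  insert o ((Finset.range (T.dist o (ρ x⁻¹ o) + 1)).image fun k => (par T o)^[k] (ρ x⁻¹ o))

include hT in
lemma len_inv (x : H) : T.dist o (ρ x⁻¹ o) = len ρ o x := by
  rw [len, ← dist_ρ ρ x o (ρ x⁻¹ o), ρ_inv, SimpleGraph.dist_comm]

include hT in
lemma bad_card (x : H) : (bad ρ o x).card ≤ len ρ o x + 2 := by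
  classical
  refine (Finset.card_insert_le _ _).trans ?_
  have := Finset.card_image_le (s := Finset.range (T.dist o (ρ x⁻¹ o) + 1))
    (f := fun k => (par T o)^[k] (ρ x⁻¹ o))
  rw [Finset.card_range, len_inv hT o ρ] at this
  rw [len_inv hT o ρ]
  omega

include hT in
lemma dist_bad (x : H) {v : V} (hv : v ∈ bad ρ o x) : T.dist o v ≤ len ρ o x := by
  classical
  simp only [bad, Finset.mem_insert, Finset.mem_image] at hv
  rcases hv with rfl | ⟨k, -, rfl⟩
  · simp
  · exact (dist_iterate_le hT o _ k).trans (len_inv hT o ρ x).le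

include hT in
/-- `v` lies on the geodesic from `o` to `y` when `y` is nearer to `v` than to its parent. -/
lemma ancestor (y : V) : ∀ v, v ≠ o → T.dist y v < T.dist y (par T o v) →
    ∃ k, k ≤ T.dist o y ∧ (par T o)^[k] y = v := by
  intro v
  generalize hm : T.dist y v = m
  induction m generalizing y with
  | zero =>
    intro _ _
    exact ⟨0, Nat.zero_le _, (hT.connected y v).dist_eq_zero_iff.mp hm⟩
  | succ m ih =>
    intro hv hlt
    have hyv : y ≠ v := by rintro rfl; simp at hm
    obtain ⟨y', hadj, hy'⟩ := exists_closer hT v hyv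
    rw [SimpleGraph.dist_comm, SimpleGraph.dist_comm (u := v)] at hy'
    have htri := hT.connected.dist_triangle (u := y) (v := y') (w := par T o v)
    rw [(SimpleGraph.dist_eq_one_iff_adj).mpr hadj] at htri
    obtain ⟨k, hk, hkv⟩ := ih y' (by omega) hv (by omega)
    rcases adj_par hT o hadj with ⟨hne, hp⟩ | ⟨hne, hp⟩
    · -- `y` is the parent of `y'`
      cases k with
      | zero =>
        simp only [Function.iterate_zero, id_eq] at hkv
        subst hkv
        rw [hp] at hlt
        simp at hlt
      | succ k =>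
        rw [Function.iterate_succ_apply, hp] at hkv
        have := (par_spec hT o hne).2
        rw [hp] at this
        exact ⟨k, by omega, hkv⟩
    · refine ⟨k + 1, ?_, by rw [Function.iterate_succ_apply, hp]; exact hkv⟩
      have := (par_spec hT o hne).2
      rw [hp] at this
      omega

include hT in
lemma good_vertex (x : H) {v : V} (hv : v ∉ bad ρ o x) :
    v ≠ o ∧ ρ x v ≠ o ∧ par T o (ρ x v) = ρ x (par T o v) := by
  classical
  simp only [bad, Finset.mem_insert, Finset.mem_image, Finset.mem_range, not_or, not_exists,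
    not_and] at hv
  obtain ⟨hvo, hv⟩ := hv
  have hadj : T.Adj (ρ x v) (ρ x (par T o v)) := ((ρ x).map_rel_iff').mpr (par_spec hT o hvo).1
  have key : ¬ T.dist (ρ x⁻¹ o) v < T.dist (ρ x⁻¹ o) (par T o v) := fun h => by
    obtain ⟨k, hk, hkv⟩ := ancestor hT o (ρ x⁻¹ o) v hvo h
    exact hv k (by omega) hkv
  rcases adj_par hT o hadj with ⟨hne, hp⟩ | ⟨hne, hp⟩
  · refine absurd ?_ key
    have h2 := (par_spec hT o hne).2
    rw [hp] at h2
    rw [← dist_ρ ρ x, ← dist_ρ ρ x _ (par T o v), ρ_inv]
    omega
  · exact ⟨hvo, hne, hp⟩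

include hT in
lemma col_good (z : ℂ) (x : H) {v : V} (hv : v ∉ bad ρ o x) :
    col ρ o z x v = Finsupp.single (ρ x v) 1 := by
  obtain ⟨h1, h2, h3⟩ := good_vertex hT o ρ x hv
  rw [col, if_neg h1, chain_step hT o z h2, h3]
  simp

include hT in
/-- the columns compose like a representation -/
lemma col_mul (z : ℂ) (x y : H) (v : V) :
    col ρ o z (x * y) v =
      Finsupp.linearCombination ℂ (col ρ o z x) (col ρ o z y v) := by
  classical
  set L := Finsupp.linearCombination ℂ (col ρ o z x)
  have hL : ∀ u, L (chain T o z u) = chain T o z (ρ x u) := by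
    intro u
    generalize hn : T.dist o u = n
    induction n generalizing u with
    | zero =>
      have hu : u = o := ((hT.connected o u).dist_eq_zero_iff.mp hn).symm
      subst hu
      rw [chain_self]
      simp [L, col]
    | succ n ih =>
      have hu : u ≠ o := by rintro rfl; simp at hn
      rw [chain_step hT o z hu, map_add, map_smul,
        ih _ (by have := (par_spec hT o hu).2; omega)]
      simp [L, col, hu]
  by_cases hv : v = o
  · simp only [col, if_pos hv, hL, ρ_mul]
  · simp only [col, if_neg hv, map_sub, map_smul, hL, ρ_mul]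

/-- the `l^1` norm of a finitely supported function -/
noncomputable def size {W : Type*} (f : W →₀ ℂ) : ℝ := ∑ u ∈ f.support, ‖f u‖

lemma chain_apply_norm_le (z : ℂ) (hz : ‖z‖ ≤ 1) {W : Type*} {E : Type*} [NormedAddCommGroup E]
    [NormedSpace ℂ E] (L : (V →₀ ℂ) →ₗ[ℂ] E) (hL : ∀ u, ‖L (Finsupp.single u 1)‖ ≤ 1) (v : V) :
    ‖L (chain T o z v)‖ ≤ T.dist o v + 1 := by
  rw [chain, map_sum]
  refine (norm_sum_le _ _).trans ?_
  have : ∀ k ∈ Finset.range (T.dist o v + 1),
      ‖L (Finsupp.single ((par T o)^[k] v) (z ^ k))‖ ≤ 1 := fun k _ => by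
    rw [← mul_one (z ^ k), ← smul_eq_mul, ← Finsupp.smul_single, map_smul, norm_smul, norm_pow]
    exact mul_le_one₀ (pow_le_one₀ (norm_nonneg _) hz) (norm_nonneg _) (hL _)
  refine (Finset.sum_le_sum this).trans ?_
  simp

include hT in
lemma col_norm_le (z : ℂ) (hz : ‖z‖ ≤ 1) {E : Type*} [NormedAddCommGroup E]
    [NormedSpace ℂ E] (L : (V →₀ ℂ) →ₗ[ℂ] E) (hL : ∀ u, ‖L (Finsupp.single u 1)‖ ≤ 1)
    (x : H) (v : V) : ‖L (col ρ o z x v)‖ ≤ 4 * (len ρ o x : ℝ) + 2 := by
  by_cases hv : v ∈ bad ρ o x
  · have hd : ∀ u, T.dist o u ≤ len ρ o x → T.dist o (ρ x u) + 1 ≤ 2 * len ρ o x + 1 := fun u hu => by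
      have := hT.connected.dist_triangle (u := o) (v := ρ x o) (w := ρ x u)
      rw [dist_ρ] at this
      have h2 : T.dist o (ρ x o) = len ρ o x := rfl
      omega
    have hc : ∀ u, T.dist o u ≤ len ρ o x →
        ‖L (chain T o z (ρ x u))‖ ≤ 2 * (len ρ o x : ℝ) + 1 := fun u hu =>
      (chain_apply_norm_le (W := V) o z hz L hL _).trans (by exact_mod_cast hd u hu)
    unfold col
    split_ifs with h
    · linarith [hc o (by simp)]
    · rw [map_sub, map_smul]
      refine (norm_sub_le _ _).trans ?_
      rw [norm_smul]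
      have h1 := hc v (dist_bad hT o ρ x hv)
      have h2 := hc _ ((dist_par_le hT o v).trans (dist_bad hT o ρ x hv))
      have h3 := mul_le_mul hz h2 (norm_nonneg _) zero_le_one
      linarith
  · rw [col_good hT o ρ z x hv]
    exact (hL _).trans (by linarith [Nat.cast_nonneg (α := ℝ) (len ρ o x)])

lemma chain_continuous {E : Type*} [NormedAddCommGroup E] [NormedSpace ℂ E]
    (L : (V →₀ ℂ) →ₗ[ℂ] E) (v : V) : Continuous fun z => L (chain T o z v) := by
  have : ∀ z, L (chain T o z v) = ∑ k ∈ Finset.range (T.dist o v + 1),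
      z ^ k • L (Finsupp.single ((par T o)^[k] v) 1) := fun z => by
    rw [chain, map_sum]
    exact Finset.sum_congr rfl fun k _ => by rw [← map_smul, Finsupp.smul_single, smul_eq_mul, mul_one]
  simp only [this]
  fun_prop

lemma col_continuous {E : Type*} [NormedAddCommGroup E] [NormedSpace ℂ E]
    (L : (V →₀ ℂ) →ₗ[ℂ] E) (x : H) (v : V) : Continuous fun z => L (col ρ o z x v) := by
  classical
  by_cases h : v = o
  · simp only [col, if_pos h]
    exact chain_continuous o L _
  · simp only [col, if_neg h, map_sub, map_smul]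
    exact (chain_continuous o L _).sub (continuous_id.smul (chain_continuous o L _))

include hT in
lemma col_zero (x : H) (v : V) : col ρ o 0 x v = Finsupp.single (ρ x v) 1 := by
  classical
  have h : ∀ u, chain T o 0 u = Finsupp.single u 1 := fun u => by
    by_cases hu : u = o
    · rw [hu, chain_self]
    · rw [chain_step hT o 0 hu]; simp
  unfold col
  split_ifs with hv
  · rw [h, hv]
  · rw [h]; simp

open Classical in
include hT in
/-- the diagonal at parameter one for an automorphism without fixed vertex or inversion -/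
lemma col_one_diag (x : H) (hfix : ∀ u, ρ x u ≠ u)
    (hinv : ∀ u w, T.Adj u w → ρ x u = w → ρ x w ≠ u) (v : V) :
    col ρ o 1 x v v = if v = o then 1 else 0 := by
  classical
  by_cases hv : v = o
  · subst hv
    rw [if_pos rfl, col, if_pos rfl, chain, Finsupp.finsetSum_apply,
      Finset.sum_eq_single (T.dist v (ρ x v))]
    · simp [iterate_dist hT]
    · intro k hk hne
      have hk' : k < T.dist v (ρ x v) := by simp only [Finset.mem_range] at hk; omega
      have h : (par T v)^[k] (ρ x v) ≠ v := by
        intro hc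
        have : ∀ (j : ℕ) (u : V), j < T.dist v u → (par T v)^[j] u ≠ v := by
          intro j
          induction j with
          | zero =>
            intro u hu hc
            simp only [Function.iterate_zero, id_eq] at hc
            rw [hc] at hu
            simp at hu
          | succ j ih =>
            intro u hu
            rw [Function.iterate_succ_apply]
            have hu' : u ≠ v := by rintro rfl; simp at hu
            exact ih _ (by have := (par_spec hT v hu').2; omega)
        exact this k _ hk' hc
      simp [h]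
    · simp
  · rw [if_neg hv, col, if_neg hv]
    have hadj : T.Adj (ρ x v) (ρ x (par T o v)) := ((ρ x).map_rel_iff').mpr (par_spec hT o hv).1
    rcases adj_par hT o hadj with ⟨hne, hp⟩ | ⟨hne, hp⟩
    · rw [chain_step hT o 1 hne, hp]
      have : ρ x (par T o v) ≠ v := by
        intro hc
        rw [hc] at hp
        exact hinv (par T o v) v (par_spec hT o hv).1.symm hc hp.symm
      simp [this]
    · rw [chain_step hT o 1 hne, hp]
      simp [hfix v]

end Vale.Agent.P184.Tree
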