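import Vale.Agent.P184.Deform

/-!
Idempotents over `l^1(G)` are close to idempotents that are summable against a polynomial weight.
-/

namespace Vale.Agent.P184

open Filter Topology

section weighted

variable {G : Type*} [Group G] {A : Type*} [NormedRing A]

/-- weighted summability -/
def WSum (w : G → ℝ) (f : l1Sub G A) : Prop := Summable fun x => w x * ‖f.1 x‖

/-- weighted norm -/
noncomputable def wnrm (w : G → ℝ) (f : l1Sub G A) : ℝ := ∑' x, w x * ‖f.1 x‖

omit [Group G] in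
lemma wadd {w : G → ℝ} (h0 : ∀ x, 0 ≤ w x) {f g : l1Sub G A} (hf : WSum w f) (hg : WSum w g) :
    WSum w (f + g) ∧ wnrm w (f + g) ≤ wnrm w f + wnrm w g := by
  have hle : ∀ x, w x * ‖(f + g).1 x‖ ≤ w x * ‖f.1 x‖ + w x * ‖g.1 x‖ := fun x => by
    rw [← mul_add]; exact mul_le_mul_of_nonneg_left (norm_add_le _ _) (h0 x)
  have hs : WSum w (f + g) :=
    Summable.of_nonneg_of_le (fun x => mul_nonneg (h0 x) (norm_nonneg _)) hle (hf.add hg)
  exact ⟨hs, (hs.tsum_le_tsum hle (hf.add hg)).trans (hf.tsum_add hg).le⟩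

omit [Group G] in
lemma wsub {w : G → ℝ} (h0 : ∀ x, 0 ≤ w x) {f g : l1Sub G A} (hf : WSum w f) (hg : WSum w g) :
    WSum w (f - g) ∧ wnrm w (f - g) ≤ wnrm w f + wnrm w g := by
  have hn : WSum w (-g) ∧ wnrm w (-g) = wnrm w g := by
    have : (fun x => w x * ‖(-g).1 x‖) = fun x => w x * ‖g.1 x‖ :=
      funext fun x => by simp
    exact ⟨by unfold WSum; rw [this]; exact hg, by unfold wnrm; rw [this]⟩
  have := wadd h0 hf hn.1
  rw [sub_eq_add_neg, ← hn.2]
  exact this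

variable [CompleteSpace A]

lemma wmul {w : G → ℝ} (h0 : ∀ x, 0 ≤ w x) (hw : ∀ x y, w (x * y) ≤ w x * w y)
    {f g : l1Sub G A} (hf : WSum w f) (hg : WSum w g) :
    WSum w (f * g) ∧ wnrm w (f * g) ≤ wnrm w f * wnrm w g := by
  set f' : G → ℝ := fun x => w x * ‖f.1 x‖ with hf'
  set g' : G → ℝ := fun x => w x * ‖g.1 x‖ with hg'
  have hfn : ∀ x, ‖f' x‖ = f' x := fun x => Real.norm_of_nonneg (mul_nonneg (h0 x) (norm_nonneg _))
  have hgn : ∀ x, ‖g' x‖ = g' x := fun x => Real.norm_of_nonneg (mul_nonneg (h0 x) (norm_nonneg _))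
  have hfs : Summable fun x => ‖f' x‖ := by simp only [hfn]; exact hf
  have hgs : Summable fun x => ‖g' x‖ := by simp only [hgn]; exact hg
  obtain ⟨hc, hcle⟩ := conv_norm hfs hgs
  have hle : ∀ x, w x * ‖(f * g).1 x‖ ≤ ‖conv f' g' x‖ := fun x => by
    have hs := conv_term_summable hfs hgs x
    refine le_trans ?_ (le_abs_self _)
    rw [mul_val]
    have h1 : ‖conv f.1 g.1 x‖ ≤ ∑' y, ‖f.1 y * g.1 (y⁻¹ * x)‖ :=
      norm_tsum_le_tsum_norm
        ((shear_summable' f.2 g.2).comp_injective (i := fun y => (y, x))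
          (fun a b h => (Prod.mk.inj h).1))
    refine (mul_le_mul_of_nonneg_left h1 (h0 x)).trans ?_
    rw [← tsum_mul_left]
    refine Summable.tsum_le_tsum (fun y => ?_) ?_ hs
    · have h2 := hw y (y⁻¹ * x)
      rw [mul_inv_cancel_left] at h2
      calc w x * ‖f.1 y * g.1 (y⁻¹ * x)‖
          ≤ (w y * w (y⁻¹ * x)) * (‖f.1 y‖ * ‖g.1 (y⁻¹ * x)‖) :=
            mul_le_mul h2 (norm_mul_le _ _) (norm_nonneg _) (mul_nonneg (h0 _) (h0 _))
        _ = f' y * g' (y⁻¹ * x) := by simp only [hf', hg']; ring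
    · exact ((shear_summable' f.2 g.2).comp_injective (i := fun y => (y, x))
          (fun a b h => (Prod.mk.inj h).1)).mul_left _
  have hws : WSum w (f * g) :=
    Summable.of_nonneg_of_le (fun x => mul_nonneg (h0 x) (norm_nonneg _)) hle hc
  refine ⟨hws, (hws.tsum_le_tsum hle hc).trans (hcle.trans (le_of_eq ?_))⟩
  simp only [hfn, hgn]
  rfl

/-- Weighted estimates along the Newton iteration. -/
lemma newton_weighted {w : G → ℝ} (h0 : ∀ x, 0 ≤ w x) (hw : ∀ x y, w (x * y) ≤ w x * w y)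
    (a0 : l1Sub G A) (ha : WSum w a0) (hd : WSum w (defect a0)) {L η : ℝ}
    (hL : wnrm w a0 ≤ L) (hη : wnrm w (defect a0) ≤ η) (hη14 : η ≤ 1 / 14)
    (hsmall : 2 * ((1 + 2 * (L + 1)) * η) ≤ 1) (n : ℕ) :
    WSum w (newtonStep^[n] a0) ∧
      wnrm w (newtonStep^[n] a0) ≤ L + 2 * ((1 + 2 * (L + 1)) * η) * (1 - (1 / 2) ^ n) ∧
      WSum w (defect (newtonStep^[n] a0)) ∧
      wnrm w (defect (newtonStep^[n] a0)) ≤ η * (1 / 2) ^ n := by
  have n0 : ∀ f : l1Sub G A, 0 ≤ wnrm w f := fun f =>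
    tsum_nonneg fun x => mul_nonneg (h0 x) (norm_nonneg _)
  induction n with
  | zero => simp [ha, hd, hL, hη]
  | succ n ih =>
    obtain ⟨i1, i2, i3, i4⟩ := ih
    rw [Function.iterate_succ_apply']
    set a := newtonStep^[n] a0
    set D := defect a
    obtain ⟨s1, b1⟩ := wmul h0 hw i1 i3
    obtain ⟨s2, b2⟩ := wadd h0 s1 s1
    obtain ⟨s3, b3⟩ := wsub h0 i3 s2
    obtain ⟨s4, b4⟩ := wadd h0 i1 s3
    obtain ⟨t1, c1⟩ := wmul h0 hw i3 i3
    obtain ⟨t2, c2⟩ := wmul h0 hw t1 i3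
    obtain ⟨t3, c3⟩ := wadd h0 t2 t2
    obtain ⟨t4, c4⟩ := wadd h0 t3 t2
    obtain ⟨t5, c5⟩ := wadd h0 t4 t2
    obtain ⟨t6, c6⟩ := wadd h0 t1 t1
    obtain ⟨t7, c7⟩ := wadd h0 t6 t1
    obtain ⟨t8, c8⟩ := wsub h0 t5 t7
    have e1 : newtonStep a = a + (D - (a * D + a * D)) := rfl
    have e2 := defect_newtonStep a
    have hpow : (0 : ℝ) ≤ (1 / 2) ^ n := by positivity
    have hη0 : 0 ≤ η := (n0 _).trans hη
    have hC : 0 ≤ (1 + 2 * (L + 1)) * η * (1 / 2) ^ n :=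
      mul_nonneg (mul_nonneg (by linarith [n0 a0]) hη0) hpow
    have hD : wnrm w D ≤ 1 / 14 :=
      i4.trans ((mul_le_of_le_one_right hη0 (pow_le_one₀ (by norm_num) (by norm_num))).trans hη14)
    have hK : wnrm w a ≤ L + 1 := by nlinarith
    have q0 : wnrm w (a * D) ≤ (L + 1) * (η * (1 / 2) ^ n) :=
      b1.trans (mul_le_mul hK i4 (n0 _) (by linarith [n0 a0]))
    have q1 : wnrm w (D * D) ≤ wnrm w D * (1 / 14) :=
      c1.trans (mul_le_mul_of_nonneg_left hD (n0 D))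
    have q2 : wnrm w (D * D * D) ≤ wnrm w D * (1 / 14) * (1 / 14) :=
      c2.trans (mul_le_mul q1 hD (n0 D) (mul_nonneg (n0 D) (by norm_num)))
    refine ⟨e1 ▸ s4, ?_, e2 ▸ t8, ?_⟩
    · rw [e1, pow_succ]; linarith
    · rw [e2, pow_succ, show defect a = D from rfl]; linarith [n0 D, n0 (D * D)]

/-- Idempotents are close to idempotents summable against a weight `(1 + ℓ)^2`. -/
theorem exists_idem_weighted (e : l1Sub G A) (he : e * e = e) (ℓ : G → ℕ)
    (hℓ : ∀ x y, ℓ (x * y) ≤ ℓ x + ℓ y) :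
    ∃ p : l1Sub G A, p * p = p ∧ (Summable fun x => ((ℓ x : ℝ) + 1) ^ 2 * ‖p.1 x‖) ∧
      nrm (p - e) < 1 := by
  classical
  set K : ℝ := nrm e + 4 with hK
  have hK4 : 4 ≤ K := le_add_of_nonneg_left (nrm_nonneg e)
  set δ : ℝ := 1 / (64 * (K + 1) ^ 2) with hδ
  have hδ0 : 0 < δ := by rw [hδ]; positivity
  have hδK : δ * (64 * (K + 1) ^ 2) = 1 := by rw [hδ]; field_simp
  obtain ⟨S, hS⟩ := ((tendsto_order.mp (tendsto_tsum_compl_atTop_zero fun x => ‖e.1 x‖)).2 δ
    hδ0).exists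
  let a0 : l1Sub G A := ⟨fun x => if x ∈ S then e.1 x else 0,
    Summable.of_nonneg_of_le (fun _ => norm_nonneg _)
      (fun x => by dsimp only; split_ifs <;> simp) e.2⟩
  have ha0 : nrm (a0 - e) < δ := by
    refine lt_of_eq_of_lt ?_ hS
    refine Eq.trans ?_ (tsum_subtype {x | x ∉ S} fun x => ‖e.1 x‖).symm
    refine tsum_congr fun x => ?_
    by_cases hx : x ∈ S <;> simp [a0, hx]
  have hδ1 : δ ≤ 1 := by nlinarith
  have hd0 := nrm_defect_near he a0 ha0.le hδ1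
  have ha0n : nrm a0 ≤ nrm e := by
    refine Summable.tsum_le_tsum (fun x => ?_) a0.2 e.2
    show ‖(if x ∈ S then e.1 x else 0)‖ ≤ _
    split_ifs <;> simp
  -- finite supports
  have hsa : ∀ x ∉ S, a0.1 x = 0 := fun x hx => if_neg hx
  let T : Finset G := (S ×ˢ S).image (fun z => z.1 * z.2) ∪ S
  have hsd : ∀ x ∉ T, (defect a0).1 x = 0 := by
    intro x hx
    simp only [T, Finset.mem_union, Finset.mem_image, Finset.mem_product, not_or, not_exists,
      not_and] at hx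
    have h1 : (a0 * a0).1 x = 0 := by
      rw [mul_val, conv, tsum_congr (fun y => ?_), tsum_zero]
      by_cases hy : y ∈ S
      · have h2 : y⁻¹ * x ∉ S := fun h => hx.1 (y, y⁻¹ * x) ⟨hy, h⟩ (mul_inv_cancel_left y x)
        rw [hsa _ h2, mul_zero]
      · rw [hsa y hy, zero_mul]
    simp [defect, h1, hsa x hx.2]
  let W : ℝ → G → ℝ := fun ε x => (1 + ε * (ℓ x : ℝ)) ^ 2
  have hlimf : ∀ (f : l1Sub G A) (U : Finset G), (∀ x ∉ U, f.1 x = 0) →
      (∀ ε, WSum (W ε) f) ∧ Tendsto (fun ε => wnrm (W ε) f) (𝓝 0) (𝓝 (nrm f)) := by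
    intro f U hU
    refine ⟨fun ε => summable_of_ne_finset_zero (s := U) fun x hx => by simp [hU x hx], ?_⟩
    have he1 : ∀ ε, wnrm (W ε) f = ∑ x ∈ U, W ε x * ‖f.1 x‖ := fun ε =>
      tsum_eq_sum fun x hx => by simp [hU x hx]
    have he2 : nrm f = ∑ x ∈ U, ‖f.1 x‖ := tsum_eq_sum fun x hx => by simp [hU x hx]
    simp only [he1, he2]
    refine tendsto_finsetSum U fun x _ => ?_
    have : Continuous fun ε => W ε x * ‖f.1 x‖ := by simp only [W]; fun_prop
    simpa [W] using this.tendsto 0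
  set η : ℝ := 2 * K * δ with hη
  have hev := ((((hlimf a0 S hsa).2.eventually (gt_mem_nhds
      (show nrm a0 < nrm e + 1 by linarith))).and
    ((hlimf _ T hsd).2.eventually (gt_mem_nhds
      (show nrm (defect a0) < η by rw [hη]; nlinarith)))).filter_mono
      (nhdsWithin_le_nhds (s := Set.Ioo (0 : ℝ) 1)))
  have hne : (𝓝[Set.Ioo (0 : ℝ) 1] (0 : ℝ)).NeBot :=
    left_nhdsWithin_Ioo_neBot one_pos
  obtain ⟨ε, ⟨hεa, hεd⟩, hε0, hε1⟩ := (hev.and eventually_mem_nhdsWithin).exists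
  set w := W ε with hwdef
  have h0 : ∀ x, 0 ≤ w x := fun x => sq_nonneg _
  have hw1 : ∀ x, 1 ≤ w x := fun x => one_le_pow₀ (le_add_of_nonneg_right (by positivity))
  have hw : ∀ x y, w (x * y) ≤ w x * w y := fun x y => by
    simp only [hwdef, W, ← mul_pow]
    refine pow_le_pow_left₀ (by positivity) ?_ 2
    have : (ℓ (x * y) : ℝ) ≤ ℓ x + ℓ y := by exact_mod_cast hℓ x y
    have h3 : 0 ≤ ε * ε * ((ℓ x : ℝ) * ℓ y) := by positivity
    nlinarith
  set C : ℝ := (1 + 2 * (nrm e + 1 + 1)) * η with hC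
  have hC0 : 0 ≤ C := by
    rw [hC, hη]
    exact mul_nonneg (by linarith) (mul_nonneg (by linarith) hδ0.le)
  have hsmall : δ + 2 * C < 1 := by rw [hC, hη]; nlinarith
  have hη14 : η ≤ 1 / 14 := by rw [hη]; nlinarith
  have main := newton_weighted h0 hw a0 ((hlimf a0 S hsa).1 ε) ((hlimf _ T hsd).1 ε) hεa.le
    hεd.le hη14 (by linarith)
  have hle : ∀ f : l1Sub G A, WSum w f → nrm f ≤ wnrm w f := fun f hf =>
    f.2.tsum_le_tsum (fun x => le_mul_of_one_le_left (norm_nonneg _) (hw1 x)) hf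
  have hstep : ∀ n, nrm (newtonStep^[n + 1] a0 - newtonStep^[n] a0) ≤ C * (1 / 2) ^ n := by
    intro n
    obtain ⟨i1, i2, i3, i4⟩ := main n
    rw [Function.iterate_succ_apply']
    have hp : 0 ≤ C * (1 / 2 : ℝ) ^ n := by positivity
    have hb : nrm (newtonStep^[n] a0) ≤ nrm e + 1 + 1 := (hle _ i1).trans (by linarith)
    exact (nrm_newtonStep_sub_le _ hb ((hle _ i3).trans i4)).trans
      (le_of_eq (by rw [hC]; ring))
  obtain ⟨P, hP, hp⟩ := exists_limit (fun n => newtonStep^[n] a0) hC0 hstep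
  have hwP : Summable fun x => w x * ‖P.1 x‖ := by
    refine summable_of_sum_le (c := nrm e + 1 + 1) (fun x => mul_nonneg (h0 x) (norm_nonneg _))
      fun F => ?_
    refine le_of_tendsto' (tendsto_finsetSum F fun x _ => (hp x).norm.const_mul (w x)) fun n => ?_
    obtain ⟨i1, i2, -, -⟩ := main n
    refine ((i1 : Summable _).sum_le_tsum F fun x _ => mul_nonneg (h0 x) (norm_nonneg _)).trans ?_
    refine i2.trans ?_
    have : (0 : ℝ) ≤ C * (1 / 2) ^ n := by positivity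
    linarith
  refine ⟨P, ?_, ?_, ?_⟩
  · have key : ∀ n, nrm (P * P - P) ≤
        (nrm P + nrm P + 2 * C + 1) * (2 * C * (1 / 2) ^ n) + η * (1 / 2) ^ n :=
      fun n => defect_limit_bound P _ (hP n)
        (mul_le_of_le_one_right (by linarith) (pow_le_one₀ (by norm_num) (by norm_num)))
        ((hle _ (main n).2.2.1).trans (main n).2.2.2)
    have hpow : Tendsto (fun n : ℕ => (1 / 2 : ℝ) ^ n) atTop (𝓝 0) :=
      tendsto_pow_atTop_nhds_zero_of_lt_one (by norm_num) (by norm_num)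
    have hz := (((hpow.const_mul (2 * C)).const_mul (nrm P + nrm P + 2 * C + 1)).add
      (hpow.const_mul η))
    have h0' : nrm (P * P - P) ≤ 0 := ge_of_tendsto' (by simpa using hz) key
    apply Subtype.ext
    funext x
    exact sub_eq_zero.mp (norm_le_zero_iff.mp ((le_nrm (P * P - P) x).trans h0'))
  · refine Summable.of_nonneg_of_le (fun x => by positivity) (fun x => ?_)
      (hwP.mul_left ((1 / ε) ^ 2))
    rw [← mul_assoc]
    refine mul_le_mul_of_nonneg_right ?_ (norm_nonneg _)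
    simp only [hwdef, W, ← mul_pow]
    refine pow_le_pow_left₀ (by positivity) ?_ 2
    rw [mul_add, mul_one, one_div, inv_mul_cancel_left₀ hε0.ne']
    linarith [(one_le_inv₀ hε0).mpr hε1.le]
  · have h1 := nrm_add_le (P - a0) (a0 - e)
    rw [sub_add_sub_cancel] at h1
    have h2 := hP 0
    simp only [Function.iterate_zero, id_eq, pow_zero, mul_one] at h2
    linarith [ha0]

end weighted

end Vale.Agent.P184
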