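import Vale.Agent.P184.RelTrace
import Vale.Agent.P184.TreeDeform
import Vale.Agent.P184.Weighted

/-!
Trace vanishing for idempotents over `l^1(G)` at hyperbolic elements of tree actions.
-/

namespace Vale.Agent.P184.Tree

open Filter Topology Rel

attribute [local instance] Matrix.linftyOpNormedRing Matrix.linftyOpNormedAlgebra

variable {G : Type*} [Group G] {ι : Type*} [Fintype ι] [DecidableEq ι] {V : Type*}
  {T : SimpleGraph V} (hT : T.IsTree) (o : V) (ρ : G →* (T ≃g T))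

/-- placing a finitely supported function on a layer -/
noncomputable def layer (i : ι) : (V →₀ ℂ) →ₗ[ℂ] L1 (ι × V) :=
  Finsupp.linearCombination ℂ fun v => delta (i, v)

omit [Fintype ι] [DecidableEq ι] in
lemma layer_single (i : ι) (v : V) (r : ℂ) :
    layer i (Finsupp.single v r) = r • (delta (i, v) : L1 (ι × V)) := by
  simp [layer]

omit [Fintype ι] [DecidableEq ι] in
lemma layer_norm (i : ι) (v : V) :
    ‖layer i (Finsupp.single v (1 : ℂ))‖ ≤ 1 := by
  rw [layer_single, one_smul, delta_norm]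

omit [Fintype ι] in
lemma layer_apply (i i' : ι) (f : V →₀ ℂ) (v : V) :
    (layer i f : L1 (ι × V)) (i', v) = if i' = i then f v else 0 := by
  classical
  induction f using Finsupp.induction_linear with
  | zero => simp
  | add f g hf hg =>
    rw [map_add, lp.coeFn_add, Pi.add_apply, hf, hg]
    split_ifs <;> simp
  | single u r =>
    rw [layer_single]
    by_cases hi : i' = i <;> by_cases hu : v = u <;>
      simp [delta, hi, hu, lp.single_apply, Prod.ext_iff]

/-- columns of the twisted matrix -/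
noncomputable def colK (z : ℂ) (x : G) (M : Matrix ι ι ℂ) (jv : ι × V) : L1 (ι × V) :=
  ∑ i, M i jv.1 • layer i (col ρ o z x jv.2)

include hT in
lemma colK_norm (z : ℂ) (hz : ‖z‖ ≤ 1) (x : G) (M : Matrix ι ι ℂ) (jv : ι × V) :
    ‖colK o ρ z x M jv‖ ≤ (Fintype.card ι * (4 * (len ρ o x : ℝ) + 2)) * ‖M‖ := by
  refine (norm_sum_le _ _).trans ((Finset.sum_le_sum fun i _ => ?_).trans
    (le_of_eq (?_ : ∑ _i : ι, ‖M‖ * (4 * (len ρ o x : ℝ) + 2) = _)))
  · rw [norm_smul]
    exact mul_le_mul (entry_le_norm M i jv.1)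
      (col_norm_le hT o ρ z hz (layer i) (layer_norm i) x jv.2) (norm_nonneg _) (norm_nonneg _)
  · simp only [Finset.sum_const, Finset.card_univ, nsmul_eq_mul]; ring

/-- the twisted matrix as an operator -/
noncomputable def twist (z : ℂ) (hz : ‖z‖ ≤ 1) (x : G) (M : Matrix ι ι ℂ) : Op (ι × V) :=
  ofCols (colK o ρ z x M) _ (fun jv => colK_norm hT o ρ z hz x M jv)

lemma twist_delta (z : ℂ) (hz : ‖z‖ ≤ 1) (x : G) (M : Matrix ι ι ℂ) (jv : ι × V) :
    twist hT o ρ z hz x M (delta jv) = colK o ρ z x M jv :=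
  ofCols_delta _ _ _ _

lemma twist_norm (z : ℂ) (hz : ‖z‖ ≤ 1) (x : G) (M : Matrix ι ι ℂ) :
    ‖twist hT o ρ z hz x M‖ ≤ (Fintype.card ι * (4 * (len ρ o x : ℝ) + 2)) * ‖M‖ :=
  norm_le_of_cols _ _ (by positivity) fun jv => by
    rw [twist_delta]; exact colK_norm hT o ρ z hz x M jv

/-- linear in the matrix -/
noncomputable def twistL (z : ℂ) (hz : ‖z‖ ≤ 1) (x : G) : Matrix ι ι ℂ →L[ℂ] Op (ι × V) :=
  LinearMap.mkContinuous
    { toFun := twist hT o ρ z hz x
      map_add' := fun M N => op_ext fun jv => by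
        rw [add_apply, twist_delta, twist_delta, twist_delta, colK, colK, colK,
          ← Finset.sum_add_distrib]
        exact Finset.sum_congr rfl fun i _ => by rw [Matrix.add_apply, add_smul]
      map_smul' := fun r M => op_ext fun jv => by
        rw [RingHom.id_apply, smul_apply, twist_delta, twist_delta, colK, colK,
          Finset.smul_sum]
        exact Finset.sum_congr rfl fun i _ => by
          rw [Matrix.smul_apply, smul_eq_mul, mul_smul] }
    _ (twist_norm hT o ρ z hz x)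

lemma twist_mul (z : ℂ) (hz : ‖z‖ ≤ 1) (x y : G) (M N : Matrix ι ι ℂ) :
    twist hT o ρ z hz x M * twist hT o ρ z hz y N = twist hT o ρ z hz (x * y) (M * N) := by
  refine op_ext fun jv => ?_
  show twist hT o ρ z hz x M (twist hT o ρ z hz y N (delta jv)) = _
  rw [twist_delta, twist_delta, colK, map_sum]
  have key : ∀ (k : ι) (f : V →₀ ℂ), twist hT o ρ z hz x M (layer k f) =
      ∑ i, M i k • layer i (Finsupp.linearCombination ℂ (col ρ o z x) f) := by
    intro k f
    induction f using Finsupp.induction_linear with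
    | zero => simp
    | add f g hf hg =>
      simp only [map_add, hf, hg, ← Finset.sum_add_distrib, smul_add]
    | single v r =>
      rw [layer_single, map_smul, twist_delta, colK, Finset.smul_sum,
        Finsupp.linearCombination_single]
      exact Finset.sum_congr rfl fun i _ => by rw [map_smul, smul_comm]
  simp only [map_smul, key, Finset.smul_sum, ← col_mul hT o ρ z x y, colK, Matrix.mul_apply,
    Finset.sum_smul, smul_smul]
  rw [Finset.sum_comm]
  exact Finset.sum_congr rfl fun i _ => Finset.sum_congr rfl fun k _ => by rw [mul_comm]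

lemma entry_twist (z : ℂ) (hz : ‖z‖ ≤ 1) (x : G) (M : Matrix ι ι ℂ) (i j : ι) (u v : V) :
    entry (twist hT o ρ z hz x M) (i, u) (j, v) = M i j * col ρ o z x v u := by
  classical
  show (twist hT o ρ z hz x M (delta (j, v))) (i, u) = _
  rw [twist_delta, colK, lp.coeFn_sum, Finset.sum_apply, Finset.sum_eq_single i]
  · simp [layer_apply]
  · intro k _ hk
    simp [layer_apply, Ne.symm hk]
  · simp

include hT in
lemma diff_bound (z z' : ℂ) (hz : ‖z‖ ≤ 1) (hz' : ‖z'‖ ≤ 1) (x : G) (M : Matrix ι ι ℂ)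
    (i j : ι) (u v : V) :
    ‖entry (twist hT o ρ z hz x M - twist hT o ρ z' hz' x M) (i, u) (j, v)‖ ≤
      ‖M‖ * ∑ w ∈ bad ρ o x, ‖(col ρ o z x w - col ρ o z' x w) u‖ := by
  rw [entry_sub, entry_twist, entry_twist, ← mul_sub, norm_mul]
  refine mul_le_mul (entry_le_norm M i j) ?_ (norm_nonneg _) (norm_nonneg _)
  by_cases hv : v ∈ bad ρ o x
  · refine le_trans (le_of_eq ?_) (Finset.single_le_sum (fun w _ => norm_nonneg _) hv)
    rw [Finsupp.sub_apply]
  · rw [col_good hT o ρ z x hv, col_good hT o ρ z' x hv, sub_self, norm_zero]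
    exact Finset.sum_nonneg fun w _ => norm_nonneg _

include hT in
lemma diff_norm (z z' : ℂ) (hz : ‖z‖ ≤ 1) (hz' : ‖z'‖ ≤ 1) (x : G) (M : Matrix ι ι ℂ) :
    ‖twist hT o ρ z hz x M - twist hT o ρ z' hz' x M‖ ≤
      ‖M‖ * ∑ w ∈ bad ρ o x, ∑ i : ι, ‖layer i (col ρ o z x w) - layer i (col ρ o z' x w)‖ := by
  refine norm_le_of_cols _ _ (mul_nonneg (norm_nonneg _) (Finset.sum_nonneg fun w _ =>
    Finset.sum_nonneg fun i _ => norm_nonneg _)) fun jv => ?_
  rw [sub_apply, twist_delta, twist_delta, colK, colK, ← Finset.sum_sub_distrib]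
  by_cases hv : jv.2 ∈ bad ρ o x
  · refine (norm_sum_le _ _).trans (le_trans ?_ (mul_le_mul_of_nonneg_left
      (Finset.single_le_sum (fun w _ => Finset.sum_nonneg fun i _ => norm_nonneg _) hv)
      (norm_nonneg _)))
    rw [Finset.mul_sum]
    refine Finset.sum_le_sum fun i _ => ?_
    rw [← smul_sub, norm_smul]
    exact mul_le_mul_of_nonneg_right (entry_le_norm M i jv.1) (norm_nonneg _)
  · simp only [col_good hT o ρ z _ hv, col_good hT o ρ z' _ hv, sub_self, Finset.sum_const_zero,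
      norm_zero]
    exact mul_nonneg (norm_nonneg _) (Finset.sum_nonneg fun w _ =>
      Finset.sum_nonneg fun i _ => norm_nonneg _)

/-- the twisted idempotent -/
noncomputable def lift (p : l1Sub G (Matrix ι ι ℂ))
    (hp : Summable fun x => ((len ρ o x : ℝ) + 1) ^ 2 * ‖p.1 x‖) (z : ℂ) (hz : ‖z‖ ≤ 1) :
    l1Sub G (Op (ι × V)) :=
  ⟨fun x => twist hT o ρ z hz x (p.1 x), Summable.of_nonneg_of_le (fun _ => norm_nonneg _)
    (fun x => by
      refine (twist_norm hT o ρ z hz x (p.1 x)).trans ?_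
      have h4 : 4 * (len ρ o x : ℝ) + 2 ≤ 4 * ((len ρ o x : ℝ) + 1) ^ 2 := by
        have : (0 : ℝ) ≤ (len ρ o x : ℝ) := Nat.cast_nonneg _
        nlinarith
      calc (Fintype.card ι : ℝ) * (4 * (len ρ o x : ℝ) + 2) * ‖p.1 x‖
          ≤ (Fintype.card ι : ℝ) * (4 * ((len ρ o x : ℝ) + 1) ^ 2) * ‖p.1 x‖ := by gcongr
        _ = (Fintype.card ι : ℝ) * 4 * (((len ρ o x : ℝ) + 1) ^ 2 * ‖p.1 x‖) := by ring)
    (hp.mul_left ((Fintype.card ι : ℝ) * 4))⟩

lemma lift_idem (p : l1Sub G (Matrix ι ι ℂ)) (hpp : p * p = p)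
    (hp : Summable fun x => ((len ρ o x : ℝ) + 1) ^ 2 * ‖p.1 x‖) (z : ℂ) (hz : ‖z‖ ≤ 1) :
    lift hT o ρ p hp z hz * lift hT o ρ p hp z hz = lift hT o ρ p hp z hz := by
  have : CompleteSpace (Matrix ι ι ℂ) := FiniteDimensional.complete ℂ _
  refine Subtype.ext (funext fun x => ?_)
  show ∑' y, twist hT o ρ z hz y (p.1 y) * twist hT o ρ z hz (y⁻¹ * x) (p.1 (y⁻¹ * x)) = _
  simp only [twist_mul, mul_inv_cancel_left]
  show ∑' y, twistL hT o ρ z hz x (p.1 y * p.1 (y⁻¹ * x)) = twistL hT o ρ z hz x (p.1 x)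
  refine (ContinuousLinearMap.map_tsum _ (conv_term_summable p.2 p.2 x)).symm.trans ?_
  exact congrArg _ (congrFun (congrArg Subtype.val hpp) x)

/-- total size of the exceptional columns -/
noncomputable def bnd (x : G) : ℝ := ((len ρ o x : ℝ) + 2) * (2 * (4 * (len ρ o x : ℝ) + 2))

lemma bnd_summable (p : l1Sub G (Matrix ι ι ℂ))
    (hp : Summable fun x => ((len ρ o x : ℝ) + 1) ^ 2 * ‖p.1 x‖) :
    Summable fun x => (Fintype.card ι : ℝ) * bnd o ρ x * ‖p.1 x‖ := by
  refine Summable.of_nonneg_of_le (fun x => by unfold bnd; positivity) (fun x => ?_)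
    (hp.mul_left ((Fintype.card ι : ℝ) * 16))
  have h : bnd o ρ x ≤ 16 * ((len ρ o x : ℝ) + 1) ^ 2 := by
    have : (0 : ℝ) ≤ (len ρ o x : ℝ) := Nat.cast_nonneg _
    unfold bnd
    nlinarith
  calc (Fintype.card ι : ℝ) * bnd o ρ x * ‖p.1 x‖
      ≤ (Fintype.card ι : ℝ) * (16 * ((len ρ o x : ℝ) + 1) ^ 2) * ‖p.1 x‖ := by gcongr
    _ = (Fintype.card ι : ℝ) * 16 * (((len ρ o x : ℝ) + 1) ^ 2 * ‖p.1 x‖) := by ring

include hT in
lemma cols_le (z z' : ℂ) (hz : ‖z‖ ≤ 1) (hz' : ‖z'‖ ≤ 1) (x : G) (i : ι) :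
    ∑ w ∈ bad ρ o x, ‖layer i (col ρ o z x w) - layer i (col ρ o z' x w)‖ ≤ bnd o ρ x := by
  refine (Finset.sum_le_card_nsmul _ _ (2 * (4 * (len ρ o x : ℝ) + 2)) fun w _ => ?_).trans ?_
  · refine (norm_sub_le _ _).trans ?_
    linarith [col_norm_le hT o ρ z hz (layer i) (layer_norm i) x w,
      col_norm_le hT o ρ z' hz' (layer i) (layer_norm i) x w]
  · rw [nsmul_eq_mul]
    exact mul_le_mul_of_nonneg_right (by exact_mod_cast bad_card hT o ρ x) (by positivity)

/-- the dominating row function -/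
noncomputable def rowBd (p : l1Sub G (Matrix ι ι ℂ)) (z z' : ℂ) (q : G × (ι × V)) : ℝ :=
  ‖p.1 q.1‖ * ∑ w ∈ bad ρ o q.1, ‖(col ρ o z q.1 w - col ρ o z' q.1 w) q.2.2‖

lemma row_factor (p : l1Sub G (Matrix ι ι ℂ)) (z z' : ℂ) (x : G) (w : V) (i : ι) :
    (Summable fun u => ‖(col ρ o z x w - col ρ o z' x w) u‖) ∧
      ∑' u, ‖(col ρ o z x w - col ρ o z' x w) u‖ ≤
        ‖layer i (col ρ o z x w) - layer i (col ρ o z' x w)‖ := by
  have hinj : Function.Injective fun u : V => (i, u) := fun a b h => (Prod.mk.inj h).2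
  have hval : ∀ u, ‖(col ρ o z x w - col ρ o z' x w) u‖ =
      ‖(layer i (col ρ o z x w) - layer i (col ρ o z' x w)) (i, u)‖ := fun u => by
    rw [← map_sub, layer_apply, if_pos rfl]
  simp only [hval]
  rw [l1_norm (layer i _ - layer i _)]
  exact ⟨(l1_summable _).comp_injective hinj,
    tsum_comp_le_tsum_of_inj (l1_summable _) (fun _ => norm_nonneg _) hinj⟩

include hT in
lemma rowBd_summable (p : l1Sub G (Matrix ι ι ℂ))
    (hp : Summable fun x => ((len ρ o x : ℝ) + 1) ^ 2 * ‖p.1 x‖) (z z' : ℂ) (hz : ‖z‖ ≤ 1)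
    (hz' : ‖z'‖ ≤ 1) : Summable (rowBd o ρ p z z') := by
  have hR0 : ∀ q, 0 ≤ rowBd o ρ p z z' q := fun q =>
    mul_nonneg (norm_nonneg _) (Finset.sum_nonneg fun w _ => norm_nonneg _)
  have hfac : ∀ x (i : ι), (Summable fun u => rowBd o ρ p z z' (x, i, u)) ∧
      ∑' u, rowBd o ρ p z z' (x, i, u) ≤ ‖p.1 x‖ * bnd o ρ x := by
    intro x i
    have h1 := fun w => row_factor o ρ p z z' x w i
    have h2 : Summable fun u => ∑ w ∈ bad ρ o x, ‖(col ρ o z x w - col ρ o z' x w) u‖ :=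
      summable_sum fun w _ => (h1 w).1
    have heq : (fun u => rowBd o ρ p z z' (x, i, u)) = fun u =>
        ‖p.1 x‖ * ∑ w ∈ bad ρ o x, ‖(col ρ o z x w - col ρ o z' x w) u‖ := rfl
    simp only [heq]
    refine ⟨h2.mul_left ‖p.1 x‖, ?_⟩
    rw [tsum_mul_left, Summable.tsum_finsetSum fun w _ => (h1 w).1]
    exact mul_le_mul_of_nonneg_left ((Finset.sum_le_sum fun w _ => (h1 w).2).trans
      (cols_le hT o ρ z z' hz hz' x i)) (norm_nonneg _)
  have hin : ∀ x, Summable fun iu : ι × V => rowBd o ρ p z z' (x, iu) := fun x =>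
    (summable_prod_of_nonneg fun iu => hR0 _).mpr ⟨fun i => (hfac x i).1, Summable.of_finite⟩
  refine (summable_prod_of_nonneg hR0).mpr ⟨hin, Summable.of_nonneg_of_le
    (fun x => tsum_nonneg fun iu => hR0 _) (fun x => ?_) (bnd_summable o ρ p hp)⟩
  rw [(hin x).tsum_prod, tsum_fintype]
  refine (Finset.sum_le_card_nsmul _ _ _ fun i _ => (hfac x i).2).trans (le_of_eq ?_)
  simp only [Finset.card_univ, nsmul_eq_mul]; ring

lemma lift_nuc (p : l1Sub G (Matrix ι ι ℂ))
    (hp : Summable fun x => ((len ρ o x : ℝ) + 1) ^ 2 * ‖p.1 x‖) (z z' : ℂ) (hz : ‖z‖ ≤ 1)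
    (hz' : ‖z'‖ ≤ 1) :
    Nuc (lift hT o ρ p hp z hz - lift hT o ρ p hp z' hz') (rowBd o ρ p z z') :=
  ⟨rowBd_summable hT o ρ p hp z z' hz hz',
    fun x iu jv => diff_bound hT o ρ z z' hz hz' x (p.1 x) iu.1 jv.1 iu.2 jv.2⟩

include hT in
lemma lift_continuous (p : l1Sub G (Matrix ι ι ℂ))
    (hp : Summable fun x => ((len ρ o x : ℝ) + 1) ^ 2 * ‖p.1 x‖) {X : Type*} [TopologicalSpace X]
    [FirstCountableTopology X] (z : X → ℂ) (hzc : Continuous z) (hz : ∀ t, ‖z t‖ ≤ 1) (t : X) :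
    Tendsto (fun s => ∑' x, ‖(lift hT o ρ p hp (z s) (hz s) -
      lift hT o ρ p hp (z t) (hz t)).1 x‖) (𝓝 t) (𝓝 0) := by
  have := tendsto_tsum_of_dominated_convergence
    (f := fun s x => ‖(lift hT o ρ p hp (z s) (hz s) - lift hT o ρ p hp (z t) (hz t)).1 x‖)
    (g := fun _ : G => (0 : ℝ)) (𝓕 := 𝓝 t)
    (bound := fun x => (Fintype.card ι : ℝ) * bnd o ρ x * ‖p.1 x‖) (bnd_summable o ρ p hp)
    (fun x => ?_) ?_
  · simpa using this
  · refine squeeze_zero (fun s => norm_nonneg _)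
      (fun s => diff_norm hT o ρ _ _ (hz s) (hz t) x (p.1 x)) ?_
    have hc : Continuous fun s : X => ‖p.1 x‖ * ∑ w ∈ bad ρ o x, ∑ i : ι,
        ‖layer i (col ρ o (z s) x w) - layer i (col ρ o (z t) x w)‖ :=
      continuous_const.mul (continuous_finsetSum _ fun w _ => continuous_finsetSum _
        fun i _ => (((col_continuous o ρ (layer i) x w).comp hzc).sub continuous_const).norm)
    simpa using hc.tendsto t
  · refine Eventually.of_forall fun s x => ?_
    rw [Real.norm_of_nonneg (norm_nonneg _)]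
    refine (diff_norm hT o ρ _ _ (hz s) (hz t) x (p.1 x)).trans ?_
    rw [Finset.sum_comm, mul_comm]
    refine mul_le_mul_of_nonneg_right ((Finset.sum_le_card_nsmul _ _ _ fun i _ =>
      cols_le hT o ρ _ _ (hz s) (hz t) x i).trans (le_of_eq ?_)) (norm_nonneg _)
    simp [Finset.card_univ, nsmul_eq_mul]

include hT in
/-- the relative trace does not depend on the parameter -/
lemma relTr_const (C : Set G) (hC : ∀ a b : G, a * b ∈ C ↔ b * a ∈ C)
    (p : l1Sub G (Matrix ι ι ℂ)) (hpp : p * p = p)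
    (hp : Summable fun x => ((len ρ o x : ℝ) + 1) ^ 2 * ‖p.1 x‖) :
    relTr C (lift hT o ρ p hp 1 (by simp) - lift hT o ρ p hp 0 (by simp)) = 0 := by
  let X := Set.Icc (0 : ℝ) 1
  have hz : ∀ t : X, ‖((t : ℝ) : ℂ)‖ ≤ 1 := fun t => by
    rw [Complex.norm_real, Real.norm_of_nonneg t.2.1]; exact t.2.2
  let f : X → ℂ := fun t =>
    relTr C (lift hT o ρ p hp ((t : ℝ) : ℂ) (hz t) - lift hT o ρ p hp 0 (by simp))
  have hloc : IsLocallyConstant f := by
    refine (IsLocallyConstant.iff_eventually_eq f).mpr fun t => ?_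
    filter_upwards [(lift_continuous hT o ρ p hp (fun s : X => ((s : ℝ) : ℂ))
      (Complex.continuous_ofReal.comp continuous_subtype_val) hz t).eventually
        (gt_mem_nhds one_pos)] with s hs
    have h0 := relTr_eq_zero_of_close C hC (lift_idem hT o ρ p hpp hp _ (hz s))
      (lift_idem hT o ρ p hpp hp _ (hz t)) (lift_nuc hT o ρ p hp _ _ (hz s) (hz t)) hs
    have h1 := relTr_sub C (lift_nuc hT o ρ p hp _ 0 (hz s) (by simp))
      (lift_nuc hT o ρ p hp _ 0 (hz t) (by simp))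
    rw [sub_sub_sub_cancel_right] at h1
    exact sub_eq_zero.mp (h1.symm.trans h0)
  have hpre : PreconnectedSpace X := Subtype.preconnectedSpace isPreconnected_Icc
  have h := hloc.apply_eq_of_preconnectedSpace ⟨1, zero_le_one, le_rfl⟩ ⟨0, le_rfl, zero_le_one⟩
  simp only [f, Complex.ofReal_one, Complex.ofReal_zero, sub_self, relTr_zero] at h
  exact h

open Classical in
include hT in
/-- **Traces vanish at hyperbolic elements of tree actions.** -/
theorem trace_eq_zero_of_tree (e : G → Matrix ι ι ℂ) (he : ∀ i j, Summable fun x => ‖e x i j‖)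
    (hi : ∀ x i j, ∑' y, ∑ k, e y i k * e (y⁻¹ * x) k j = e x i j) (g : G)
    (hfix : ∀ u, ρ g u ≠ u) (hinv : ∀ u w, T.Adj u w → ρ g u = w → ρ g w ≠ u) :
    ∑' x : G, {x | IsConj g x}.indicator (fun y => ∑ i, e y i i) x = 0 := by
  have : CompleteSpace (Matrix ι ι ℂ) := FiniteDimensional.complete ℂ _
  obtain ⟨o⟩ := hT.connected.nonempty
  have hn : Summable fun x => ‖e x‖ :=
    Summable.of_nonneg_of_le (fun _ => norm_nonneg _) (fun x => norm_le_entries _)
      (summable_sum fun (i : ι) (_ : i ∈ Finset.univ) =>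
        summable_sum fun (j : ι) (_ : j ∈ Finset.univ) => he i j)
  let e' : l1Sub G (Matrix ι ι ℂ) := ⟨e, hn⟩
  have he' : e' * e' = e' := by
    apply Subtype.ext
    funext x
    ext i j
    have hsum := conv_term_summable hn hn x
    show (∑' y, e y * e (y⁻¹ * x)) i j = _
    erw [tsum_apply hsum, tsum_apply (Pi.summable.mp hsum i)]
    simpa [Matrix.mul_apply, e'] using hi x i j
  obtain ⟨p, hpp, hp, hpe⟩ := exists_idem_weighted e' he' (len ρ o) (len_mul hT o ρ)
  set C : Set G := {x | IsConj g x} with hCdef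
  have hC : ∀ a b : G, a * b ∈ C ↔ b * a ∈ C := by
    intro a b
    have h : IsConj (a * b) (b * a) := isConj_iff.mpr ⟨b, by group⟩
    exact ⟨fun hx => IsConj.trans hx h, fun hx => IsConj.trans hx h.symm⟩
  have hC' : ∀ x ∈ C, (∀ u, ρ x u ≠ u) ∧ ∀ u w, T.Adj u w → ρ x u = w → ρ x w ≠ u := by
    intro x hx
    obtain ⟨k, rfl⟩ := isConj_iff.mp (show IsConj g x from hx)
    have hk : ∀ u, ρ (k * g * k⁻¹) u = ρ k (ρ g (ρ k⁻¹ u)) := fun u => by
      rw [ρ_mul, ρ_mul]
    refine ⟨fun u h => hfix (ρ k⁻¹ u) ?_, fun u w hadj h h' => hinv (ρ k⁻¹ u) (ρ k⁻¹ w)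
      (((ρ k⁻¹).map_rel_iff').mpr hadj) ?_ ?_⟩
    · rw [hk] at h; have := congrArg (ρ k⁻¹) h; rwa [ρ_inv'] at this
    · rw [hk] at h; have := congrArg (ρ k⁻¹) h; rwa [ρ_inv'] at this
    · rw [hk] at h'; have := congrArg (ρ k⁻¹) h'; rwa [ρ_inv'] at this
  have hnuc := lift_nuc hT o ρ p hp 1 0 (by simp) (by simp)
  have hconst := relTr_const hT o ρ C hC p hpp hp
  have hval : ∑' x, C.indicator (fun y => ∑ i, p.1 y i i) x = 0 := by
    refine Eq.trans ?_ hconst
    show _ = ∑' q : G × (ι × V), _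
    rw [(relTr_summable C hnuc).1.tsum_prod]
    refine tsum_congr fun x => ?_
    by_cases hx : x ∈ C
    · simp only [Set.indicator_of_mem hx]
      have hterm : ∀ iu : ι × V,
          entry ((lift hT o ρ p hp 1 (by simp) - lift hT o ρ p hp 0 (by simp)).1 x) iu iu =
            if iu.2 = o then p.1 x iu.1 iu.1 else 0 := by
        rintro ⟨i, u⟩
        show entry (twist hT o ρ 1 (by simp) x (p.1 x) - twist hT o ρ 0 (by simp) x (p.1 x)) (i, u) (i, u) = _
        rw [entry_sub, entry_twist, entry_twist, col_zero hT o ρ,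
          col_one_diag hT o ρ x (hC' x hx).1 (hC' x hx).2]
        simp [(hC' x hx).1 u]
      simp only [hterm]
      rw [tsum_eq_sum (s := Finset.univ.map ⟨fun i => (i, o), fun a b h => (Prod.mk.inj h).1⟩)]
      · rw [Finset.sum_map]
        exact Finset.sum_congr rfl fun i _ => (if_pos rfl).symm
      · intro iu hiu
        rw [if_neg]
        intro h
        exact hiu (Finset.mem_map.mpr ⟨iu.1, Finset.mem_univ _, Prod.ext rfl h.symm⟩)
    · simp [Set.indicator_of_notMem hx]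
  let Tι : Matrix ι ι ℂ →L[ℂ] ℂ := LinearMap.toContinuousLinearMap (Matrix.traceLinearMap ι ℂ ℂ)
  have hfinal := classTrace_eq_of_close Tι (fun a b => Matrix.trace_mul_comm a b) g hpp he' hpe
  exact hfinal.symm.trans hval

open Classical in
/-- The same for a subgroup of finite index acting on a tree. -/
theorem trace_eq_zero_of_tree_subgroup {G : Type*} [Group G] {ι : Type*} [Fintype ι]
    [DecidableEq ι] (e : G → Matrix ι ι ℂ) (he : ∀ i j, Summable fun x => ‖e x i j‖)
    (hi : ∀ x i j, ∑' y, ∑ k, e y i k * e (y⁻¹ * x) k j = e x i j) (g : G)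
    (H : Subgroup G) (hH : H.FiniteIndex) (hg : g ∈ H) {V : Type*} {T : SimpleGraph V}
    (hT : T.IsTree) (ρ : H →* (T ≃g T))
    (hfix : ∀ u, ρ ⟨g, hg⟩ u ≠ u)
    (hinv : ∀ u w, T.Adj u w → ρ ⟨g, hg⟩ u = w → ρ ⟨g, hg⟩ w ≠ u) :
    ∑' x : G, {x | IsConj g x}.indicator (fun y => ∑ i, e y i i) x = 0 :=
  trace_eq_zero_of_subgroup e he hi g H hH hg
    fun R hR hRi => trace_eq_zero_of_tree hT ρ R hR hRi _ hfix hinv

end Vale.Agent.P184.Tree
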