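import Mathlib

/-!
Trace vanishing for idempotents over `l^1(G)` by twisting with characters.
-/

namespace Vale.Agent.P184

open Filter Topology

section algebra

variable {R : Type*} [NonUnitalRing R]

/-- iterates of left multiplication -/
def iterMul (s p : R) : ℕ → R
  | 0 => p
  | j + 1 => s * iterMul s p j

/-- nearby idempotents have the same trace -/
lemma trace_eq_of_close (τ : R →+ ℂ) (hτ : ∀ a b, τ (a * b) = τ (b * a))
    (N : R → ℝ) (hN0 : ∀ a, 0 ≤ N a) (hN : ∀ a b, N (a * b) ≤ N a * N b)
    (c : ℝ) (hc0 : 0 ≤ c) (hc : ∀ a, ‖τ a‖ ≤ c * N a)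
    {p q : R} (hp : p * p = p) (hq : q * q = q) (hd : N (p - q) < 1) : τ p = τ q := by
  set s := (p - q) * (p - q) with hs
  have hs' : s = p + q - p * q - q * p := by
    rw [hs]; simp only [sub_mul, mul_sub, hp, hq]; abel
  have hps : p * s = s * p := by
    rw [hs']; simp only [mul_sub, sub_mul, mul_add, add_mul, ← mul_assoc, hp]
    simp only [mul_assoc, hp]; abel
  have hqs : q * s = s * q := by
    rw [hs']; simp only [mul_sub, sub_mul, mul_add, add_mul, ← mul_assoc, hq]
    simp only [mul_assoc, hq]; abel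
  set U := iterMul s p with hU
  set V := iterMul s q with hV
  have hpU : ∀ j, p * U j = U j := by
    intro j; induction j with
    | zero => exact hp
    | succ j ih => simp only [hU, iterMul] at ih ⊢; rw [← mul_assoc, hps, mul_assoc, ih]
  have hUp : ∀ j, U j * p = U j := by
    intro j; induction j with
    | zero => exact hp
    | succ j ih => simp only [hU, iterMul] at ih ⊢; rw [mul_assoc, ih]
  have hqV : ∀ j, q * V j = V j := by
    intro j; induction j with
    | zero => exact hq
    | succ j ih => simp only [hV, iterMul] at ih ⊢; rw [← mul_assoc, hqs, mul_assoc, ih]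
  have hVq : ∀ j, V j * q = V j := by
    intro j; induction j with
    | zero => exact hq
    | succ j ih => simp only [hV, iterMul] at ih ⊢; rw [mul_assoc, ih]
  have hx : ∀ j, p * V j = U j * q := by
    intro j; induction j with
    | zero => rfl
    | succ j ih =>
      simp only [hU, hV, iterMul] at ih ⊢
      rw [← mul_assoc, hps, mul_assoc, ih, ← mul_assoc]
  have hU1 : ∀ j, τ (U (j + 1)) = τ (U j) - τ (U j * q) := by
    intro j
    have : U (j + 1) = s * U j := rfl
    rw [this, hτ, hs']
    simp only [mul_sub, mul_add, ← mul_assoc, hUp]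
    rw [map_sub, map_sub, map_add, hτ (U j * q) p, ← mul_assoc p, hpU]
    ring
  have hV1 : ∀ j, τ (V (j + 1)) = τ (V j) - τ (U j * q) := by
    intro j
    have : V (j + 1) = s * V j := rfl
    rw [this, hτ, hs', ← hx, hτ p (V j)]
    simp only [mul_sub, mul_add, ← mul_assoc, hVq]
    rw [map_sub, map_sub, map_add, hτ (V j * p) q, ← mul_assoc q, hqV]
    ring
  have key : ∀ j, τ (U j - V j) = τ p - τ q := by
    intro j; induction j with
    | zero => simp [hU, hV, iterMul]
    | succ j ih => rw [map_sub, hU1, hV1] ; rw [map_sub] at ih; rw [← ih]; ring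
  have bound : ∀ j, N (U j - V j) ≤ N (p - q) ^ (2 * j + 1) := by
    intro j; induction j with
    | zero => simp [hU, hV, iterMul]
    | succ j ih =>
      have : U (j + 1) - V (j + 1) = s * (U j - V j) := by
        simp only [hU, hV, iterMul]; rw [mul_sub]
      rw [this]
      calc N (s * (U j - V j)) ≤ N s * N (U j - V j) := hN _ _
        _ ≤ (N (p - q) * N (p - q)) * N (p - q) ^ (2 * j + 1) :=
            mul_le_mul (hN _ _) ih (hN0 _) (mul_nonneg (hN0 _) (hN0 _))
        _ = N (p - q) ^ (2 * (j + 1) + 1) := by ring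
  have lim : Tendsto (fun j => c * N (p - q) ^ (2 * j + 1)) atTop (𝓝 0) := by
    have h1 : Tendsto (fun j : ℕ => N (p - q) ^ (2 * j + 1)) atTop (𝓝 0) :=
      (tendsto_pow_atTop_nhds_zero_of_lt_one (hN0 _) hd).comp
        (tendsto_atTop_mono (fun j => by simp only [id]; omega) tendsto_id)
    simpa using h1.const_mul c
  have : ‖τ p - τ q‖ ≤ 0 := ge_of_tendsto' lim fun j => by
    rw [← key j]; exact (hc _).trans (mul_le_mul_of_nonneg_left (bound j) hc0)
  exact sub_eq_zero.mp (norm_le_zero_iff.mp this)

end algebra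

section conv

variable (G : Type*) [Group G] (A : Type*) [NormedRing A]

/-- norm summable functions -/
def l1Sub : AddSubgroup (G → A) where
  carrier := {f | Summable fun x => ‖f x‖}
  zero_mem' := by simp [summable_zero]
  add_mem' {f g} hf hg := Summable.of_nonneg_of_le (fun _ => norm_nonneg _)
    (fun x => norm_add_le _ _) (hf.add hg)
  neg_mem' {f} hf := by
    show Summable fun x => ‖(-f) x‖
    simpa using hf

variable {G A}

lemma shear_summable {f g : G → A} (hf : Summable fun x => ‖f x‖) (hg : Summable fun x => ‖g x‖) :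
    Summable fun p : G × G => ‖f p.1‖ * ‖g (p.1⁻¹ * p.2)‖ := by
  have := hf.mul_of_nonneg hg (fun _ => norm_nonneg _) (fun _ => norm_nonneg _)
  let E : G × G ≃ G × G :=
    { toFun := fun p => (p.1, p.1⁻¹ * p.2)
      invFun := fun p => (p.1, p.1 * p.2)
      left_inv := fun p => by simp
      right_inv := fun p => by simp }
  exact (E.summable_iff.mpr this : _)

lemma shear_summable' {f g : G → A} (hf : Summable fun x => ‖f x‖) (hg : Summable fun x => ‖g x‖) :
    Summable fun p : G × G => ‖f p.1 * g (p.1⁻¹ * p.2)‖ :=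
  Summable.of_nonneg_of_le (fun _ => norm_nonneg _) (fun _ => norm_mul_le _ _) (shear_summable hf hg)

/-- convolution -/
noncomputable def conv (f g : G → A) (x : G) : A := ∑' y, f y * g (y⁻¹ * x)

variable [CompleteSpace A]

lemma conv_term_summable {f g : G → A} (hf : Summable fun x => ‖f x‖) (hg : Summable fun x => ‖g x‖)
    (x : G) : Summable fun y => f y * g (y⁻¹ * x) := by
  apply Summable.of_norm
  exact (shear_summable' hf hg).comp_injective
    (i := fun y => (y, x)) (fun a b h => (Prod.mk.inj h).1)

lemma conv_norm {f g : G → A} (hf : Summable fun x => ‖f x‖) (hg : Summable fun x => ‖g x‖) :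
    (Summable fun x => ‖conv f g x‖) ∧
      ∑' x, ‖conv f g x‖ ≤ (∑' x, ‖f x‖) * ∑' x, ‖g x‖ := by
  have h := (shear_summable hf hg).prod_symm
  have hle : ∀ x, ‖conv f g x‖ ≤ ∑' y, ‖f y‖ * ‖g (y⁻¹ * x)‖ := fun x => by
    refine tsum_of_norm_bounded (h.prod_factor x).hasSum ?_
    exact fun y => norm_mul_le _ _
  have hs : Summable fun x => ‖conv f g x‖ :=
    Summable.of_nonneg_of_le (fun _ => norm_nonneg _) hle h.prod
  refine ⟨hs, (hs.tsum_le_tsum hle h.prod).trans (le_of_eq ?_)⟩
  rw [(shear_summable hf hg).tsum_comm, ← tsum_mul_right]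
  refine tsum_congr fun y => ?_
  rw [tsum_mul_left, ← (Equiv.mulLeft y⁻¹).tsum_eq fun x => ‖g x‖]
  rfl

lemma conv_assoc {f g h : G → A} (hf : Summable fun x => ‖f x‖) (hg : Summable fun x => ‖g x‖)
    (hh : Summable fun x => ‖h x‖) : conv (conv f g) h = conv f (conv g h) := by
  funext x
  set M := ∑' z, ‖h z‖
  have hF : Summable fun p : G × G => f p.1 * g (p.1⁻¹ * p.2) * h (p.2⁻¹ * x) := by
    apply Summable.of_norm
    refine Summable.of_nonneg_of_le (fun _ => norm_nonneg _) ?_ ((shear_summable hf hg).mul_right M)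
    intro p
    refine (norm_mul₃_le).trans ?_
    exact mul_le_mul_of_nonneg_left (hh.le_tsum _ fun _ _ => norm_nonneg _)
      (mul_nonneg (norm_nonneg _) (norm_nonneg _))
  calc conv (conv f g) h x
      = ∑' y, ∑' a, f a * g (a⁻¹ * y) * h (y⁻¹ * x) :=
        tsum_congr fun y => ((conv_term_summable hf hg y).tsum_mul_right _).symm
    _ = ∑' a, ∑' y, f a * g (a⁻¹ * y) * h (y⁻¹ * x) := hF.tsum_comm
    _ = conv f (conv g h) x := tsum_congr fun a => by
        show _ = f a * ∑' b, g b * h (b⁻¹ * (a⁻¹ * x))
        rw [← (conv_term_summable hg hh (a⁻¹ * x)).tsum_mul_left,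
          ← (Equiv.mulLeft a).tsum_eq]
        exact tsum_congr fun b => by simp [mul_assoc]

noncomputable instance : Mul (l1Sub G A) :=
  ⟨fun f g => ⟨conv f.1 g.1, (conv_norm f.2 g.2).1⟩⟩

lemma mul_val (f g : l1Sub G A) : (f * g).1 = conv f.1 g.1 := rfl

noncomputable instance instL1Ring : NonUnitalRing (l1Sub G A) :=
  { (inferInstance : AddCommGroup (l1Sub G A)), (inferInstance : Mul (l1Sub G A)) with
    left_distrib := fun a b c => by
      apply Subtype.ext; funext x
      show conv a.1 (b.1 + c.1) x = conv a.1 b.1 x + conv a.1 c.1 x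
      simp only [conv, Pi.add_apply, mul_add]
      exact (conv_term_summable a.2 b.2 x).tsum_add (conv_term_summable a.2 c.2 x)
    right_distrib := fun a b c => by
      apply Subtype.ext; funext x
      show conv (a.1 + b.1) c.1 x = conv a.1 c.1 x + conv b.1 c.1 x
      simp only [conv, Pi.add_apply, add_mul]
      exact (conv_term_summable a.2 c.2 x).tsum_add (conv_term_summable b.2 c.2 x)
    zero_mul := fun a => by
      apply Subtype.ext; funext x
      show conv (0 : G → A) a.1 x = 0
      simp [conv]
    mul_zero := fun a => by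
      apply Subtype.ext; funext x
      show conv a.1 (0 : G → A) x = 0
      simp [conv]
    mul_assoc := fun a b c => Subtype.ext (conv_assoc a.2 b.2 c.2) }

variable [NormedAlgebra ℂ A]

lemma conv_trace_comm (T : A →L[ℂ] ℂ) (hT : ∀ a b, T (a * b) = T (b * a)) (C : Set G)
    (hC : ∀ a b : G, a * b ∈ C ↔ b * a ∈ C) {f g : G → A}
    (hf : Summable fun x => ‖f x‖) (hg : Summable fun x => ‖g x‖) :
    ∑' x, C.indicator (fun y => T (conv f g y)) x = ∑' x, C.indicator (fun y => T (conv g f y)) x := by
  classical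
  have expand : ∀ {f g : G → A}, (Summable fun x => ‖f x‖) → (Summable fun x => ‖g x‖) →
      (∑' x, C.indicator (fun y => T (conv f g y)) x
        = ∑' a, ∑' b, if a * b ∈ C then T (f a * g b) else 0) ∧
      Summable fun p : G × G => if p.1 * p.2 ∈ C then T (f p.1 * g p.2) else 0 := by
    intro f g hf hg
    have hb : Summable fun p : G × G => if p.1 * p.2 ∈ C then T (f p.1 * g p.2) else 0 := by
      apply Summable.of_norm_bounded ((hf.mul_of_nonneg hg (fun _ => norm_nonneg _)
        (fun _ => norm_nonneg _)).mul_left ‖T‖)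
      intro p
      split_ifs
      · exact (T.le_opNorm _).trans (mul_le_mul_of_nonneg_left (norm_mul_le _ _) (norm_nonneg _))
      · simp only [norm_zero]; positivity
    refine ⟨?_, hb⟩
    have hsh : Summable fun p : G × G => C.indicator (fun x => T (f p.1 * g (p.1⁻¹ * x))) p.2 := by
      apply Summable.of_norm_bounded ((shear_summable hf hg).mul_left ‖T‖)
      intro p
      refine (norm_indicator_le_norm_self _ _).trans ?_
      exact (T.le_opNorm _).trans (mul_le_mul_of_nonneg_left (norm_mul_le _ _) (norm_nonneg _))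
    calc ∑' x, C.indicator (fun y => T (conv f g y)) x
        = ∑' x, ∑' y, C.indicator (fun x => T (f y * g (y⁻¹ * x))) x := tsum_congr fun x => by
          by_cases hx : x ∈ C
          · simp only [Set.indicator_of_mem hx, conv]
            exact T.map_tsum (conv_term_summable hf hg x)
          · simp [Set.indicator_of_notMem hx]
      _ = ∑' y, ∑' x, C.indicator (fun x => T (f y * g (y⁻¹ * x))) x := hsh.tsum_comm
      _ = _ := tsum_congr fun y => by
          rw [← (Equiv.mulLeft y).tsum_eq]
          exact tsum_congr fun b => by simp [Set.indicator_apply]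
  rw [(expand hf hg).1, (expand hg hf).1]
  rw [← Summable.tsum_comm (f := fun a b => if a * b ∈ C then T (g a * f b) else 0) (expand hg hf).2]
  exact tsum_congr fun a => tsum_congr fun b => by
    simp only [hC b a, hT (g b) (f a)]

/-- Idempotents over `l^1(G, A)` have zero trace where a real character is nonzero. -/
theorem trace_eq_zero_of_character (T : A →L[ℂ] ℂ) (hT : ∀ a b, T (a * b) = T (b * a))
    (φ : G → ℝ) (hφ : ∀ a b, φ (a * b) = φ a + φ b) (e : G → A)
    (he : Summable fun x => ‖e x‖) (hi : conv e e = e) {g : G} (hg : φ g ≠ 0) :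
    ∑' x, {x | IsConj g x}.indicator (fun y => T (e y)) x = 0 := by
  set C : Set G := {x | IsConj g x}
  have hC : ∀ a b : G, a * b ∈ C ↔ b * a ∈ C := by
    intro a b
    have h : IsConj (a * b) (b * a) := isConj_iff.mpr ⟨b, by group⟩
    exact ⟨fun hx => IsConj.trans hx h, fun hx => IsConj.trans hx h.symm⟩
  let χ : ℝ → G → ℂ := fun t x => Complex.exp (↑(t * φ x) * Complex.I)
  have hχn : ∀ t x, ‖χ t x‖ = 1 := fun t x => Complex.norm_exp_ofReal_mul_I _
  have hχm : ∀ t a b, χ t (a * b) = χ t a * χ t b := fun t a b => by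
    simp only [χ, hφ, mul_add, Complex.ofReal_add, add_mul, Complex.exp_add]
  let E : ℝ → G → A := fun t x => χ t x • e x
  have hE : ∀ t, Summable fun x => ‖E t x‖ := fun t => by simpa [E, norm_smul, hχn] using he
  have hEi : ∀ t, conv (E t) (E t) = E t := fun t => by
    funext x
    show _ = χ t x • e x
    conv_rhs => rw [← hi]
    simp only [conv, E]
    rw [← (conv_term_summable he he x).tsum_const_smul]
    refine tsum_congr fun y => ?_
    rw [smul_mul_smul_comm, ← hχm, mul_inv_cancel_left]
  -- the trace as an additive map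
  have hsum : ∀ f : l1Sub G A, Summable fun x => C.indicator (fun y => T (f.1 y)) x := fun f => by
    apply Summable.of_norm_bounded (f.2.mul_left ‖T‖)
    exact fun x => (norm_indicator_le_norm_self _ _).trans (T.le_opNorm _)
  let τ : l1Sub G A →+ ℂ := AddMonoidHom.mk' (fun f => ∑' x, C.indicator (fun y => T (f.1 y)) x)
    fun a b => by
      rw [← (hsum a).tsum_add (hsum b)]
      refine tsum_congr fun x => ?_
      by_cases hx : x ∈ C <;> simp [hx]
  let N : l1Sub G A → ℝ := fun f => ∑' x, ‖f.1 x‖
  have hτN : ∀ f, ‖τ f‖ ≤ ‖T‖ * N f := fun f => by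
    refine tsum_of_norm_bounded (f.2.hasSum.mul_left ‖T‖) fun x => ?_
    exact (norm_indicator_le_norm_self _ _).trans (T.le_opNorm _)
  have close : ∀ t, (∑' x, ‖E t x - e x‖) < 1 →
      ∑' x, C.indicator (fun y => T (E t y)) x = ∑' x, C.indicator (fun y => T (e y)) x := by
    intro t ht
    exact trace_eq_of_close τ (fun a b => conv_trace_comm T hT C hC a.2 b.2) N
      (fun _ => tsum_nonneg fun _ => norm_nonneg _) (fun a b => (conv_norm a.2 b.2).2)
      ‖T‖ (norm_nonneg _) hτN (p := ⟨E t, hE t⟩) (q := ⟨e, he⟩)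
      (Subtype.ext (hEi t)) (Subtype.ext hi) ht
  have lim : Tendsto (fun t => ∑' x, ‖E t x - e x‖) (𝓝 0) (𝓝 0) := by
    have := tendsto_tsum_of_dominated_convergence (f := fun t x => ‖E t x - e x‖)
      (g := fun _ : G => (0 : ℝ)) (𝓕 := 𝓝 (0 : ℝ)) (bound := fun x => 2 * ‖e x‖)
      (he.mul_left 2) (fun x => ?_) (Eventually.of_forall fun t x => ?_)
    · simpa using this
    · have hc : Continuous fun t => ‖E t x - e x‖ := by
        simp only [E, χ]; fun_prop
      simpa [E, χ] using hc.tendsto 0
    · rw [Real.norm_of_nonneg (norm_nonneg _)]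
      refine (norm_sub_le _ _).trans ?_
      simp [E, norm_smul, hχn]; linarith
  obtain ⟨δ, hδ, hδ'⟩ := Metric.eventually_nhds_iff.mp (lim.eventually (gt_mem_nhds one_pos))
  set t : ℝ := min (δ / 2) (Real.pi / |φ g|) with htdef
  have ht0 : 0 < t := lt_min (by linarith) (div_pos Real.pi_pos (abs_pos.mpr hg))
  have ht1 := close t (hδ' (by
    rw [dist_zero_right, Real.norm_of_nonneg ht0.le]
    exact (min_le_left _ _).trans_lt (by linarith)))
  have hconst : ∀ x ∈ C, χ t x = χ t g := fun x hx => by
    obtain ⟨c, rfl⟩ := isConj_iff.mp hx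
    have h1 : φ 1 = 0 := by have := hφ 1 1; rw [one_mul] at this; linarith
    have h2 : φ c⁻¹ = -φ c := by have := hφ c⁻¹ c; rw [inv_mul_cancel, h1] at this; linarith
    simp only [χ, hφ, h2]; congr 2; push_cast; ring
  have hscale : ∑' x, C.indicator (fun y => T (E t y)) x
      = χ t g * ∑' x, C.indicator (fun y => T (e y)) x := by
    rw [← tsum_mul_left]
    refine tsum_congr fun x => ?_
    by_cases hx : x ∈ C
    · simp [hx, E, hconst x hx]
    · simp [hx]
  have hne : χ t g ≠ 1 := by
    intro h
    obtain ⟨k, hk⟩ := Complex.exp_eq_one_iff.mp h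
    have hk' : t * φ g = k * (2 * Real.pi) := by
      have := congrArg Complex.im hk
      simpa using this
    have hb : |t * φ g| ≤ Real.pi := by
      rw [abs_mul, abs_of_pos ht0]
      calc t * |φ g| ≤ Real.pi / |φ g| * |φ g| :=
            mul_le_mul_of_nonneg_right (min_le_right _ _) (abs_nonneg _)
        _ = Real.pi := div_mul_cancel₀ _ (abs_ne_zero.mpr hg)
    have hk0 : k ≠ 0 := by
      rintro rfl
      exact mul_ne_zero ht0.ne' hg (by simpa using hk')
    have : (1 : ℝ) ≤ |(k : ℝ)| := by exact_mod_cast Int.one_le_abs hk0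
    rw [hk', abs_mul, abs_of_pos Real.two_pi_pos] at hb
    nlinarith [Real.pi_pos]
  rw [hscale] at ht1
  by_contra h0
  exact hne (mul_right_cancel₀ h0 (by rw [ht1, one_mul]))

end conv

end Vale.Agent.P184
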